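import Vale.Agent.P078.Mix.Order

/-!
# Block compressions `a ↦ ∑ e_i a x_i`
-/

namespace Vale.Agent.P078.Finite

open ComplexInnerProductSpace
open Filter Topology
open Vale.Agent.P078 Vale.Agent.P078.General

universe u

variable {H : Type u} [NormedAddCommGroup H] [InnerProductSpace ℂ H] [CompleteSpace H]
variable {M : VonNeumannAlgebra H} {A : StarSubalgebra ℂ (H →L[ℂ] H)} {Ω : H}

/-- Two families of orthogonal projections of `A` with the same index set. -/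
structure Blocks (A : StarSubalgebra ℂ (H →L[ℂ] H)) where
  ι : Type
  fin : Fintype ι
  e : ι → (H →L[ℂ] H)
  x : ι → (H →L[ℂ] H)
  e_mem : ∀ i, e i ∈ A
  x_mem : ∀ i, x i ∈ A
  e_proj : ∀ i, IsStarProjection (e i)
  x_proj : ∀ i, IsStarProjection (x i)
  e_orth : ∀ i j, i ≠ j → e i * e j = 0
  x_orth : ∀ i j, i ≠ j → x i * x j = 0

attribute [instance] Blocks.fin

namespace Blocks

variable (L : Blocks A)

/-- `a ↦ ∑ e_i a x_i`. -/
noncomputable def op (a : H →L[ℂ] H) : H →L[ℂ] H := ∑ i, L.e i * a * L.x i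

/-- Exchange the two sides. -/
def swap : Blocks A where
  ι := L.ι
  fin := L.fin
  e := L.x
  x := L.e
  e_mem := L.x_mem
  x_mem := L.e_mem
  e_proj := L.x_proj
  x_proj := L.e_proj
  e_orth := L.x_orth
  x_orth := L.e_orth

lemma op_star (a : H →L[ℂ] H) : L.op (star a) = star (L.swap.op a) := by
  simp only [op, swap, star_sum, star_mul, mul_assoc]
  exact Finset.sum_congr rfl (fun i _ => by
    rw [(L.e_proj i).isSelfAdjoint.star_eq, (L.x_proj i).isSelfAdjoint.star_eq])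

lemma op_sub (a b : H →L[ℂ] H) : L.op (a - b) = L.op a - L.op b := by
  simp [op, mul_sub, sub_mul, Finset.sum_sub_distrib]

lemma op_mem (hA : IsMASAIn M A) {a : H →L[ℂ] H} (ha : a ∈ M) : L.op a ∈ M :=
  sum_mem (fun i _ => mul_mem (mul_mem (hA.mem_M (L.e_mem i)) ha) (hA.mem_M (L.x_mem i)))

lemma op_mul_left (hA : IsMASAIn M A) {e : H →L[ℂ] H} (he : e ∈ A) (a : H →L[ℂ] H) :
    L.op (e * a) = e * L.op a := by
  simp only [op, Finset.mul_sum, ← mul_assoc]
  exact Finset.sum_congr rfl (fun i _ => by rw [hA.comm (L.e_mem i) he])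

lemma op_mul_right (hA : IsMASAIn M A) {x : H →L[ℂ] H} (hx : x ∈ A) (a : H →L[ℂ] H) :
    L.op (a * x) = L.op a * x := by
  simp only [op, Finset.sum_mul, mul_assoc]
  exact Finset.sum_congr rfl (fun i _ => by rw [hA.comm hx (L.x_mem i)])

lemma norm_op_le (a : H →L[ℂ] H) : ‖L.op a‖ ≤ ‖a‖ := by
  refine ContinuousLinearMap.opNorm_le_bound _ (norm_nonneg _) (fun v => ?_)
  refine (sq_le_sq₀ (norm_nonneg _) (by positivity)).1 ?_
  calc ‖L.op a v‖ ^ 2 = ‖∑ i, L.e i (a (L.x i v))‖ ^ 2 := by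
        simp [op, _root_.sum_apply]
    _ = ∑ i, ‖L.e i (a (L.x i v))‖ ^ 2 :=
        norm_sq_sum_left Finset.univ L.e L.e_proj L.e_orth (fun i => a (L.x i v))
    _ ≤ ∑ i, ‖a‖ ^ 2 * ‖L.x i v‖ ^ 2 := Finset.sum_le_sum (fun i _ => by
        rw [← mul_pow]
        exact pow_le_pow_left₀ (norm_nonneg _)
          ((proj_norm_le (L.e_proj i) _).trans (a.le_opNorm _)) 2)
    _ = ‖a‖ ^ 2 * ‖(∑ i, L.x i) v‖ ^ 2 := by
        rw [← Finset.mul_sum, _root_.sum_apply,
          norm_sq_sum_left Finset.univ L.x L.x_proj L.x_orth (fun _ => v)]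
    _ ≤ (‖a‖ * ‖v‖) ^ 2 := by
        rw [mul_pow]
        exact mul_le_mul_of_nonneg_left (pow_le_pow_left₀ (norm_nonneg _)
          (proj_norm_le (sum_isStarProjection _ _ L.x_proj L.x_orth) _) 2) (sq_nonneg _)

variable (h : FinSetting M A Ω)
include h

lemma inner_term {a b : H →L[ℂ] H} (ha : a ∈ M) (hb : b ∈ M) (i : L.ι) :
    ⟪(L.e i * a * L.x i) Ω, b Ω⟫ = ⟪a Ω, (L.e i * b * L.x i) Ω⟫ := by
  have he := h.masa.mem_M (L.e_mem i)
  have hx := h.masa.mem_M (L.x_mem i)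
  rw [inner_eq h, inner_eq h, star_mul, star_mul, (L.e_proj i).isSelfAdjoint.star_eq,
    (L.x_proj i).isSelfAdjoint.star_eq, mul_assoc (L.x i),
    h.tracial _ hx _ (mul_mem (mul_mem (star_mem ha) he) hb)]
  simp only [mul_assoc]

lemma inner_op {a b : H →L[ℂ] H} (ha : a ∈ M) (hb : b ∈ M) :
    ⟪L.op a Ω, b Ω⟫ = ⟪a Ω, L.op b Ω⟫ := by
  simp only [op, _root_.sum_apply, sum_inner, inner_sum]
  exact Finset.sum_congr rfl (fun i _ => inner_term L h ha hb i)

omit h in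
lemma op_op (a : H →L[ℂ] H) : L.op (L.op a) = L.op a := by
  simp only [op, Finset.mul_sum, Finset.sum_mul]
  refine Finset.sum_congr rfl (fun i _ => ?_)
  rw [Finset.sum_eq_single i]
  · simp only [← mul_assoc, (L.e_proj i).isIdempotentElem.eq]
    simp only [mul_assoc, (L.x_proj i).isIdempotentElem.eq]
  · intro j _ hj
    simp only [← mul_assoc, L.e_orth i j hj.symm, zero_mul]
  · simp

lemma inner_op_self {a : H →L[ℂ] H} (ha : a ∈ M) :
    ⟪L.op a Ω, a Ω⟫ = ((‖L.op a Ω‖ ^ 2 : ℝ) : ℂ) := by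
  conv_lhs => rw [← op_op L a]
  rw [inner_op L h (op_mem L h.masa ha) ha, inner_self_eq_norm_sq_to_K]
  norm_cast

lemma norm_op_apply_le {a : H →L[ℂ] H} (ha : a ∈ M) : ‖L.op a Ω‖ ≤ ‖a Ω‖ := by
  have h1 := congrArg (fun z : ℂ => ‖z‖) (inner_op_self L h ha)
  simp only [Complex.norm_real, Real.norm_of_nonneg (sq_nonneg ‖L.op a Ω‖)] at h1
  have h2 := norm_inner_le_norm (𝕜 := ℂ) (L.op a Ω) (a Ω)
  rw [h1, sq] at h2
  rcases eq_or_lt_of_le (norm_nonneg (L.op a Ω)) with h0 | h0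
  · rw [← h0]; positivity
  · exact le_of_mul_le_mul_left h2 h0

lemma norm_sq_op (a : H →L[ℂ] H) :
    ‖L.op a Ω‖ ^ 2 = ∑ i, ‖(L.e i * a * L.x i) Ω‖ ^ 2 := by
  have _ := h
  simp only [op, _root_.sum_apply, mul_apply_eq_comp]
  exact norm_sq_sum_left Finset.univ L.e L.e_proj L.e_orth (fun i => a (L.x i Ω))

omit h in
/-- The family whose compression is the composite. -/
def prod (hA : IsMASAIn M A) (L' : Blocks A) : Blocks A where
  ι := L.ι × L'.ι
  fin := inferInstance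
  e k := L.e k.1 * L'.e k.2
  x k := L.x k.1 * L'.x k.2
  e_mem _ := mul_mem (L.e_mem _) (L'.e_mem _)
  x_mem _ := mul_mem (L.x_mem _) (L'.x_mem _)
  e_proj _ := hA.mul_proj (L.e_proj _) (L'.e_proj _) (L.e_mem _) (L'.e_mem _)
  x_proj _ := hA.mul_proj (L.x_proj _) (L'.x_proj _) (L.x_mem _) (L'.x_mem _)
  e_orth k l hkl := by
    rw [mul_assoc, ← mul_assoc (L'.e k.2), hA.comm (L'.e_mem k.2) (L.e_mem l.1), mul_assoc,
      ← mul_assoc (L.e k.1)]
    by_cases h1 : k.1 = l.1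
    · rw [L'.e_orth _ _ (fun h2 => hkl (Prod.ext h1 h2)), mul_zero]
    · rw [L.e_orth _ _ h1, zero_mul]
  x_orth k l hkl := by
    rw [mul_assoc, ← mul_assoc (L'.x k.2), hA.comm (L'.x_mem k.2) (L.x_mem l.1), mul_assoc,
      ← mul_assoc (L.x k.1)]
    by_cases h1 : k.1 = l.1
    · rw [L'.x_orth _ _ (fun h2 => hkl (Prod.ext h1 h2)), mul_zero]
    · rw [L.x_orth _ _ h1, zero_mul]

omit h in
lemma prod_op (hA : IsMASAIn M A) (L' : Blocks A) (a : H →L[ℂ] H) :
    (L.prod hA L').op a = L.op (L'.op a) := by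
  change ∑ k : L.ι × L'.ι, L.e k.1 * L'.e k.2 * a * (L.x k.1 * L'.x k.2) = _
  simp only [op, Finset.mul_sum, Finset.sum_mul]
  rw [Fintype.sum_prod_type]
  refine Finset.sum_congr rfl (fun i _ => Finset.sum_congr rfl (fun j _ => ?_))
  rw [hA.comm (L.x_mem i) (L'.x_mem j)]
  simp only [mul_assoc]

end Blocks

end Vale.Agent.P078.Finite
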