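import Vale.Agent.P078.Mix.Decay

/-!
# Expansion of words in a random centred colour indicator
-/

set_option linter.unusedSectionVars false

namespace Vale.Agent.P078.Finite

open ComplexInnerProductSpace
open Filter Topology
open Vale.Agent.P078 Vale.Agent.P078.General
open scoped CStarAlgebra

universe u

variable {H : Type u} [NormedAddCommGroup H] [InnerProductSpace ℂ H] [CompleteSpace H]
variable {M : VonNeumannAlgebra H} {A : StarSubalgebra ℂ (H →L[ℂ] H)} {Ω : H}
variable {V : Type} [Fintype V] [DecidableEq V]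

/-- The centred indicator of colour `c`. -/
noncomputable def xi {r : ℕ} (c x : Fin r) : ℝ := (if x = c then 1 else 0) - 1 / r

lemma abs_xi_le {r : ℕ} (c x : Fin r) : |xi c x| ≤ 1 := by
  have h1 : (1 : ℝ) ≤ r := by exact_mod_cast Nat.succ_le_of_lt x.pos
  have h2 : (1 : ℝ) / r ≤ 1 := (div_le_one (by linarith)).2 h1
  have h3 : (0 : ℝ) ≤ 1 / r := by positivity
  rw [abs_le, xi]
  split_ifs <;> constructor <;> linarith

lemma sum_xi {r : ℕ} (c : Fin r) : ∑ x, xi c x = 0 := by
  have : (r : ℝ) ≠ 0 := by exact_mod_cast (c.pos).ne'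
  simp [xi, Finset.sum_sub_distrib, this]

/-- The moment of the centred indicators along a valuation. -/
noncomputable def moment {r : ℕ} (c : Fin r) {ι : Type} [Fintype ι] {n : ℕ} (val : ι → Fin n) : ℝ :=
  ((Fintype.card (Fin n → Fin r) : ℝ))⁻¹ * ∑ f : Fin n → Fin r, ∏ i, xi c (f (val i))

lemma abs_moment_le {r : ℕ} (c : Fin r) {ι : Type} [Fintype ι] {n : ℕ} (val : ι → Fin n) :
    |moment c val| ≤ 1 := by
  have : Nonempty (Fin n → Fin r) := ⟨fun _ => c⟩
  have hN : (0 : ℝ) < Fintype.card (Fin n → Fin r) := by exact_mod_cast Fintype.card_pos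
  rw [moment, abs_mul, abs_inv, abs_of_pos hN, inv_mul_le_iff₀ hN, mul_one]
  refine (Finset.abs_sum_le_sum_abs _ _).trans ?_
  refine (Finset.sum_le_card_nsmul _ _ 1 (fun f _ => ?_)).trans (by simp)
  rw [Finset.abs_prod]
  exact Finset.prod_le_one (fun i _ => abs_nonneg _) (fun i _ => abs_xi_le _ _)

/-- Pairs identified by a valuation. -/
def kerSet {ι α : Type} [Fintype ι] [DecidableEq α] (val : ι → α) : Finset (ι × ι) :=
  Finset.univ.filter (fun p => val p.1 = val p.2)

lemma mem_kerSet {ι α : Type} [Fintype ι] [DecidableEq α] {val : ι → α} {p : ι × ι} :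
    p ∈ kerSet val ↔ val p.1 = val p.2 := by simp [kerSet]

/-- A moment depends only on the kernel. -/
lemma moment_congr {r : ℕ} (c : Fin r) {ι : Type} [Fintype ι] [DecidableEq ι] {n : ℕ}
    {val val' : ι → Fin n} (hk : kerSet val = kerSet val') : moment c val = moment c val' := by
  classical
  have hk' : ∀ i j, val i = val j ↔ val' i = val' j := fun i j => by
    have := Finset.ext_iff.1 hk (i, j)
    simpa [mem_kerSet] using this
  let g : {x // x ∈ Set.range val} → {x // x ∈ Set.range val'} :=
    fun x => ⟨val' x.2.choose, x.2.choose, rfl⟩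
  have hg : Function.Bijective g := by
    constructor
    · intro x y hxy
      have h1 := (hk' _ _).2 (congrArg Subtype.val hxy)
      rw [x.2.choose_spec, y.2.choose_spec] at h1
      exact Subtype.ext h1
    · rintro ⟨_, i, rfl⟩
      refine ⟨⟨val i, i, rfl⟩, Subtype.ext ?_⟩
      exact (hk' _ _).1 (Exists.choose_spec (⟨i, rfl⟩ : ∃ j, val j = val i))
  let σ : Equiv.Perm (Fin n) := (Equiv.ofBijective g hg).extendSubtype
  have hσ : ∀ i, σ (val i) = val' i := fun i => by
    rw [Equiv.extendSubtype_apply_of_mem _ _ ⟨i, rfl⟩]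
    exact (hk' _ _).1 (Exists.choose_spec (⟨i, rfl⟩ : ∃ j, val j = val i))
  rw [moment, moment, ← Equiv.sum_comp (Equiv.arrowCongr σ (Equiv.refl (Fin r)))
    (fun f => ∏ i, xi c (f (val' i)))]
  congr 1
  refine Finset.sum_congr rfl (fun f _ => Finset.prod_congr rfl (fun i _ => ?_))
  simp [Equiv.arrowCongr, ← hσ i]

/-- A moment with a singleton block vanishes. -/
lemma moment_eq_zero {r : ℕ} (c : Fin r) {ι : Type} [Fintype ι] [DecidableEq ι] {n : ℕ}
    {val : ι → Fin n} {i : ι} (hi : ∀ j, val i = val j → j = i) : moment c val = 0 := by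
  classical
  have : NeZero r := ⟨c.pos.ne'⟩
  set a := val i
  have hshift : ∀ (k : Fin r) (F : (Fin n → Fin r) → ℝ),
      ∑ f : Fin n → Fin r, F (Function.update f a (f a + k)) = ∑ f, F f := by
    intro k F
    let e : (Fin n → Fin r) ≃ (Fin n → Fin r) :=
      { toFun := fun f => Function.update f a (f a + k)
        invFun := fun f => Function.update f a (f a - k)
        left_inv := fun f => by simp
        right_inv := fun f => by simp }
    exact e.sum_comp F
  have hr : (r : ℝ) * ∑ f : Fin n → Fin r, ∏ j, xi c (f (val j)) = 0 := by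
    calc (r : ℝ) * ∑ f : Fin n → Fin r, ∏ j, xi c (f (val j))
        = ∑ k : Fin r, ∑ f : Fin n → Fin r,
            ∏ j, xi c (Function.update f a (f a + k) (val j)) := by
          simp only [hshift _ (fun f => ∏ j, xi c (f (val j)))]
          simp
      _ = 0 := by
          rw [Finset.sum_comm]
          refine Finset.sum_eq_zero (fun f _ => ?_)
          simp only [← Finset.mul_prod_erase Finset.univ _ (Finset.mem_univ i), a,
            Function.update_self]
          have e : ∀ k : Fin r, ∏ j ∈ Finset.univ.erase i,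
              xi c (Function.update f a (f a + k) (val j))
              = ∏ j ∈ Finset.univ.erase i, xi c (f (val j)) := fun k =>
            Finset.prod_congr rfl (fun j hj => by
              rw [Function.update_of_ne (fun hc => Finset.ne_of_mem_erase hj (hi j hc.symm))])
          simp only [a] at e
          simp only [e, ← Finset.sum_mul]
          rw [show (∑ k, xi c (f (val i) + k)) = 0 from
            (Equiv.sum_comp (Equiv.addLeft (f (val i))) (xi c)).trans (sum_xi c), zero_mul]
  rw [moment]
  rcases mul_eq_zero.1 hr with h0 | h0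
  · exact absurd h0 (Nat.cast_ne_zero.2 (NeZero.ne r))
  · rw [h0, mul_zero]

/-- A letter with a weighted sum at each site. -/
noncomputable def Tok.mix {n : ℕ} (ξ : Fin n → ℂ) : Tok H V n → (H →L[ℂ] H)
  | .site _ p => ∑ a, ξ a • p a
  | .elt x => x

/-- The variables of a word, with multiplicity. -/
def occ {n : ℕ} : List (Tok H V n) → List V
  | [] => []
  | .site v _ :: L => v :: occ L
  | .elt _ :: L => occ L

lemma mem_occ {n : ℕ} {v : V} : ∀ L : List (Tok H V n), v ∈ occ L ↔ v ∈ vars L
  | [] => by simp [occ, vars]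
  | .site w p :: L => by simp [occ, vars, mem_occ L]
  | .elt x :: L => by simp [occ, vars, mem_occ L]

lemma prod_mix {n : ℕ} (ξ : Fin n → ℂ) : ∀ {L : List (Tok H V n)}, (occ L).Nodup →
    ∀ base : V → Fin n, (L.map (Tok.mix ξ)).prod
      = ∑ g ∈ Env (vars L) base, (∏ v ∈ vars L, ξ (g v)) • eval g L
  | [], _, base => by simp [vars, Env_empty]
  | .elt x :: L, hL, base => by
    rw [List.map_cons, List.prod_cons, prod_mix ξ (L := L) hL base, Finset.mul_sum]
    exact Finset.sum_congr rfl (fun g _ => by simp [vars, eval_cons, Tok.val, Tok.mix])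
  | .site v p :: L, hL, base => by
    rw [occ, List.nodup_cons] at hL
    have hv : v ∉ vars L := fun hc => hL.1 ((mem_occ L).2 hc)
    rw [List.map_cons, List.prod_cons]
    simp only [Tok.mix, vars, Finset.sum_mul]
    rw [sum_Env_insert hv]
    refine Finset.sum_congr rfl (fun a _ => ?_)
    rw [prod_mix ξ hL.2 (Function.update base v a), Finset.mul_sum]
    refine Finset.sum_congr rfl (fun g hg => ?_)
    have : g v = a := by rw [mem_Env.1 hg v hv, Function.update_self]
    rw [Finset.prod_insert hv, eval_cons, Tok.val, this, smul_mul_smul_comm]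

/-- The sum over valuations with a prescribed kernel. -/
noncomputable def kerSum {ι : Type} [Fintype ι] [DecidableEq ι] {n : ℕ} (K : Finset (ι × ι))
    (φ : (ι → Fin n) → ℂ) : ℂ :=
  ∑ val ∈ Finset.univ.filter (fun val : ι → Fin n => kerSet val = K), φ val

lemma sum_moment_mul_le {r : ℕ} (c : Fin r) {ι : Type} [Fintype ι] [DecidableEq ι] {n : ℕ}
    (φ : (ι → Fin n) → ℂ) :
    ‖∑ val : ι → Fin n, (moment c val : ℂ) * φ val‖
      ≤ ∑ K ∈ Finset.univ.filter (fun K : Finset (ι × ι) => ∀ i, ∃ j, j ≠ i ∧ (i, j) ∈ K),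
          ‖kerSum K φ‖ := by
  classical
  rw [← Finset.sum_fiberwise Finset.univ (fun val : ι → Fin n => kerSet val),
    Finset.sum_filter]
  refine (norm_sum_le _ _).trans (Finset.sum_le_sum (fun K _ => ?_))
  rcases Finset.eq_empty_or_nonempty
    (Finset.univ.filter (fun val : ι → Fin n => kerSet val = K)) with h0 | ⟨v0, hv0⟩
  · rw [h0, Finset.sum_empty, norm_zero]
    split_ifs <;> positivity
  · rw [Finset.mem_filter] at hv0
    have e : ∑ val ∈ Finset.univ.filter (fun val : ι → Fin n => kerSet val = K),
        (moment c val : ℂ) * φ val = (moment c v0 : ℂ) * kerSum K φ := by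
      rw [kerSum, Finset.mul_sum]
      exact Finset.sum_congr rfl (fun val hval => by
        rw [moment_congr c ((Finset.mem_filter.1 hval).2.trans hv0.2.symm)])
    rw [e]
    split_ifs with hK
    · rw [norm_mul, Complex.norm_real]
      exact mul_le_of_le_one_left (norm_nonneg _) (abs_moment_le c v0)
    · push Not at hK
      obtain ⟨i, hi⟩ := hK
      rw [moment_eq_zero c (i := i) (fun j hj => by
        by_contra hne
        exact hi j hne (hv0.2 ▸ mem_kerSet.2 hj))]
      simp

end Vale.Agent.P078.Finite
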