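import Vale.Agent.P078.Mix.DecayCore

/-!
# Decay of words with every variable repeated
-/

set_option linter.unusedSectionVars false

namespace Vale.Agent.P078.Finite

open ComplexInnerProductSpace
open Filter Topology
open Vale.Agent.P078 Vale.Agent.P078.General
open scoped CStarAlgebra

universe u

variable {H : Type u} [NormedAddCommGroup H] [InnerProductSpace ℂ H] [CompleteSpace H]
variable {M : VonNeumannAlgebra H} {A : StarSubalgebra ℂ (H →L[ℂ] H)} {Ω : H}
variable {V : Type} [Fintype V] [DecidableEq V]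

/-- A position: the variables with their translations, and the following element. -/
abbrev Posn (H : Type u) [NormedAddCommGroup H] [InnerProductSpace ℂ H] (V : Type) : Type u :=
  List (V × (H →L[ℂ] H)) × (H →L[ℂ] H)

/-- The letters of the sites of one position. -/
noncomputable def tokF (P : Part A) (F : List (V × (H →L[ℂ] H))) : List (Tok H V P.n) :=
  F.map (fun s => usite P s.1 s.2)

/-- The letters of a list of positions. -/
noncomputable def toks (P : Part A) : List (Posn H V) → List (Tok H V P.n)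
  | [] => []
  | x :: L => tokF P x.1 ++ Tok.elt x.2 :: toks P L

/-- All variables with multiplicity. -/
def flatV (L : List (Posn H V)) : List V := L.flatMap (fun x => x.1.map Prod.fst)

/-- The product of the norms of the fixed elements. -/
noncomputable def wsize (L : List (Posn H V)) : ℝ := (L.map (fun x => ‖x.2‖)).prod

/-- Letters come from normalisers and `M`. -/
def Posn.Good (M : VonNeumannAlgebra H) (A : StarSubalgebra ℂ (H →L[ℂ] H)) (x : Posn H V) :
    Prop :=
  (∀ s ∈ x.1, IsNormaliser M A s.2) ∧ x.2 ∈ M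

lemma toks_append (P : Part A) : ∀ L L' : List (Posn H V),
    toks P (L ++ L') = toks P L ++ toks P L'
  | [], L' => rfl
  | x :: L, L' => by simp [toks, toks_append P L L']

lemma size_tokF (P : Part A) : ∀ F : List (V × (H →L[ℂ] H)), size (tokF P F) = 1
  | [] => rfl
  | s :: F => by
    have := size_tokF P F
    simp only [tokF, List.map_cons, usite, size] at this ⊢
    exact this

lemma size_toks (P : Part A) : ∀ L : List (Posn H V), size (toks P L) = wsize L
  | [] => rfl
  | x :: L => by simp [toks, size_append, size_tokF, size, size_toks P L, wsize]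

lemma mem_vars_tokF (P : Part A) {v : V} : ∀ F : List (V × (H →L[ℂ] H)),
    v ∈ vars (tokF P F) ↔ v ∈ F.map Prod.fst
  | [] => by simp [tokF, vars]
  | s :: F => by
    have := mem_vars_tokF (v := v) P F
    simp only [tokF, List.map_cons, usite, vars, Finset.mem_insert, List.mem_cons] at this ⊢
    rw [this]

lemma mem_vars_toks (P : Part A) {v : V} : ∀ L : List (Posn H V),
    v ∈ vars (toks P L) ↔ v ∈ flatV L
  | [] => by simp [toks, vars, flatV]
  | x :: L => by
    simp [toks, vars_append, vars, mem_vars_tokF, mem_vars_toks P L, flatV]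

lemma good_tokF (hA : IsMASAIn M A) (P : Part A) {F : List (V × (H →L[ℂ] H))}
    (hF : ∀ s ∈ F, IsNormaliser M A s.2) : ∀ t ∈ tokF P F, t.Good M A := by
  intro t ht
  obtain ⟨s, hs, rfl⟩ := List.mem_map.1 ht
  exact usite_good hA P s.1 (hF s hs)

lemma good_toks (hA : IsMASAIn M A) (P : Part A) : ∀ {L : List (Posn H V)},
    (∀ x ∈ L, Posn.Good M A x) → ∀ t ∈ toks P L, t.Good M A
  | [], _, t, ht => by simp [toks] at ht
  | x :: L, hL, t, ht => by
    simp only [toks, List.mem_append, List.mem_cons] at ht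
    rcases ht with ht | rfl | ht
    · exact good_tokF hA P (hL x (List.mem_cons_self ..)).1 t ht
    · exact (hL x (List.mem_cons_self ..)).2
    · exact good_toks hA P (fun y hy => hL y (List.mem_cons_of_mem _ hy)) t ht

lemma tokF_ne_elt (P : Part A) (F : List (V × (H →L[ℂ] H))) :
    ∀ t ∈ tokF P F, ∀ x, t ≠ Tok.elt x := by
  intro t ht x
  obtain ⟨s, _, rfl⟩ := List.mem_map.1 ht
  simp [usite]

lemma eval_tokF_perm (hA : IsMASAIn M A) (P : Part A) (g : V → Fin P.n)
    {F F' : List (V × (H →L[ℂ] H))} (hp : F.Perm F') (hF : ∀ s ∈ F, IsNormaliser M A s.2) :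
    eval g (tokF P F) = eval g (tokF P F') := by
  have h1 := eval_perm hA g (hp.map (fun s => (s.1, fun a => s.2 * P.e a * star s.2))) (by
    intro s hs a
    obtain ⟨s', hs', rfl⟩ := List.mem_map.1 hs
    exact (hF s' hs').conj_mem (P.mem a))
  simpa [tokF, usite, List.map_map, Function.comp_def] using h1

/-- A repeated variable closest in position. -/
lemma exists_minimal_split {L : List (Posn H V)} (hne : L ≠ []) (hpos : ∀ x ∈ L, x.1 ≠ [])
    (hnd : ∀ x ∈ L, (x.1.map Prod.fst).Nodup) (hcount : ∀ v, 2 ≤ (flatV L).count v) :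
    ∃ pre x mid z post v, L = pre ++ x :: mid ++ z :: post ∧ v ∈ x.1.map Prod.fst ∧
      v ∈ z.1.map Prod.fst ∧
      (∀ w ∈ flatV mid, w ∉ x.1.map Prod.fst ∧ w ∉ z.1.map Prod.fst) ∧ (flatV mid).Nodup := by
  classical
  have hex : ∃ n, ∃ pre x mid z post v, L = pre ++ x :: mid ++ z :: post ∧
      v ∈ x.1.map Prod.fst ∧ v ∈ z.1.map Prod.fst ∧ mid.length = n := by
    obtain ⟨x, L', rfl⟩ := List.exists_cons_of_ne_nil hne
    obtain ⟨v, hv⟩ := List.exists_mem_of_ne_nil _
      (by simpa using hpos x (List.mem_cons_self ..) : x.1.map Prod.fst ≠ [])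
    have h2 := hcount v
    simp only [flatV, List.flatMap_cons, List.count_append] at h2
    have h1 := List.nodup_iff_count_le_one.1 (hnd x (List.mem_cons_self ..)) v
    have hv' : v ∈ L'.flatMap (fun x => x.1.map Prod.fst) := List.count_pos_iff.1 (by omega)
    obtain ⟨z, hz, hvz⟩ := List.mem_flatMap.1 hv'
    obtain ⟨mid, post, rfl⟩ := List.append_of_mem hz
    exact ⟨_, [], x, mid, z, post, v, by simp, hv, hvz, rfl⟩
  obtain ⟨pre, x, mid, z, post, v, hL, hvx, hvz, hlen⟩ := Nat.find_spec hex
  have hmin : ∀ pre' x' mid' z' post' w, L = pre' ++ x' :: mid' ++ z' :: post' →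
      w ∈ x'.1.map Prod.fst → w ∈ z'.1.map Prod.fst → mid.length ≤ mid'.length := by
    intro pre' x' mid' z' post' w h1 h2 h3
    rw [hlen]
    exact Nat.find_min' hex ⟨pre', x', mid', z', post', w, h1, h2, h3, rfl⟩
  refine ⟨pre, x, mid, z, post, v, hL, hvx, hvz, fun w hw => ?_, ?_⟩
  · obtain ⟨y, hy, hwy⟩ := List.mem_flatMap.1 hw
    obtain ⟨a, b, hab⟩ := List.append_of_mem hy
    subst hab
    constructor <;> intro hc
    · have := hmin pre x a y (b ++ z :: post) w (by simp [hL]) hc hwy
      simp only [List.length_append, List.length_cons] at this; omega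
    · have := hmin (pre ++ x :: a) y b z post w (by simp [hL]) hwy hc
      simp only [List.length_append, List.length_cons] at this; omega
  · suffices ∀ a b, mid = a ++ b → (flatV b).Nodup from this [] mid rfl
    intro a b
    induction b generalizing a with
    | nil => intro _; simp [flatV]
    | cons y b ih =>
      intro hab
      simp only [flatV, List.flatMap_cons, List.nodup_append']
      refine ⟨hnd y ?_, ih (a ++ [y]) (by simp [hab]), fun w hw1 hw2 => ?_⟩
      · rw [hL, hab]; simp
      · obtain ⟨y', hy', hwy'⟩ := List.mem_flatMap.1 hw2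
        obtain ⟨c, d, rfl⟩ := List.append_of_mem hy'
        subst hab
        have := hmin (pre ++ x :: a) y c y' (d ++ z :: post) w (by simp [hL]) hw1 hwy'
        simp only [List.length_append, List.length_cons] at this; omega

variable (h : FinSetting M A Ω)
include h

/-- Cauchy–Schwarz between the outside and the inside. -/
lemma norm_sum_inner_le {n : ℕ} {R S : List (Tok H V n)} (hR : ∀ t ∈ R, t.Good M A)
    (hcov : ∀ v, v ∈ vars R ∨ v ∈ vars S)
    (horth : ∀ g : V → Fin n, ‖∑ k ∈ Env (vars S \ vars R) g, eval k S Ω‖ ^ 2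
      = ∑ k ∈ Env (vars S \ vars R) g, ‖eval k S Ω‖ ^ 2) (base : V → Fin n) :
    ‖∑ g : V → Fin n, ⟪eval g R Ω, eval g S Ω⟫‖
      ≤ size R * ‖Ω‖ * Real.sqrt (msum Ω S base) := by
  have _ := h
  set O := vars R ∩ vars S with hO
  set IR := vars R \ O with hIR
  set IS := vars S \ vars R with hIS
  have hd1 : Disjoint O (IR ∪ IS) := by
    rw [Finset.disjoint_left]; intro w; simp [hO, hIR, hIS]; tauto
  have hd2 : Disjoint IR IS := by
    rw [Finset.disjoint_left]; intro w; simp [hIR, hIS]; tauto
  have hu : (Finset.univ : Finset V) = O ∪ (IR ∪ IS) := by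
    ext w; have := hcov w; simp [hO, hIR, hIS]; tauto
  have hsplit : ∑ g : V → Fin n, ⟪eval g R Ω, eval g S Ω⟫
      = ∑ g ∈ Env O base, ⟪∑ k ∈ Env IR g, eval k R Ω, ∑ k ∈ Env IS g, eval k S Ω⟫ := by
    rw [← Env_univ base, hu, sum_Env_union hd1]
    refine Finset.sum_congr rfl (fun g _ => ?_)
    rw [sum_Env_union hd2, sum_inner]
    refine Finset.sum_congr rfl (fun k hk => ?_)
    rw [← sum_Env_congr (D := vars S) (g := k) (g' := g)
      (f := fun j => eval j S Ω) (fun j j' hj => by rw [eval_congr hj])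
      (fun w hw hw' => mem_Env.1 hk w (by
        simp [hIR, hIS, hO] at hw' ⊢; tauto)), inner_sum]
    refine Finset.sum_congr rfl (fun j hj => ?_)
    rw [eval_congr (L := R) (g := j) (g' := k)
      (fun w hw => mem_Env.1 hj w (by simp [hIS, hw]))]
  rw [hsplit]
  have hA1 := word_bound hR (O := O) (Finset.inter_subset_left) base Ω
  rw [← hIR] at hA1
  have hA2 : ∑ g ∈ Env O base, ‖∑ k ∈ Env IS g, eval k S Ω‖ ^ 2 = msum Ω S base := by
    simp only [hIS] at horth ⊢
    simp only [horth]
    rw [← sum_Env_union (by rw [Finset.disjoint_left]; intro w; simp [hO]; tauto), msum]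
    congr 2
    ext w; simp [hO]; tauto
  refine (norm_sum_le _ _).trans ((Finset.sum_le_sum (fun g _ => norm_inner_le_norm _ _)).trans
    ((Real.sum_mul_le_sqrt_mul_sqrt _ _ _).trans ?_))
  rw [hA2]
  refine mul_le_mul_of_nonneg_right ((Real.sqrt_le_sqrt hA1).trans (le_of_eq ?_)) (Real.sqrt_nonneg _)
  rw [Real.sqrt_mul (sq_nonneg _), Real.sqrt_sq (size_nonneg R), Real.sqrt_sq (norm_nonneg _)]

lemma exists_seg_small {x z : Posn H V} {mid : List (Posn H V)} {v : V}
    (hx : Posn.Good M A x) (hz : ∀ s ∈ z.1, IsNormaliser M A s.2)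
    (hmid : ∀ y ∈ mid, Posn.Good M A y) (hxN : OrthN M A Ω x.2)
    (hmidne : ∀ y ∈ mid, y.1 ≠ []) (hvx : v ∈ x.1.map Prod.fst) (hvz : v ∈ z.1.map Prod.fst)
    (hv : v ∉ flatV mid) (hnd : (flatV mid).Nodup) {δ : ℝ} (hδ : 0 < δ) :
    ∃ P0 : Part A, ∀ P, P0 ≤ P → ∀ base : V → Fin P.n,
      msum Ω (tokF P x.1 ++ Tok.elt x.2 :: toks P mid ++ tokF P z.1) base ≤ δ := by
  classical
  have hA := h.masa
  obtain ⟨wl, hs₀⟩ : ∃ w, (v, w) ∈ x.1 := by simpa [List.mem_map] using hvx
  obtain ⟨wr, ht₀⟩ : ∃ w, (v, w) ∈ z.1 := by simpa [List.mem_map] using hvz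
  have hl : IsNormaliser M A wl := hx.1 _ hs₀
  have hr : IsNormaliser M A wr := hz _ ht₀
  obtain ⟨xs1, xs2, hxs⟩ := List.append_of_mem hs₀
  obtain ⟨zs1, zs2, hzs⟩ := List.append_of_mem ht₀
  set rx := xs1 ++ xs2 with hrx
  set rz := zs1 ++ zs2 with hrz
  have hpx : x.1.Perm (rx ++ [(v, wl)]) := by
    rw [hxs]; exact (List.perm_middle).trans (List.perm_append_singleton (v, wl) rx).symm
  have hpz : z.1.Perm ((v, wr) :: rz) := by rw [hzs]; exact List.perm_middle
  have hrxN : ∀ s ∈ rx, IsNormaliser M A s.2 := fun s hs => hx.1 s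
    (hpx.mem_iff.2 (List.mem_append_left _ hs))
  have hrzN : ∀ s ∈ rz, IsNormaliser M A s.2 := fun s hs => hz s
    (hpz.mem_iff.2 (List.mem_cons_of_mem _ hs))
  have hxy : x.2 ∈ M := hx.2
  have hcore : ∀ (P : Part A) (base : V → Fin P.n),
      msum Ω (tokF P x.1 ++ Tok.elt x.2 :: toks P mid ++ tokF P z.1) base
        ≤ msum Ω ([usite P v wl, Tok.elt x.2] ++ toks P mid ++ [usite P v wr]) base := by
    intro P base
    have e : msum Ω (tokF P x.1 ++ Tok.elt x.2 :: toks P mid ++ tokF P z.1) base
        = msum Ω (tokF P rx ++ (([usite P v wl, Tok.elt x.2] ++ toks P mid ++ [usite P v wr])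
            ++ tokF P rz)) base := by
      have ev : vars (tokF P x.1 ++ Tok.elt x.2 :: toks P mid ++ tokF P z.1)
          = vars (tokF P rx ++ (([usite P v wl, Tok.elt x.2] ++ toks P mid ++ [usite P v wr])
              ++ tokF P rz)) := by
        ext w
        simp only [vars_append, vars, usite, Finset.mem_union, Finset.mem_insert, mem_vars_tokF,
          (hpx.map Prod.fst).mem_iff, (hpz.map Prod.fst).mem_iff, List.map_append, List.map_cons,
          List.mem_append, List.mem_cons, List.map_nil, List.not_mem_nil, Finset.notMem_empty]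
        tauto
      unfold msum
      rw [ev]
      refine Finset.sum_congr rfl (fun g _ => ?_)
      simp only [eval_append, eval_cons, eval_nil, mul_one]
      rw [eval_tokF_perm hA P g hpx hx.1, eval_tokF_perm hA P g hpz hz]
      simp only [tokF, List.map_append, List.map_cons, List.map_nil, eval_append, eval_cons,
        eval_nil, mul_one, mul_assoc]
    rw [e]
    have hgood : ∀ t ∈ [usite P v wl, Tok.elt x.2] ++ toks P mid ++ [usite P v wr],
        t.Good M A := by
      intro t ht
      simp only [List.mem_append, List.mem_cons, List.not_mem_nil, or_false] at ht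
      rcases ht with ((rfl | rfl) | ht) | rfl
      exacts [usite_good hA P v hl, hxy, good_toks hA P hmid t ht, usite_good hA P v hr]
    refine (msum_sites_left (good_tokF hA P hrxN) (tokF_ne_elt P rx) base).trans ?_
    exact msum_sites_right h (good_tokF hA P hrzN) hgood (tokF_ne_elt P rz) base
  cases mid with
  | nil =>
    have hX : star wl * x.2 * wr ∈ M := mul_mem (mul_mem (star_mem hl.mem) hxy) hr.mem
    have hXN : OrthN M A Ω (star wl * x.2 * wr) :=
      orthN_mul_right h ⟨hr.1, apply_mem_vecN (Submodule.subset_span hr)⟩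
        (mul_mem (star_mem hl.mem) hxy)
        (orthN_mul_left h (InN.star h ⟨hl.1, apply_mem_vecN (Submodule.subset_span hl)⟩) hxN)
    obtain ⟨P0, hP0⟩ := tendsto_pinch h hX (Real.sqrt_pos.2 hδ)
    refine ⟨P0, fun P hP base => (hcore P base).trans ?_⟩
    refine le_trans (msum_adjacent h hl hr hxy base) ?_
    have h1 := hP0 P hP
    rw [plim_eq_zero_of_orth h hX hXN, sub_zero] at h1
    exact (pow_le_pow_left₀ (norm_nonneg _) h1 2).trans (Real.sq_sqrt hδ.le).le
  | cons y mid' =>
    obtain ⟨b, wm, rb, hyb⟩ : ∃ b wm rb, y.1 = (b, wm) :: rb := by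
      obtain ⟨⟨b, wm⟩, rb, e⟩ := List.exists_cons_of_ne_nil (hmidne y (List.mem_cons_self ..))
      exact ⟨b, wm, rb, e⟩
    have hyG := hmid y (List.mem_cons_self ..)
    have hm : IsNormaliser M A wm := hyG.1 (b, wm) (by simp [hyb])
    have hflat : flatV (y :: mid') = b :: (rb.map Prod.fst ++ flatV mid') := by simp [flatV, hyb]
    rw [hflat] at hv hnd
    have hbne : v ≠ b := fun e => hv (by simp [e])
    set y' := star wl * x.2 * wm with hy'
    have hy'M : y' ∈ M := mul_mem (mul_mem (star_mem hl.mem) hxy) hm.mem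
    have hy'N : OrthN M A Ω y' :=
      orthN_mul_right h ⟨hm.1, apply_mem_vecN (Submodule.subset_span hm)⟩
        (mul_mem (star_mem hl.mem) hxy)
        (orthN_mul_left h (InN.star h ⟨hl.1, apply_mem_vecN (Submodule.subset_span hl)⟩) hxN)
    set C := (‖y.2‖ * wsize mid') ^ 2 * ‖Ω‖ with hC
    have hC0 : 0 ≤ C := by positivity
    set ε := δ / (2 * C + 1) with hε
    have hε0 : 0 < ε := by positivity
    obtain ⟨P1, hP1⟩ := exists_qval_le h hy'M hy'N (pow_pos hε0 2)
    set Y := fun I => star y' * P1.e I * y' with hY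
    have hYM : ∀ I, Y I ∈ M := fun I =>
      mul_mem (mul_mem (star_mem hy'M) (hA.mem_M (P1.mem I))) hy'M
    choose Q hQ using fun I => tendsto_pinch h (hYM I)
      (show 0 < ε / ((P1.n : ℝ) + 1) by positivity)
    have := hA.directed
    obtain ⟨R, hR⟩ := Finite.exists_le Q
    obtain ⟨P0, hP0a, hP0b⟩ := hA.exists_join R P1
    refine ⟨P0, fun P hP base => (hcore P base).trans ?_⟩
    have hZg : ∀ t ∈ tokF P rb ++ Tok.elt y.2 :: toks P mid', t.Good M A := by
      intro t ht
      simp only [List.mem_append, List.mem_cons] at ht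
      rcases ht with ht | rfl | ht
      exacts [good_tokF hA P (fun s hs => hyG.1 s (by simp [hyb, hs])) t ht, hyG.2,
        good_toks hA P (fun w hw => hmid w (List.mem_cons_of_mem _ hw)) t ht]
    have hmemZ : ∀ w, w ∈ vars (tokF P rb ++ Tok.elt y.2 :: toks P mid') ↔
        w ∈ rb.map Prod.fst ++ flatV mid' := fun w => by
      simp [vars_append, vars, mem_vars_tokF, mem_vars_toks]
    have hsz : size (tokF P rb ++ Tok.elt y.2 :: toks P mid') = ‖y.2‖ * wsize mid' := by
      simp [size_append, size_tokF, size, size_toks]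
    have hsep := msum_separated h (hP0b.trans hP) hbne hl hm hr hxy hZg
      (fun hc => hv (List.mem_cons_of_mem _ ((hmemZ v).1 hc)))
      (fun hc => (List.nodup_cons.1 hnd).1 ((hmemZ b).1 hc)) base
    have elist : [usite P v wl, Tok.elt x.2] ++ toks P (y :: mid') ++ [usite P v wr]
        = [usite P v wl, Tok.elt x.2, usite P b wm]
          ++ (tokF P rb ++ Tok.elt y.2 :: toks P mid') ++ [usite P v wr] := by
      simp [toks, tokF, hyb]
    rw [elist]
    refine hsep.trans ?_
    rw [hsz, ← hC]
    have hq : Real.sqrt (∑ I, ‖P.pinch (Y I) Ω‖ ^ 2) ≤ 2 * ε := by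
      rw [Real.sqrt_le_left (by positivity)]
      have hI : ∀ I, ‖P.pinch (Y I) Ω‖ ^ 2
          ≤ 2 * ‖plim hA (Y I) Ω‖ ^ 2 + 2 * (ε / ((P1.n : ℝ) + 1)) ^ 2 := fun I => by
        have h1 := hQ I P (((hR I).trans hP0a).trans hP)
        rw [sub_apply] at h1
        have h2 := norm_add_le (P.pinch (Y I) Ω - plim hA (Y I) Ω) (plim hA (Y I) Ω)
        rw [sub_add_cancel] at h2
        nlinarith [norm_nonneg (P.pinch (Y I) Ω), norm_nonneg (P.pinch (Y I) Ω - plim hA (Y I) Ω),
          norm_nonneg (plim hA (Y I) Ω), sq_nonneg (‖P.pinch (Y I) Ω - plim hA (Y I) Ω‖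
            - ‖plim hA (Y I) Ω‖)]
      refine (Finset.sum_le_sum (fun I _ => hI I)).trans ?_
      rw [Finset.sum_add_distrib, ← Finset.mul_sum, Finset.sum_const, Finset.card_univ,
        Fintype.card_fin, nsmul_eq_mul]
      have h2 : (P1.n : ℝ) * (2 * (ε / ((P1.n : ℝ) + 1)) ^ 2) ≤ 2 * ε ^ 2 := by
        have hn : (0 : ℝ) ≤ P1.n := Nat.cast_nonneg _
        rw [div_pow, mul_div_assoc', mul_div_assoc', div_le_iff₀ (by positivity)]
        nlinarith [mul_nonneg (mul_nonneg hn hn) (sq_nonneg ε), mul_nonneg hn (sq_nonneg ε),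
          sq_nonneg ε]
      have h3 : ∑ I, ‖plim hA (Y I) Ω‖ ^ 2 ≤ ε ^ 2 := hP1
      nlinarith
    refine (mul_le_mul_of_nonneg_left hq hC0).trans ?_
    rw [hε, mul_div_assoc', mul_div_assoc', div_le_iff₀ (by positivity)]
    nlinarith

/-- **Decay.** A cyclic word in which each variable is repeated, no position repeats a variable
and the inner elements are orthogonal to the normalisers, tends to zero. -/
theorem exists_word_small {L : List (Posn H V)} (hne : L ≠ []) (hgood : ∀ x ∈ L, Posn.Good M A x)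
    (hpos : ∀ x ∈ L, x.1 ≠ []) (hN : ∀ x ∈ L.dropLast, OrthN M A Ω x.2)
    (hnd : ∀ x ∈ L, (x.1.map Prod.fst).Nodup) (hcount : ∀ v, 2 ≤ (flatV L).count v)
    {η : ℝ} (hη : 0 < η) :
    ∃ P0 : Part A, ∀ P, P0 ≤ P → ‖∑ g : V → Fin P.n, ⟪Ω, eval g (toks P L) Ω⟫‖ ≤ η := by
  classical
  have hA := h.masa
  obtain ⟨pre, x, mid, z, post, v, hL, hvx, hvz, hdis, hmnd⟩ :=
    exists_minimal_split hne hpos hnd hcount
  have hmemL : ∀ y ∈ x :: mid ++ z :: post, y ∈ L := fun y hy => by
    rw [hL, List.append_assoc]; exact List.mem_append_right _ hy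
  have hx := hgood x (hmemL x (by simp))
  have hz := hgood z (hmemL z (by simp))
  have hmid : ∀ y ∈ mid, Posn.Good M A y := fun y hy => hgood y (hmemL y (by simp [hy]))
  have hxN : OrthN M A Ω x.2 := hN x (by
    rw [hL, List.dropLast_append_of_ne_nil (by simp)]
    simp)
  have hdrop : ∀ y ∈ pre ++ z :: post, Posn.Good M A y := fun y hy => hgood y (by
    rw [hL]; simp only [List.mem_append, List.mem_cons] at hy ⊢; tauto)
  set K := ‖z.2‖ * (wsize post * wsize pre) with hK
  set δ := (η / (|K| * ‖Ω‖ + 1)) ^ 2 with hδ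
  obtain ⟨P0, hP0⟩ := exists_seg_small h (x := x) (z := z) (mid := mid) (v := v) hx hz.1 hmid hxN
    (fun y hy => hpos y (hmemL y (by simp [hy]))) hvx hvz
    (fun hc => (hdis v hc).1 hvx) hmnd (show 0 < δ by positivity)
  refine ⟨P0, fun P hP => ?_⟩
  by_cases hb : Nonempty (V → Fin P.n)
  swap
  · rw [not_nonempty_iff] at hb
    rw [Finset.univ_eq_empty, Finset.sum_empty, norm_zero]
    exact hη.le
  obtain ⟨base⟩ := hb
  set S := tokF P x.1 ++ Tok.elt x.2 :: toks P mid ++ tokF P z.1 with hS
  set R := Tok.elt z.2 :: (toks P post ++ toks P pre) with hR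
  have hRg : ∀ t ∈ R, t.Good M A := by
    intro t ht
    simp only [hR, List.mem_cons, List.mem_append] at ht
    rcases ht with rfl | ht | ht
    exacts [hz.2,
      good_toks hA P (fun y hy => hdrop y (by simp [hy])) t ht,
      good_toks hA P (fun y hy => hdrop y (by simp [hy])) t ht]
  have hSg : ∀ t ∈ S, t.Good M A := by
    intro t ht
    simp only [hS, List.mem_cons, List.mem_append] at ht
    rcases ht with (ht | rfl | ht) | ht
    exacts [good_tokF hA P hx.1 t ht, hx.2, good_toks hA P hmid t ht, good_tokF hA P hz.1 t ht]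
  have hflat : ∀ w, (flatV L).count w = (flatV pre).count w + (x.1.map Prod.fst).count w
      + (flatV mid).count w + (z.1.map Prod.fst).count w + (flatV post).count w := fun w => by
    simp only [hL, flatV, List.flatMap_append, List.flatMap_cons, List.count_append]; ring
  have hmemR : ∀ w, w ∈ vars R ↔ w ∈ flatV post ∨ w ∈ flatV pre := fun w => by
    simp [hR, vars, vars_append, mem_vars_toks]
  have hmemS : ∀ w, w ∈ vars S ↔ w ∈ x.1.map Prod.fst ∨ w ∈ flatV mid ∨ w ∈ z.1.map Prod.fst :=
    fun w => by simp [hS, vars, vars_append, mem_vars_tokF, mem_vars_toks]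
  have hcov : ∀ w, w ∈ vars (rev R) ∨ w ∈ vars S := by
    intro w
    rw [vars_rev, hmemR, hmemS]
    by_contra hc
    simp only [not_or] at hc
    obtain ⟨⟨c1, c2⟩, c3, c4, c5⟩ := hc
    have := hcount w
    rw [hflat, List.count_eq_zero.2 c1, List.count_eq_zero.2 c2, List.count_eq_zero.2 c3,
      List.count_eq_zero.2 c4, List.count_eq_zero.2 c5] at this
    omega
  have hIS : vars S \ vars (rev R) ⊆ vars (tokF P x.1) := by
    intro w hw
    rw [Finset.mem_sdiff, vars_rev, hmemR, not_or, hmemS] at hw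
    rw [mem_vars_tokF]
    by_contra hc
    have h2 := hcount w
    rw [hflat, List.count_eq_zero.2 hw.2.1, List.count_eq_zero.2 hw.2.2,
      List.count_eq_zero.2 hc] at h2
    have h3 := List.nodup_iff_count_le_one.1 hmnd w
    have h4 := List.nodup_iff_count_le_one.1 (hnd z (hmemL z (by simp))) w
    exact (hdis w (List.count_pos_iff.1 (by omega))).2 (List.count_pos_iff.1 (by omega))
  have horth : ∀ g : V → Fin P.n, ‖∑ k ∈ Env (vars S \ vars (rev R)) g, eval k S Ω‖ ^ 2
      = ∑ k ∈ Env (vars S \ vars (rev R)) g, ‖eval k S Ω‖ ^ 2 := fun g => by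
    rw [hS, List.append_assoc]
    exact sum_orth_left hA (good_tokF hA P hx.1) (tokF_ne_elt P x.1)
      (by rw [hS, List.append_assoc] at hIS; exact hIS) g Ω
  have hcs := norm_sum_inner_le h (good_rev hRg) hcov horth base
  have heq : ∀ g : V → Fin P.n, ⟪Ω, eval g (toks P L) Ω⟫ = ⟪eval g (rev R) Ω, eval g S Ω⟫ := by
    intro g
    have hSM := eval_mem hA g hSg
    have hRM := eval_mem hA g hRg
    have hpreM := eval_mem hA g (good_toks hA P (L := pre) (fun y hy => hdrop y (by simp [hy])))
    have e1 : eval g (toks P L)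
        = eval g (toks P pre) * (eval g S * (z.2 * eval g (toks P post))) := by
      simp only [hL, hS, toks_append, toks, eval_append, eval_cons, Tok.val, mul_assoc]
    have hpostM := eval_mem hA g (good_toks hA P (L := post) (fun y hy => hdrop y (by simp [hy])))
    rw [e1, h.tracial _ hpreM _ (mul_mem hSM (mul_mem hz.2 hpostM)), mul_assoc,
      h.tracial _ hSM _ (mul_mem (mul_mem hz.2 hpostM) hpreM), eval_rev g hRg, inner_eq h,
      star_star]
    simp only [hR, eval_cons, eval_append, Tok.val, mul_assoc]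
  simp only [heq]
  refine hcs.trans ?_
  rw [size_rev, show size R = K by simp [hR, size, size_append, size_toks, hK]]
  have h1 := Real.sqrt_le_sqrt (hP0 P hP base)
  rw [hδ, Real.sqrt_sq (by positivity)] at h1
  refine (mul_le_mul_of_nonneg_right (mul_le_mul_of_nonneg_right (le_abs_self K) (norm_nonneg Ω))
    (Real.sqrt_nonneg _)).trans ?_
  refine (mul_le_mul_of_nonneg_left h1 (by positivity)).trans ?_
  rw [mul_div_assoc', div_le_iff₀ (by positivity)]
  nlinarith

end Vale.Agent.P078.Finite
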