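import Vale.Agent.P078.Mix.Score
import Vale.Agent.P078.Finite.Expect

/-!
# Mixing

For `y` orthogonal to the normalisers of a MASA, `∑_I ‖E(y* e_I y)Ω‖²` is arbitrarily small.
Otherwise a near-optimal chain of labelled partitions converges to an intertwiner of `A`, and a
second chain turns it into a normaliser correlated with `y`.
-/

namespace Vale.Agent.P078.Finite

open ComplexInnerProductSpace
open Filter Topology
open Vale.Agent.P078 Vale.Agent.P078.General
open scoped CStarAlgebra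

universe u

variable {H : Type u} [NormedAddCommGroup H] [InnerProductSpace ℂ H] [CompleteSpace H]
variable {M : VonNeumannAlgebra H} {A : StarSubalgebra ℂ (H →L[ℂ] H)} {Ω : H}

/-- The mixing quantity of `y` at a partition. -/
noncomputable def qval (hA : IsMASAIn M A) (Ω : H) (y : H →L[ℂ] H) (P : Part A) : ℝ :=
  ∑ i, ‖plim hA (star y * P.e i * y) Ω‖ ^ 2

/-- Left multiplication by projections of `A` is approximated by right multiplication. -/
def IL (A : StarSubalgebra ℂ (H →L[ℂ] H)) (Ω : H) (z : H →L[ℂ] H) : Prop :=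
  ∀ e ∈ A, IsStarProjection e → ∀ η : ℝ, 0 < η → ∃ x ∈ A, IsStarProjection x ∧
    ‖(e * z - z * x) Ω‖ ≤ η

variable (h : FinSetting M A Ω)
include h

lemma qval_le_score {y : H →L[ℂ] H} (hy : y ∈ M) (Q : Part A) :
    qval h.masa Ω y Q ≤ ‖y‖ ^ 2 * score Ω y 1 1 Q := by
  set f := fun i => plim h.masa (star y * Q.e i * y) with hfdef
  have hXM : ∀ i, star y * Q.e i * y ∈ M := fun i =>
    mul_mem (mul_mem (star_mem hy) (h.masa.mem_M (Q.mem i))) hy
  have hX : ∀ i, star y * Q.e i * y = star (Q.e i * y) * (Q.e i * y) := fun i => by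
    rw [star_mul, (Q.proj i).isSelfAdjoint.star_eq]
    simp only [mul_assoc]
    rw [← mul_assoc (Q.e i) (Q.e i), (Q.proj i).isIdempotentElem.eq]
  have hf : ∀ i, f i ∈ A ∧ Pos (f i) := fun i =>
    ⟨plim_mem h.masa (hXM i), pos_plim h (by rw [hX i]; exact Pos.star_mul_self _)⟩
  obtain ⟨x, hx, hxo, hm, hmax⟩ := exists_argmax h.masa f hf
  set m := ∑ i, x i * f i with hmdef
  have hmA : m ∈ A := sum_mem (fun i _ => mul_mem (hx i).1 (hf i).1)
  obtain ⟨s, hs, hss, hsd⟩ := hm.exists_sqrt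
  have hsA : s ∈ A := hsd ▸ cfc_mem_A h.masa hmA _
  have hterm : ∀ i, (⟪Ω, (x i * f i) Ω⟫).re = ‖(1 * Q.e i * y * x i) Ω‖ ^ 2 := fun i => by
    have hxM := h.masa.mem_M (hx i).1
    rw [show x i * f i = plim h.masa (x i * (star y * Q.e i * y)) from
        (plim_mul_left h.masa (hx i).1 _).symm, tau_plim h _ (mul_mem hxM (hXM i)),
      @norm_sq_eq_re_inner ℂ, RCLike.re_to_complex, inner_eq h, one_mul, hX i]
    have hZ : star (Q.e i * y) * (Q.e i * y) ∈ M := hX i ▸ hXM i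
    rw [show star (Q.e i * y * x i) * (Q.e i * y * x i)
          = x i * (star (Q.e i * y) * (Q.e i * y)) * x i by
        rw [star_mul, (hx i).2.isSelfAdjoint.star_eq]; simp only [mul_assoc],
      h.tracial _ (mul_mem hxM hZ) _ hxM, ← mul_assoc (x i) (x i),
      (hx i).2.isIdempotentElem.eq]
  have hsq : ∀ i, ‖f i Ω‖ ^ 2 ≤ (⟪Ω, (m * f i) Ω⟫).re := fun i => by
    have h1 := tau_mul_nonneg h (sub_mem hmA (hf i).1) (hmax i) (hf i).1 (hf i).2
    rw [sub_mul, sub_apply, inner_sub_right, Complex.sub_re] at h1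
    have h2 : ‖f i Ω‖ ^ 2 = (⟪Ω, (f i * f i) Ω⟫).re := by
      rw [@norm_sq_eq_re_inner ℂ, RCLike.re_to_complex, inner_eq h, (hf i).2.1.star_eq]
    linarith
  have hmM := h.masa.mem_M hmA
  have hsM := h.masa.mem_M hsA
  have hsum : ∑ i, (⟪Ω, (m * f i) Ω⟫).re = ‖(y * s) Ω‖ ^ 2 := by
    have e : ∀ i, (⟪Ω, (m * f i) Ω⟫).re = (⟪Ω, (m * (star y * Q.e i * y)) Ω⟫).re := fun i => by
      rw [show m * f i = plim h.masa (m * (star y * Q.e i * y)) from
        (plim_mul_left h.masa hmA _).symm, tau_plim h _ (mul_mem hmM (hXM i))]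
    simp only [e]
    rw [← Complex.re_sum, ← inner_sum, ← _root_.sum_apply, ← Finset.mul_sum, ← Finset.sum_mul,
      ← Finset.mul_sum, Q.total, mul_one, @norm_sq_eq_re_inner ℂ, RCLike.re_to_complex,
      inner_eq h, star_mul, hs.star_eq, ← hss, mul_assoc s s,
      h.tracial s hsM _ (mul_mem hsM (mul_mem (star_mem hy) hy))]
    simp only [mul_assoc]
  have hsm : ‖s Ω‖ ^ 2 = ∑ i, ‖(1 * Q.e i * y * x i) Ω‖ ^ 2 := by
    simp only [← hterm]
    rw [@norm_sq_eq_re_inner ℂ, RCLike.re_to_complex, inner_eq h, hs.star_eq, hss, hmdef,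
      _root_.sum_apply, inner_sum, Complex.re_sum]
  have hlab : x ∈ Lab Q 1 := ⟨fun j => ⟨(hx j).1, (hx j).2, one_mul _⟩, hxo⟩
  calc qval h.masa Ω y Q ≤ ∑ i, (⟪Ω, (m * f i) Ω⟫).re := Finset.sum_le_sum (fun i _ => hsq i)
    _ = ‖(y * s) Ω‖ ^ 2 := hsum
    _ ≤ ‖y‖ ^ 2 * ‖s Ω‖ ^ 2 := by
        rw [← mul_pow]
        exact pow_le_pow_left₀ (norm_nonneg _) (norm_mul_left_le h y s) 2
    _ ≤ ‖y‖ ^ 2 * score Ω y 1 1 Q := by
        rw [hsm]
        exact mul_le_mul_of_nonneg_left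
          (labVal_le_score h hy (one_mem A) (IsStarProjection.one _) hlab) (sq_nonneg _)

omit h in
/-- The total value of a state. -/
noncomputable def stVal (A : StarSubalgebra ℂ (H →L[ℂ] H)) (Ω : H) (y : H →L[ℂ] H)
    (L : Blocks A) : ℝ :=
  ∑ i, val A Ω y (L.e i) (L.x i)

/-- Extend a state by a projection. -/
lemma exists_ext {y : H →L[ℂ] H} (hy : y ∈ M) (L : Blocks A) {e : H →L[ℂ] H} (heA : e ∈ A)
    (he : IsStarProjection e) {ε : ℝ} (hε : 0 < ε) :
    ∃ (L' : Blocks A) (x : H →L[ℂ] H), x ∈ A ∧ IsStarProjection x ∧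
      stVal A Ω y L - ε ≤ stVal A Ω y L' ∧ (∀ a, L'.op (L.op a) = L'.op a) ∧
      ∀ a, e * L'.op a = L'.op a * x := by
  classical
  set N : ℝ := (Fintype.card L.ι : ℝ) + 1 with hN
  have hN0 : 0 < ε / N := by positivity
  choose xp hxpA hxp hxple hxpv using fun i =>
    exists_val_split h hy (L.e_mem i) (L.e_proj i) (L.x_mem i) (L.x_proj i) heA he hN0
  have hA := h.masa
  have hxp_r : ∀ i, xp i * L.x i = xp i := fun i => (hA.comm (hxpA i) (L.x_mem i)).trans (hxple i)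
  have h1eA := sub_mem (one_mem A) heA
  have he0 : e * (1 - e) = 0 := by rw [mul_sub, mul_one, he.isIdempotentElem.eq, sub_self]
  have hxd : ∀ i, xp i * (L.x i - xp i) = 0 := fun i => by
    rw [mul_sub, hxp_r, (hxp i).isIdempotentElem.eq, sub_self]
  let ee : L.ι × Bool → (H →L[ℂ] H) := fun k => L.e k.1 * cond k.2 e (1 - e)
  let xx : L.ι × Bool → (H →L[ℂ] H) := fun k => cond k.2 (xp k.1) (L.x k.1 - xp k.1)
  have hxxA : ∀ k, xx k ∈ A := fun k => by
    obtain ⟨i, b⟩ := k; cases b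
    exacts [sub_mem (L.x_mem i) (hxpA i), hxpA i]
  have hxxp : ∀ k, IsStarProjection (xx k) := fun k => by
    obtain ⟨i, b⟩ := k; cases b
    exacts [(hxp i).sub_of_mul_eq_left (L.x_proj i) (hxp_r i), hxp i]
  have hxxl : ∀ k, xx k * L.x k.1 = xx k ∧ L.x k.1 * xx k = xx k := fun k => by
    have h1 : xx k * L.x k.1 = xx k := by
      obtain ⟨i, b⟩ := k; cases b
      · change (L.x i - xp i) * L.x i = L.x i - xp i
        rw [sub_mul, (L.x_proj i).isIdempotentElem.eq, hxp_r]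
      · exact hxp_r i
    exact ⟨h1, (hA.comm (L.x_mem k.1) (hxxA k)).trans h1⟩
  have hxxo : ∀ k l, k ≠ l → xx k * xx l = 0 := by
    intro k l hkl
    by_cases h1 : k.1 = l.1
    · obtain ⟨i, b⟩ := k; obtain ⟨j, c⟩ := l
      simp only at h1; subst h1
      cases b <;> cases c
      · exact absurd rfl hkl
      · exact (hA.comm (sub_mem (L.x_mem i) (hxpA i)) (hxpA i)).trans (hxd i)
      · exact hxd i
      · exact absurd rfl hkl
    · rw [← (hxxl k).1, ← (hxxl l).2, mul_assoc, ← mul_assoc (L.x k.1), L.x_orth _ _ h1,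
        zero_mul, mul_zero]
  have heeA : ∀ k, ee k ∈ A := fun k => by
    obtain ⟨i, b⟩ := k; cases b
    exacts [mul_mem (L.e_mem i) h1eA, mul_mem (L.e_mem i) heA]
  have heep : ∀ k, IsStarProjection (ee k) := fun k => by
    obtain ⟨i, b⟩ := k; cases b
    exacts [hA.mul_proj (L.e_proj i) he.one_sub (L.e_mem i) h1eA,
      hA.mul_proj (L.e_proj i) he (L.e_mem i) heA]
  have heel : ∀ k i, ee k * L.e i = if k.1 = i then ee k else 0 := fun k i => by
    obtain ⟨j, b⟩ := k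
    have hc : cond b e (1 - e) ∈ A := by cases b; exacts [h1eA, heA]
    change L.e j * cond b e (1 - e) * L.e i = _
    rw [mul_assoc, hA.comm hc (L.e_mem i), ← mul_assoc]
    split_ifs with hji
    · subst hji; rw [(L.e_proj j).isIdempotentElem.eq]
    · rw [L.e_orth j i hji, zero_mul]
  have heeo : ∀ k l, k ≠ l → ee k * ee l = 0 := by
    intro k l hkl
    change ee k * (L.e l.1 * cond l.2 e (1 - e)) = 0
    rw [← mul_assoc, heel]
    split_ifs with h1
    · obtain ⟨i, b⟩ := k; obtain ⟨j, c⟩ := l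
      simp only at h1; subst h1
      change L.e i * cond b e (1 - e) * cond c e (1 - e) = 0
      rw [mul_assoc]
      cases b <;> cases c
      · exact absurd rfl hkl
      · simp [hA.comm h1eA heA, he0]
      · simp [he0]
      · exact absurd rfl hkl
    · rw [zero_mul]
  refine ⟨⟨L.ι × Bool, inferInstance, ee, xx, heeA, hxxA, heep, hxxp, heeo, hxxo⟩,
    ∑ i, xp i, sum_mem (fun i _ => hxpA i), ?_, ?_, ?_, ?_⟩
  · exact sum_isStarProjection _ xp hxp (fun i j hij =>
      hxxo (i, true) (j, true) (fun e => hij (congrArg Prod.fst e)))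
  · change _ ≤ ∑ k : L.ι × Bool, val A Ω y (ee k) (xx k)
    rw [Fintype.sum_prod_type]
    simp only [Fintype.sum_bool]
    calc stVal A Ω y L - ε ≤ ∑ i, (val A Ω y (L.e i) (L.x i) - ε / N) := by
          rw [Finset.sum_sub_distrib, Finset.sum_const, nsmul_eq_mul, Finset.card_univ]
          have : (Fintype.card L.ι : ℝ) * (ε / N) ≤ ε := by
            rw [mul_div_assoc', div_le_iff₀ (by positivity)]
            nlinarith [hN]
          unfold stVal
          linarith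
      _ ≤ _ := Finset.sum_le_sum (fun i _ => hxpv i)
  · intro a
    change ∑ k, ee k * (L.op a) * xx k = ∑ k, ee k * a * xx k
    refine Finset.sum_congr rfl (fun k _ => ?_)
    simp only [Blocks.op, Finset.mul_sum, Finset.sum_mul]
    rw [Finset.sum_eq_single k.1]
    · rw [← mul_assoc (ee k), ← mul_assoc (ee k), heel, if_pos rfl, mul_assoc _ (L.x k.1),
        (hxxl k).2]
    · intro i _ hi
      rw [← mul_assoc (ee k), ← mul_assoc (ee k), heel, if_neg (Ne.symm hi)]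
      simp
    · simp
  · intro a
    change e * ∑ k, ee k * a * xx k = (∑ k, ee k * a * xx k) * ∑ i, xp i
    rw [Finset.mul_sum, Finset.sum_mul]
    refine Finset.sum_congr rfl (fun k _ => ?_)
    obtain ⟨i, b⟩ := k
    rw [mul_assoc (ee (i, b) * a), Finset.mul_sum, ← mul_assoc, ← mul_assoc,
      hA.comm heA (heeA (i, b))]
    cases b
    · rw [show ee (i, false) * e = 0 by
          change L.e i * (1 - e) * e = 0
          rw [mul_assoc, hA.comm h1eA heA, he0, mul_zero],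
        zero_mul, zero_mul,
        show ∑ j, xx (i, false) * xp j = 0 from
          Finset.sum_eq_zero (fun j _ => hxxo (i, false) (j, true) (by simp)), mul_zero]
    · rw [show ee (i, true) * e = ee (i, true) by
          change L.e i * e * e = L.e i * e
          rw [mul_assoc, he.isIdempotentElem.eq],
        show ∑ j, xx (i, true) * xp j = xx (i, true) from (Finset.sum_eq_single i
          (fun j _ hj => hxxo (i, true) (j, true) (fun e => hj (congrArg Prod.fst e).symm))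
          (by simp)).trans (hxp i).isIdempotentElem.eq]

/-- A chain of states converges to an approximate intertwiner. -/
lemma exists_intertwiner {y : H →L[ℂ] H} (hy : y ∈ M) {c : ℝ} (hc : 0 < c)
    (hlow : ∀ Q : Part A, c ≤ score Ω y 1 1 Q) :
    ∃ (z : H →L[ℂ] H) (L : ℕ → Blocks A), z ∈ M ∧
      Tendsto (fun n => (L n).op y Ω) atTop (𝓝 (z Ω)) ∧ 0 < ‖z Ω‖ ∧ IL A Ω z := by
  classical
  have hstep : ∀ (n : ℕ) (L : Blocks A) (e : {e : H →L[ℂ] H // e ∈ A ∧ IsStarProjection e}),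
      ∃ (L' : Blocks A) (x : H →L[ℂ] H), x ∈ A ∧ IsStarProjection x ∧
      stVal A Ω y L - c / 2 * (1 / 2) ^ (n + 1) ≤ stVal A Ω y L' ∧
      (∀ a, L'.op (L.op a) = L'.op a) ∧ ∀ a, e.1 * L'.op a = L'.op a * x :=
    fun n L e => exists_ext h hy L e.2.1 e.2.2 (by positivity)
  choose ext xh hxA hxp hval hcomp hint using hstep
  let drop : ℕ → Blocks A → {e : H →L[ℂ] H // e ∈ A ∧ IsStarProjection e} → ℝ :=
    fun n L e => ‖(L.op y - (ext n L e).op y) Ω‖ ^ 2
  have hdrop : ∀ n L e, drop n L e = ‖L.op y Ω‖ ^ 2 - ‖(ext n L e).op y Ω‖ ^ 2 := by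
    intro n L e
    have h1 : ⟪(ext n L e).op y Ω, L.op y Ω⟫ = ((‖(ext n L e).op y Ω‖ ^ 2 : ℝ) : ℂ) := by
      rw [Blocks.inner_op _ h hy (Blocks.op_mem _ h.masa hy), hcomp, ← inner_conj_symm,
        Blocks.inner_op_self _ h hy, Complex.conj_ofReal]
    simp only [drop]
    rw [sub_apply, norm_sub_sq (𝕜 := ℂ), inner_re_symm, h1, RCLike.re_to_complex,
      Complex.ofReal_re]
    ring
  have hsel : ∀ n L, ∃ e, ∀ e', drop n L e' ≤ drop n L e + (1 / 2) ^ n := by
    intro n L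
    have hne : (Set.range (drop n L)).Nonempty :=
      ⟨_, ⟨1, one_mem A, IsStarProjection.one _⟩, rfl⟩
    have hb : BddAbove (Set.range (drop n L)) := by
      refine ⟨‖L.op y Ω‖ ^ 2, ?_⟩
      rintro _ ⟨e, rfl⟩
      rw [hdrop]
      linarith [sq_nonneg ‖(ext n L e).op y Ω‖]
    obtain ⟨_, ⟨e, rfl⟩, he⟩ := exists_lt_of_lt_csSup hne
      (show sSup (Set.range (drop n L)) - (1 / 2) ^ n < sSup (Set.range (drop n L)) by
        have : (0 : ℝ) < (1 / 2) ^ n := by positivity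
        linarith)
    exact ⟨e, fun e' => by linarith [le_csSup hb ⟨e', rfl⟩]⟩
  choose sel hselmax using hsel
  let L0 : Blocks A := ⟨Unit, inferInstance, fun _ => 1, fun _ => 1, fun _ => one_mem A,
    fun _ => one_mem A, fun _ => IsStarProjection.one _, fun _ => IsStarProjection.one _,
    fun i j hij => absurd (Subsingleton.elim i j) hij,
    fun i j hij => absurd (Subsingleton.elim i j) hij⟩
  let Ls : ℕ → Blocks A := fun n => Nat.rec L0 (fun n L => ext n L (sel n L)) n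
  have hsucc : ∀ n, Ls (n + 1) = ext n (Ls n) (sel n (Ls n)) := fun n => rfl
  have hV : ∀ n, c / 2 + c / 2 * (1 / 2) ^ n ≤ stVal A Ω y (Ls n) := by
    intro n
    induction n with
    | zero =>
      change _ ≤ ∑ _i : Unit, val A Ω y 1 1
      rw [Fintype.sum_unique, pow_zero, mul_one, add_halves]
      exact le_ciInf hlow
    | succ n ih =>
      rw [hsucc]
      have h1 := hval n (Ls n) (sel n (Ls n))
      rw [pow_succ] at h1 ⊢
      linarith
  have hnormlow : ∀ n, c / 2 ≤ ‖(Ls n).op y Ω‖ ^ 2 := by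
    intro n
    rw [Blocks.norm_sq_op _ h]
    refine le_trans ?_ (Finset.sum_le_sum (fun i _ => val_le_norm h hy ((Ls n).e_mem i)
      ((Ls n).e_proj i) (h.masa.mem_M ((Ls n).x_mem i))))
    refine le_trans ?_ (hV n)
    have : 0 ≤ c / 2 * (1 / 2) ^ n := by positivity
    linarith
  have htrans : ∀ n m, n ≤ m → ∀ a, (Ls m).op ((Ls n).op a) = (Ls m).op a := by
    intro n m hnm
    induction m, hnm using Nat.le_induction with
    | base => exact (Ls n).op_op
    | succ m _ ih =>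
      intro a
      have hs := hcomp m (Ls m) (sel m (Ls m))
      rw [← hsucc] at hs
      rw [← hs, ih, hs]
  have hopM : ∀ n, (Ls n).op y ∈ M := fun n => Blocks.op_mem _ h.masa hy
  have hsq : ∀ n m, n ≤ m → ‖((Ls m).op y - (Ls n).op y) Ω‖ ^ 2
      = ‖(Ls n).op y Ω‖ ^ 2 - ‖(Ls m).op y Ω‖ ^ 2 := by
    intro n m hnm
    have h1 : ⟪(Ls m).op y Ω, (Ls n).op y Ω⟫ = ((‖(Ls m).op y Ω‖ ^ 2 : ℝ) : ℂ) := by
      rw [Blocks.inner_op _ h hy (hopM n), htrans n m hnm, ← inner_conj_symm,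
        Blocks.inner_op_self _ h hy, Complex.conj_ofReal]
    rw [sub_apply, norm_sub_sq (𝕜 := ℂ), h1, RCLike.re_to_complex, Complex.ofReal_re]
    ring
  have ha : Antitone (fun n => ‖(Ls n).op y Ω‖ ^ 2) := fun n m hnm => by
    have := sq_nonneg ‖((Ls m).op y - (Ls n).op y) Ω‖
    simp only
    linarith [hsq n m hnm]
  have hb : BddBelow (Set.range (fun n => ‖(Ls n).op y Ω‖ ^ 2)) :=
    ⟨0, by rintro _ ⟨n, rfl⟩; exact sq_nonneg _⟩
  have hconv := tendsto_atTop_ciInf ha hb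
  have hC : CauchySeq (fun n => (Ls n).op y Ω) := by
    have hc' := hconv.cauchySeq
    rw [Metric.cauchySeq_iff'] at hc' ⊢
    intro ε hε
    obtain ⟨N, hN⟩ := hc' (ε ^ 2) (by positivity)
    refine ⟨N, fun n hn => (sq_lt_sq₀ dist_nonneg hε.le).1 ?_⟩
    rw [dist_eq_norm, ← sub_apply, hsq N n hn]
    refine lt_of_le_of_lt (le_abs_self _) ?_
    rw [abs_sub_comm]
    simpa [Real.dist_eq] using hN n hn
  obtain ⟨z, hzM, -, hz, -⟩ := exists_limit h hopM (fun n => Blocks.norm_op_le _ y) hC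
  refine ⟨z, Ls, hzM, hz, ?_, ?_⟩
  · have := ge_of_tendsto' (hz.norm.pow 2) hnormlow
    nlinarith [norm_nonneg (z Ω)]
  · intro e heA he η hη
    have hd : Tendsto (fun n => drop n (Ls n) ⟨e, heA, he⟩) atTop (𝓝 0) := by
      refine squeeze_zero (fun n => sq_nonneg _) (fun n => hselmax n (Ls n) ⟨e, heA, he⟩) ?_
      have h1 := hconv.sub (hconv.comp (tendsto_add_atTop_nat 1))
      rw [sub_self] at h1
      have h2 := h1.add (tendsto_pow_atTop_nhds_zero_of_lt_one (by norm_num : (0 : ℝ) ≤ 1 / 2)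
        (by norm_num : (1 / 2 : ℝ) < 1))
      rw [add_zero] at h2
      refine h2.congr (fun n => ?_)
      simp only [Function.comp_apply, hdrop, hsucc]
    have hη4 : 0 < η / 4 := by positivity
    obtain ⟨n, hn1, hn2⟩ := ((hd.eventually (gt_mem_nhds (pow_pos hη4 2))).and
      (Metric.tendsto_nhds.1 hz _ hη4)).exists
    set e' : {e : H →L[ℂ] H // e ∈ A ∧ IsStarProjection e} := ⟨e, heA, he⟩
    refine ⟨xh n (Ls n) e', hxA _ _ _, hxp _ _ _, ?_⟩
    set w := (ext n (Ls n) e').op y with hw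
    have hwM : w ∈ M := Blocks.op_mem _ h.masa hy
    have hclose : ‖(z - w) Ω‖ ≤ η / 2 := by
      have e1 : ‖((Ls n).op y - w) Ω‖ ≤ η / 4 :=
        ((sq_lt_sq₀ (norm_nonneg _) hη4.le).1 hn1).le
      rw [dist_eq_norm, norm_sub_rev, ← sub_apply] at hn2
      have e2 : (z - w) Ω = (z - (Ls n).op y) Ω + ((Ls n).op y - w) Ω := by simp
      rw [e2]
      refine (norm_add_le _ _).trans ?_
      linarith
    have e3 : e * z - z * xh n (Ls n) e' = e * (z - w) - (z - w) * xh n (Ls n) e' := by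
      rw [mul_sub, sub_mul, hw, hint n (Ls n) e' y]
      abel
    rw [e3, sub_apply]
    refine (norm_sub_le _ _).trans ?_
    have b1 := proj_norm_le he ((z - w) Ω)
    have b2 := (norm_mul_right_le h (sub_mem hzM hwM) (h.masa.mem_M (hxA n (Ls n) e'))).trans
      (mul_le_of_le_one_left (norm_nonneg _) (hxp n (Ls n) e').norm_le)
    simp only [mul_apply_eq_comp] at b1 b2 ⊢
    linarith

lemma IL.op {a : H →L[ℂ] H} (ha : IL A Ω a) (haM : a ∈ M) (L : Blocks A) :
    IL A Ω (L.op a) := by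
  intro e heA he η hη
  obtain ⟨x, hxA, hx, hle⟩ := ha e heA he η hη
  refine ⟨x, hxA, hx, le_trans ?_ hle⟩
  rw [← L.op_mul_left h.masa heA, ← L.op_mul_right h.masa hxA, ← L.op_sub]
  exact Blocks.norm_op_apply_le L h
    (sub_mem (mul_mem (h.masa.mem_M heA) haM) (mul_mem haM (h.masa.mem_M hxA)))

lemma IL.of_tendsto {a : ℕ → (H →L[ℂ] H)} (haM : ∀ n, a n ∈ M) (ha : ∀ n, IL A Ω (a n))
    {z : H →L[ℂ] H} (hzM : z ∈ M) (hz : Tendsto (fun n => a n Ω) atTop (𝓝 (z Ω))) :
    IL A Ω z := by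
  intro e heA he η hη
  obtain ⟨n, hn⟩ := (Metric.tendsto_nhds.1 hz (η / 4) (by positivity)).exists
  obtain ⟨x, hxA, hx, hle⟩ := ha n e heA he (η / 4) (by positivity)
  refine ⟨x, hxA, hx, ?_⟩
  have e1 : e * z - z * x = e * (z - a n) - (z - a n) * x + (e * a n - a n * x) := by
    rw [mul_sub, sub_mul]; abel
  rw [e1, add_apply, sub_apply]
  rw [dist_eq_norm, norm_sub_rev, ← sub_apply] at hn
  refine (norm_add_le _ _).trans ?_
  have b1 := proj_norm_le he ((z - a n) Ω)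
  have b2 := (norm_mul_right_le h (sub_mem hzM (haM n)) (h.masa.mem_M hxA)).trans
    (mul_le_of_le_one_left (norm_nonneg _) hx.norm_le)
  have b3 := norm_sub_le ((e * (z - a n)) Ω) (((z - a n) * x) Ω)
  simp only [mul_apply_eq_comp] at b1 b2 b3 ⊢
  linarith

lemma IL.conj_mem {z : H →L[ℂ] H} (hz : IL A Ω z) (hzM : z ∈ M) {b : H →L[ℂ] H} (hb : b ∈ A) :
    z * b * star z ∈ A := by
  have hbM := h.masa.mem_M hb
  have hX : z * b * star z ∈ M := mul_mem (mul_mem hzM hbM) (star_mem hzM)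
  refine h.masa.mem_of_commute (h.masa.comm_of_comm_proj (fun e heA he => ?_))
    (fun m hm => commute_of_mem_centralizer hX hm)
  refine sub_eq_zero.1 (h.faithful _ (sub_mem (mul_mem (h.masa.mem_M heA) hX)
    (mul_mem hX (h.masa.mem_M heA))) (norm_le_zero_iff.1 (le_of_forall_pos_le_add (fun ε hε => ?_))))
  rw [zero_add]
  obtain ⟨x, hxA, hx, hle⟩ := hz e heA he (ε / (2 * (‖z‖ * ‖b‖ + 1))) (by positivity)
  set d := e * z - z * x with hd
  have hdM : d ∈ M :=
    sub_mem (mul_mem (h.masa.mem_M heA) hzM) (mul_mem hzM (h.masa.mem_M hxA))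
  have e1 : e * (z * b * star z) - z * b * star z * e = d * (b * star z) - z * b * star d := by
    have hbx : x * b = b * x := h.masa.comm hxA hb
    rw [hd, star_sub, star_mul, star_mul, hx.isSelfAdjoint.star_eq, he.isSelfAdjoint.star_eq]
    simp only [mul_sub, sub_mul, ← mul_assoc]
    rw [mul_assoc z x b, hbx, ← mul_assoc z b x]
    abel
  rw [e1, sub_apply]
  refine (norm_sub_le _ _).trans ?_
  have b1 := norm_mul_right_le h hdM (mul_mem hbM (star_mem hzM))
  have b2 := norm_mul_left_le h (z * b) (star d) (Ω := Ω)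
  rw [norm_star_apply h hdM] at b2
  have c1 : ‖b * star z‖ ≤ ‖z‖ * ‖b‖ := by
    refine (norm_mul_le _ _).trans (le_of_eq ?_)
    rw [norm_star, mul_comm]
  have c2 : ‖z * b‖ ≤ ‖z‖ * ‖b‖ := norm_mul_le _ _
  have c3 : (‖z‖ * ‖b‖) * ‖d Ω‖ ≤ ε / 2 := by
    refine (mul_le_mul_of_nonneg_left hle (by positivity)).trans ?_
    rw [mul_div_assoc', div_le_iff₀ (by positivity)]
    nlinarith [mul_nonneg hε.le (mul_nonneg (norm_nonneg z) (norm_nonneg b))]
  have c4 := mul_le_mul_of_nonneg_right c1 (norm_nonneg (d Ω))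
  have c5 := mul_le_mul_of_nonneg_right c2 (norm_nonneg (d Ω))
  linarith

/-- A spectral cut of `z` is a normaliser times an element of `A`. -/
lemma exists_cut_normaliser {z : H →L[ℂ] H} (hzM : z ∈ M)
    (h1 : ∀ a ∈ A, z * a * star z ∈ A) (h2 : ∀ a ∈ A, star z * a * z ∈ A) {δ : ℝ} (hδ : 0 < δ) :
    ∃ p v l : H →L[ℂ] H, IsNormaliser M A v ∧ l ∈ A ∧ v * l = z * p ∧
      ‖(z * (1 - p)) Ω‖ ≤ Real.sqrt δ * ‖Ω‖ := by
  have hA := h.masa
  have htA : star z * z ∈ A := by simpa using h2 1 (one_mem A)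
  set b := star z * z - δ • (1 : H →L[ℂ] H) with hb
  have hbA : b ∈ A := by
    refine sub_mem htA ?_
    rw [← Complex.coe_smul]
    exact A.toSubalgebra.smul_mem (one_mem A) _
  have hbs : IsSelfAdjoint b :=
    (IsSelfAdjoint.star_mul_self z).sub
      (IsSelfAdjoint.smul (IsSelfAdjoint.all δ) (IsSelfAdjoint.one _))
  obtain ⟨p, bp, bm, hpA, hp, hbpA, hbmA, hbp, hbm, hsplit, hfix, hkill, hbpd⟩ :=
    exists_pos_split hA hbA hbs
  set G := fun t : ℝ => (Real.sqrt (δ + max t 0))⁻¹ with hG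
  set S := fun t : ℝ => Real.sqrt (δ + max t 0) with hS
  have hpos : ∀ t : ℝ, 0 < δ + max t 0 := fun t => by
    have := le_max_right t 0
    linarith
  have hSc : Continuous S :=
    Real.continuous_sqrt.comp (continuous_const.add (continuous_id.max continuous_const))
  have hGc : Continuous G := hSc.inv₀ (fun t => (Real.sqrt_pos.2 (hpos t)).ne')
  set k := cfc G b with hk
  set l := cfc S b with hl
  have hkA : k ∈ A := cfc_mem_A hA hbA _
  have hlA : l ∈ A := cfc_mem_A hA hbA _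
  have hks : IsSelfAdjoint k := cfc_predicate _ b
  have hkl : k * l = 1 := by
    rw [hk, hl, ← cfc_mul G S b hGc.continuousOn hSc.continuousOn, ← cfc_const_one ℝ b]
    exact cfc_congr (fun t _ => inv_mul_cancel₀ (Real.sqrt_pos.2 (hpos t)).ne')
  have hll : l * l = δ • (1 : H →L[ℂ] H) + bp := by
    rw [hl, ← cfc_mul S S b hSc.continuousOn hSc.continuousOn, hbpd, ← cfc_const_one ℝ b, ← cfc_smul δ (fun _ => (1 : ℝ)) b,
      ← cfc_add (a := b) (fun t => δ • (1 : ℝ)) (fun t => max t 0)]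
    refine cfc_congr (fun t _ => ?_)
    simp only [S, smul_eq_mul, mul_one]
    exact Real.mul_self_sqrt (hpos t).le
  have htp : star z * z * p = (δ • (1 : H →L[ℂ] H) + bp) * p := by
    have : star z * z = δ • (1 : H →L[ℂ] H) + bp - bm := by
      rw [add_sub_assoc, ← hsplit, hb]; abel
    rw [this, sub_mul, hA.comm hbmA hpA, hkill, sub_zero]
  have hkkp : k * k * (star z * z) * p = p := by
    rw [mul_assoc (k * k), htp, ← hll, ← mul_assoc, mul_assoc k, ← mul_assoc k l, hkl, one_mul,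
      hkl, one_mul]
  set v := z * (k * p) with hv
  have hvs : star v * v = p := by
    rw [hv, star_mul, star_mul, hks.star_eq, hp.isSelfAdjoint.star_eq]
    calc p * k * star z * (z * (k * p)) = p * (k * ((star z * z) * k)) * p := by
          simp only [mul_assoc]
      _ = p * (k * k * (star z * z) * p) := by
          rw [hA.comm htA hkA]; simp only [mul_assoc]
      _ = p := by rw [hkkp, hp.isIdempotentElem.eq]
  have hkp : k * p ∈ A := mul_mem hkA hpA
  have hpk : p * k ∈ A := mul_mem hpA hkA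
  have hstar : star v = p * k * star z := by
    rw [hv, star_mul, star_mul, hks.star_eq, hp.isSelfAdjoint.star_eq]
  have hvn : IsNormaliser M A v := by
    refine ⟨mul_mem hzM (hA.mem_M hkp), by rw [hvs]; exact hp, by rw [hvs]; exact hpA, ?_,
      fun a ha => ⟨?_, ?_⟩⟩
    · rw [hstar, hv]
      have := h1 _ (mul_mem hkp hpk)
      simpa only [mul_assoc] using this
    · rw [hstar, hv]
      have := h1 _ (mul_mem (mul_mem hkp ha) hpk)
      simpa only [mul_assoc] using this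
    · rw [hstar, hv]
      have := mul_mem (mul_mem hpk (h2 a ha)) hkp
      simpa only [mul_assoc] using this
  have hvl : v * l = z * p := by
    rw [hv, mul_assoc, mul_assoc k, hA.comm hpA hlA, ← mul_assoc k, hkl, one_mul]
  have hrest : ‖(z * (1 - p)) Ω‖ ≤ Real.sqrt δ * ‖Ω‖ := by
    have h1pA := sub_mem (one_mem A) hpA
    have e1 : ‖(z * (1 - p)) Ω‖ ^ 2 = (⟪Ω, ((1 - p) * (star z * z)) Ω⟫).re := by
      rw [@norm_sq_eq_re_inner ℂ, RCLike.re_to_complex, inner_eq h, star_mul,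
        hp.one_sub.isSelfAdjoint.star_eq]
      congr 1
      calc ⟪Ω, ((1 - p) * star z * (z * (1 - p))) Ω⟫
          = ⟪Ω, ((1 - p) * ((star z * z) * (1 - p))) Ω⟫ := by simp only [mul_assoc]
        _ = _ := by
            rw [hA.comm htA h1pA, ← mul_assoc, hp.one_sub.isIdempotentElem.eq]
    have e2 : (1 - p) * (star z * z) = δ • (1 - p) - bm := by
      have : star z * z = δ • (1 : H →L[ℂ] H) + bp - bm := by
        rw [add_sub_assoc, ← hsplit, hb]; abel
      rw [this, mul_sub, mul_add, mul_smul_comm, mul_one, sub_mul 1 p bp, one_mul, hfix,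
        sub_self, add_zero, sub_mul 1 p bm, one_mul, hkill, sub_zero]
    have e3 : (⟪Ω, (1 - p) Ω⟫).re ≤ ‖Ω‖ ^ 2 := by
      rw [← proj_norm_sq h hp.one_sub]
      exact pow_le_pow_left₀ (norm_nonneg _) (proj_norm_le hp.one_sub Ω) 2
    refine (sq_le_sq₀ (norm_nonneg _) (by positivity)).1 ?_
    rw [e1, e2, mul_pow, Real.sq_sqrt hδ.le, sub_apply, inner_sub_right, Complex.sub_re,
      ← Complex.coe_smul, smul_apply, inner_smul_right, Complex.re_ofReal_mul]
    nlinarith [hbm.2 Ω, mul_le_mul_of_nonneg_left e3 hδ.le]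
  exact ⟨p, v, l, hvn, hlA, hvl, hrest⟩

/-- An element conjugating `A` into itself is seen by the normalisers. -/
lemma inner_eq_zero_of_conj {z y : H →L[ℂ] H} (hzM : z ∈ M)
    (h1 : ∀ a ∈ A, z * a * star z ∈ A) (h2 : ∀ a ∈ A, star z * a * z ∈ A)
    (hN : OrthN M A Ω y) : ⟪z Ω, y Ω⟫ = 0 := by
  have hbound : ∀ δ : ℝ, 0 < δ → ‖⟪z Ω, y Ω⟫‖ ≤ Real.sqrt δ * (‖Ω‖ * ‖y Ω‖) := by
    intro δ hδ
    obtain ⟨p, v, l, hvn, hlA, hvl, hrest⟩ := exists_cut_normaliser h hzM h1 h2 hδ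
    have hzero : ⟪(z * p) Ω, y Ω⟫ = 0 := by
      rw [← hvl]
      exact orthN_iff.1 hN _ (InN.mul h ⟨hvn.1, apply_mem_vecN (Submodule.subset_span hvn)⟩
        (inN_of_mem h hlA)).2
    have e : ⟪z Ω, y Ω⟫ = ⟪(z * (1 - p)) Ω, y Ω⟫ := by
      rw [mul_sub, mul_one, sub_apply, inner_sub_left, hzero, sub_zero]
    rw [e]
    calc _ ≤ ‖(z * (1 - p)) Ω‖ * ‖y Ω‖ := norm_inner_le_norm _ _
      _ ≤ Real.sqrt δ * ‖Ω‖ * ‖y Ω‖ := mul_le_mul_of_nonneg_right hrest (norm_nonneg _)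
      _ = _ := by ring
  rw [← norm_le_zero_iff]
  have hlim : Tendsto (fun n : ℕ => Real.sqrt (1 / ((n : ℝ) + 1)) * (‖Ω‖ * ‖y Ω‖)) atTop (𝓝 0) := by
    simpa using (((Real.continuous_sqrt.tendsto 0).comp
      tendsto_one_div_add_atTop_nhds_zero_nat).mul_const (‖Ω‖ * ‖y Ω‖))
  exact ge_of_tendsto' hlim (fun n => hbound _ (by positivity))

lemma low_of_intertwiner {z : H →L[ℂ] H} (hzM : z ∈ M) (hz : IL A Ω z) (hz0 : 0 < ‖z Ω‖) :
    ∃ c, 0 < c ∧ ∀ Q : Part A, c ≤ score Ω (star z) 1 1 Q := by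
  have hΩ : 0 < ‖Ω‖ := by
    by_contra h0
    push Not at h0
    rw [norm_le_zero_iff.1 h0, map_zero, norm_zero] at hz0
    exact lt_irrefl _ hz0
  have hzn : 0 < ‖z‖ := by
    by_contra h0
    push Not at h0
    rw [norm_le_zero_iff.1 h0] at hz0
    simp at hz0
  refine ⟨(‖z Ω‖ ^ 2 / ‖Ω‖) ^ 2 / ‖z‖ ^ 2, by positivity, fun Q => ?_⟩
  have h1 := qval_le_score h (star_mem hzM) Q
  rw [norm_star] at h1
  rw [div_le_iff₀ (by positivity), mul_comm (score _ _ _ _ _)]
  refine le_trans ?_ h1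
  have hA := h.masa
  set Y := star z * z with hY
  have hYM : Y ∈ M := mul_mem (star_mem hzM) hzM
  have hYs : IsSelfAdjoint Y := IsSelfAdjoint.star_mul_self z
  have hq : qval hA Ω (star z) Q = ∑ i, (⟪Ω, (Q.e i * Y * Q.e i * Y) Ω⟫).re := by
    refine Finset.sum_congr rfl (fun i _ => ?_)
    have heM := hA.mem_M (Q.mem i)
    rw [star_star, plim_of_mem hA (IL.conj_mem h hz hzM (Q.mem i)), @norm_sq_eq_re_inner ℂ,
      RCLike.re_to_complex, inner_eq h, star_mul, star_mul, star_star,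
      (Q.proj i).isSelfAdjoint.star_eq]
    congr 1
    calc ⟪Ω, (z * (Q.e i * star z) * (z * Q.e i * star z)) Ω⟫
        = ⟪Ω, (z * (Q.e i * Y * Q.e i * star z)) Ω⟫ := by simp only [hY, mul_assoc]
      _ = ⟪Ω, (Q.e i * Y * Q.e i * star z * z) Ω⟫ :=
          h.tracial _ hzM _ (mul_mem (mul_mem (mul_mem heM hYM) heM) (star_mem hzM))
      _ = _ := by simp only [hY, mul_assoc]
  have hpin : ∑ i, (⟪Ω, (Q.e i * Y * Q.e i * Y) Ω⟫).re = ‖Q.pinch Y Ω‖ ^ 2 := by
    rw [← Complex.re_sum, ← inner_sum, ← _root_.sum_apply, ← Finset.sum_mul]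
    change (⟪Ω, (Q.pinch Y * Y) Ω⟫).re = _
    have : ⟪Q.pinch Y Ω, Q.pinch Y Ω⟫ = ⟪Q.pinch Y Ω, Y Ω⟫ := by
      rw [← inner_pinch_apply h Q (Q.pinch Y) hYM (pinch_mem hA hYM Q), pinch_idem h]
    rw [@norm_sq_eq_re_inner ℂ, RCLike.re_to_complex, this, inner_eq h,
      (Q.pinch_isSelfAdjoint hYs).star_eq]
  rw [hq, hpin]
  refine pow_le_pow_left₀ (by positivity) ?_ 2
  rw [div_le_iff₀ hΩ]
  have h2 : ⟪Q.pinch Y Ω, Ω⟫ = ⟪Y Ω, Ω⟫ := by
    simpa [pinch_of_mem hA (one_mem A)] using inner_pinch_apply h Q Y (one_mem M) hYM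
  have h3 : (⟪Y Ω, Ω⟫).re = ‖z Ω‖ ^ 2 := by
    rw [sa_inner hYs, @norm_sq_eq_re_inner ℂ, RCLike.re_to_complex, inner_eq h]
  rw [← h3, ← h2]
  exact (Complex.re_le_norm _).trans (norm_inner_le_norm _ _)

/-- **Mixing.** -/
theorem exists_qval_le {y : H →L[ℂ] H} (hy : y ∈ M) (hN : OrthN M A Ω y) {η : ℝ} (hη : 0 < η) :
    ∃ P : Part A, qval h.masa Ω y P ≤ η := by
  by_contra hcon
  push Not at hcon
  have hy0 : 0 < ‖y‖ := by
    by_contra h0
    push Not at h0
    obtain ⟨P⟩ := (inferInstance : Nonempty (Part A))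
    have := (hcon P).trans_le (qval_le_score h hy P)
    rw [le_antisymm h0 (norm_nonneg _)] at this
    nlinarith
  obtain ⟨z₁, L, hz₁M, hz₁, hz₁0, hz₁I⟩ := exists_intertwiner h hy
    (show 0 < η / ‖y‖ ^ 2 by positivity) (fun Q => by
      rw [div_le_iff₀ (by positivity), mul_comm]
      exact (hcon Q).le.trans (qval_le_score h hy Q))
  obtain ⟨c, hc, hlow⟩ := low_of_intertwiner h hz₁M hz₁I hz₁0
  obtain ⟨w, L', hwM, hw, hw0, hwI⟩ := exists_intertwiner h (star_mem hz₁M) hc hlow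
  set z := star w with hzdef
  have hzM : z ∈ M := star_mem hwM
  set a := fun n => (L' n).swap.op z₁ with ha
  have haM : ∀ n, a n ∈ M := fun n => Blocks.op_mem _ h.masa hz₁M
  have haz : Tendsto (fun n => a n Ω) atTop (𝓝 (z Ω)) := by
    refine tendsto_iff_norm_sub_tendsto_zero.2 ?_
    refine (tendsto_iff_norm_sub_tendsto_zero.1 hw).congr (fun n => ?_)
    rw [← sub_apply, ← sub_apply, Blocks.op_star,
      ← norm_star_apply h (sub_mem (star_mem (haM n)) hwM), star_sub, star_star]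
  have hzI : IL A Ω z := IL.of_tendsto h haM (fun n => IL.op h hz₁I hz₁M _) hzM haz
  have hkey : ∀ n, ⟪a n Ω, y Ω⟫ = ((‖a n Ω‖ ^ 2 : ℝ) : ℂ) := by
    intro n
    set S := (L' n).swap
    have hlim : Tendsto (fun m => (S.op ((L m).op y)) Ω) atTop (𝓝 (S.op z₁ Ω)) := by
      refine tendsto_iff_norm_sub_tendsto_zero.2 (squeeze_zero (fun _ => norm_nonneg _)
        (fun m => ?_) (tendsto_iff_norm_sub_tendsto_zero.1 hz₁))
      rw [← sub_apply, ← sub_apply, ← S.op_sub]
      exact Blocks.norm_op_apply_le S h (sub_mem (Blocks.op_mem _ h.masa hy) hz₁M)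
    have l2 : Tendsto (fun m => ((‖(S.op ((L m).op y)) Ω‖ ^ 2 : ℝ) : ℂ)) atTop
        (𝓝 ((‖a n Ω‖ ^ 2 : ℝ) : ℂ)) :=
      (Complex.continuous_ofReal.tendsto _).comp (hlim.norm.pow 2)
    refine tendsto_nhds_unique (hlim.inner tendsto_const_nhds) (l2.congr (fun m => ?_))
    rw [← Blocks.prod_op S h.masa, Blocks.inner_op_self _ h hy]
  have l3 : Tendsto (fun n => ((‖a n Ω‖ ^ 2 : ℝ) : ℂ)) atTop (𝓝 ((‖z Ω‖ ^ 2 : ℝ) : ℂ)) :=
    (Complex.continuous_ofReal.tendsto _).comp (haz.norm.pow 2)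
  have hinner : ⟪z Ω, y Ω⟫ = ((‖z Ω‖ ^ 2 : ℝ) : ℂ) :=
    tendsto_nhds_unique ((haz.inner tendsto_const_nhds).congr hkey) l3
  have hzero := inner_eq_zero_of_conj h hzM (fun b hb => IL.conj_mem h hzI hzM hb)
    (fun b hb => by
      rw [hzdef, star_star]
      exact IL.conj_mem h hwI hwM hb) hN
  rw [hinner, Complex.ofReal_eq_zero, hzdef, norm_star_apply h hwM] at hzero
  nlinarith

end Vale.Agent.P078.Finite
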