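import Vale.Agent.P078.Mix.Words
import Vale.Agent.P078.Mix.Mixing

/-!
# The two estimates behind the decay of words
-/

set_option linter.unusedSectionVars false

namespace Vale.Agent.P078.Finite

open ComplexInnerProductSpace
open Filter Topology
open Vale.Agent.P078 Vale.Agent.P078.General
open scoped CStarAlgebra

universe u

variable {H : Type u} [NormedAddCommGroup H] [InnerProductSpace ℂ H] [CompleteSpace H]
variable {M : VonNeumannAlgebra H} {A : StarSubalgebra ℂ (H →L[ℂ] H)} {Ω : H}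
variable {V : Type} [Fintype V] [DecidableEq V]

lemma IsNormaliser.norm_le {v : H →L[ℂ] H} (hv : IsNormaliser M A v) : ‖v‖ ≤ 1 := by
  have h1 := hv.2.1.norm_le
  rw [CStarRing.norm_star_mul_self] at h1
  nlinarith [norm_nonneg v]

/-- The site of a variable, translated by a normaliser. -/
noncomputable def usite (P : Part A) (v : V) (w : H →L[ℂ] H) : Tok H V P.n :=
  Tok.site v (fun a => w * P.e a * star w)

lemma usite_good (hA : IsMASAIn M A) (P : Part A) (v : V) {w : H →L[ℂ] H}
    (hw : IsNormaliser M A w) : (usite P v w).Good M A :=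
  ⟨fun a => ⟨hw.conj_mem (P.mem a), hw.conj_proj hA (P.mem a) (P.proj a)⟩,
    fun a b hab => by rw [hw.conj_mul hA (P.mem a), P.orth a b hab, mul_zero, zero_mul]⟩

variable (h : FinSetting M A Ω)
include h

lemma norm_conj_apply_le {a b X : H →L[ℂ] H} (ha : IsNormaliser M A a) (hb : IsNormaliser M A b)
    (hX : X ∈ M) : ‖(a * X * star b) Ω‖ ≤ ‖X Ω‖ := by
  rw [mul_assoc]
  refine (norm_mul_left_le h a _).trans ((mul_le_of_le_one_left (norm_nonneg _) ha.norm_le).trans ?_)
  refine (norm_mul_right_le h hX (star_mem hb.mem)).trans (mul_le_of_le_one_left (norm_nonneg _) ?_)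
  rw [norm_star]
  exact hb.norm_le

lemma plim_eq_zero_of_orth {X : H →L[ℂ] H} (hX : X ∈ M) (hN : OrthN M A Ω X) :
    plim h.masa X = 0 := by
  have hcA := plim_mem h.masa hX
  refine h.faithful _ (h.masa.mem_M hcA) ?_
  have h0 : ⟪plim h.masa X Ω, X Ω⟫ = 0 := orthN_iff.1 hN _ (inN_of_mem h hcA).2
  have h1 : ⟪plim h.masa X Ω, plim h.masa X Ω⟫ = 0 := by
    rw [← h0, inner_eq h, inner_eq h, ← plim_mul_left h.masa (star_mem hcA),
      tau_plim h _ (mul_mem (star_mem (h.masa.mem_M hcA)) hX)]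
  exact inner_self_eq_zero.1 h1

/-- Two adjacent sites of one variable. -/
lemma msum_adjacent {P : Part A} {v : V} {a b y : H →L[ℂ] H} (ha : IsNormaliser M A a)
    (hb : IsNormaliser M A b) (hy : y ∈ M) (base : V → Fin P.n) :
    msum Ω [usite P v a, Tok.elt y, usite P v b] base ≤ ‖P.pinch (star a * y * b) Ω‖ ^ 2 := by
  have hA := h.masa
  simp only [msum, usite, vars, Finset.insert_eq_of_mem (Finset.mem_singleton_self v),
    insert_empty_eq]
  rw [← insert_empty_eq,
    sum_Env_insert (Finset.notMem_empty v)]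
  simp only [Env_empty, Finset.sum_singleton, eval_cons, eval_nil, mul_one, Tok.val,
    Function.update_self, Part.pinch, _root_.sum_apply]
  simp only [mul_apply_eq_comp]
  rw [norm_sq_sum_left Finset.univ P.e P.proj P.orth
    (fun i => star a (y (b (P.e i Ω))))]
  refine Finset.sum_le_sum (fun i _ => pow_le_pow_left₀ (norm_nonneg _) ?_ 2)
  have hX : P.e i * (star a * y * b) * P.e i ∈ M :=
    mul_mem (mul_mem (hA.mem_M (P.mem i)) (mul_mem (mul_mem (star_mem ha.mem) hy) hb.mem))
      (hA.mem_M (P.mem i))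
  simpa using norm_conj_apply_le h ha hb hX

omit h in
/-- A Cauchy–Schwarz bound for `∑ X X*`. -/
lemma norm_sum_mul_star_le {ι : Type*} (D : Finset ι) (X : ι → (H →L[ℂ] H)) {C : ℝ} (hC : 0 ≤ C)
    (ξ : H) (hb : ∀ v, ∑ p ∈ D, ‖star (X p) v‖ ^ 2 ≤ C ^ 2 * ‖v‖ ^ 2) :
    ‖(∑ p ∈ D, X p * star (X p)) ξ‖ ≤ C * Real.sqrt (∑ p ∈ D, ‖star (X p) ξ‖ ^ 2) := by
  set w := (∑ p ∈ D, X p * star (X p)) ξ with hw
  have e1 : ‖w‖ ^ 2 ≤ ∑ p ∈ D, ‖star (X p) ξ‖ * ‖star (X p) w‖ := by
    calc ‖w‖ ^ 2 = (⟪w, w⟫).re := by rw [@norm_sq_eq_re_inner ℂ]; rfl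
      _ = ∑ p ∈ D, (⟪star (X p) ξ, star (X p) w⟫).re := by
          conv_lhs => arg 1; arg 2; rw [hw, _root_.sum_apply]
          rw [sum_inner, Complex.re_sum]
          refine Finset.sum_congr rfl (fun p _ => ?_)
          change (⟪X p (star (X p) ξ), w⟫).re = _
          rw [← ContinuousLinearMap.adjoint_inner_right, ← ContinuousLinearMap.star_eq_adjoint]
      _ ≤ _ := Finset.sum_le_sum (fun p _ =>
          (Complex.re_le_norm _).trans (norm_inner_le_norm _ _))
  have e4 := e1.trans (Real.sum_mul_le_sqrt_mul_sqrt D _ _)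
  have e5 := Real.sqrt_le_sqrt (hb w)
  rw [Real.sqrt_mul (sq_nonneg _), Real.sqrt_sq hC, Real.sqrt_sq (norm_nonneg _)] at e5
  have e6 := e4.trans (mul_le_mul_of_nonneg_left e5 (Real.sqrt_nonneg _))
  rcases eq_or_lt_of_le (norm_nonneg w) with h0 | h0
  · rw [← h0]; positivity
  · rw [sq] at e6
    refine le_of_mul_le_mul_right (e6.trans (le_of_eq ?_)) h0
    ring

/-- Summing the middle projection gives a pinching. -/
lemma sum_middle_eq (P : Part A) {E y X : H →L[ℂ] H} (hEA : E ∈ A) (hE : IsStarProjection E)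
    (hy : y ∈ M) (hX : X ∈ M) :
    ∑ c, ‖(E * y * P.e c * X) Ω‖ ^ 2
      = (⟪P.pinch (star y * E * y) Ω, (X * star X) Ω⟫).re := by
  have hA := h.masa
  have hYM : star y * E * y ∈ M := mul_mem (mul_mem (star_mem hy) (hA.mem_M hEA)) hy
  have hYs : IsSelfAdjoint (star y * E * y) := by
    simp [IsSelfAdjoint, star_mul, hE.isSelfAdjoint.star_eq, mul_assoc]
  have hterm2 : ∀ c, ‖(E * y * P.e c * X) Ω‖ ^ 2
      = (⟪Ω, (star X * (P.e c * (star y * E * y) * P.e c) * X) Ω⟫).re := fun c => by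
    rw [@norm_sq_eq_re_inner ℂ, RCLike.re_to_complex, inner_eq h]
    simp only [star_mul, hE.isSelfAdjoint.star_eq, (P.proj c).isSelfAdjoint.star_eq, mul_assoc]
    rw [← mul_assoc E E, hE.isIdempotentElem.eq]
  simp only [hterm2]
  rw [← Complex.re_sum, ← inner_sum, ← _root_.sum_apply, ← Finset.sum_mul, ← Finset.mul_sum]
  change (⟪Ω, (star X * P.pinch (star y * E * y) * X) Ω⟫).re = _
  rw [mul_assoc (star X), h.tracial _ (star_mem hX) _ (mul_mem (pinch_mem hA hYM P) hX),
    inner_eq h, (P.pinch_isSelfAdjoint hYs).star_eq]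
  simp only [mul_assoc]

/-- Two sites of one variable around a site of a second one. -/
lemma msum_separated {P1 P : Part A} (hP : P1 ≤ P) {v b : V} (hvb : v ≠ b)
    {wl wm wr y : H →L[ℂ] H} (hl : IsNormaliser M A wl) (hm : IsNormaliser M A wm)
    (hr : IsNormaliser M A wr) (hy : y ∈ M) {Z : List (Tok H V P.n)}
    (hZ : ∀ t ∈ Z, t.Good M A) (hvZ : v ∉ vars Z) (hbZ : b ∉ vars Z) (base : V → Fin P.n) :
    msum Ω ([usite P v wl, Tok.elt y, usite P b wm] ++ Z ++ [usite P v wr]) base
      ≤ size Z ^ 2 * ‖Ω‖ * Real.sqrt (∑ I, ‖P.pinch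
          (star (star wl * y * wm) * P1.e I * (star wl * y * wm)) Ω‖ ^ 2) := by
  have hA := h.masa
  set y' := star wl * y * wm with hy'
  have hy'M : y' ∈ M := mul_mem (mul_mem (star_mem hl.mem) hy) hm.mem
  set Z' := fun k => star wm * eval k Z * wr with hZ'
  have hZ'M : ∀ k, Z' k ∈ M := fun k =>
    mul_mem (mul_mem (star_mem hm.mem) (eval_mem hA k hZ)) hr.mem
  choose π hπ using hP
  set S := vars Z with hS
  set X := fun (a : Fin P.n) (k : V → Fin P.n) => Z' k * P.e a with hX
  have hXM : ∀ a k, X a k ∈ M := fun a k => mul_mem (hZ'M k) (hA.mem_M (P.mem a))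
  -- expand the sum
  have hvars : vars ([usite P v wl, Tok.elt y, usite P b wm] ++ Z ++ [usite P v wr])
      = insert v (insert b S) := by
    simp only [vars_append, usite, vars, ← hS, insert_empty_eq]
    ext w
    simp only [Finset.mem_union, Finset.mem_insert, Finset.mem_singleton]
    tauto
  have hexp : msum Ω ([usite P v wl, Tok.elt y, usite P b wm] ++ Z ++ [usite P v wr]) base
      = ∑ a, ∑ c, ∑ k ∈ Env S base, ‖(wl * P.e a * star wl * y * (wm * P.e c * star wm)
          * eval k Z * (wr * P.e a * star wr)) Ω‖ ^ 2 := by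
    rw [msum, hvars, sum_Env_insert (by simp [hvb, hvZ])]
    refine Finset.sum_congr rfl (fun a _ => ?_)
    rw [sum_Env_insert hbZ]
    refine Finset.sum_congr rfl (fun c _ => ?_)
    refine Eq.trans ?_ (sum_Env_congr (D := S) (g := Function.update (Function.update base v a) b c)
      (fun k k' hk => by rw [eval_congr hk]) (fun w hw hw' => absurd hw hw'))
    refine Finset.sum_congr rfl (fun k hk => ?_)
    have h1 : k v = a := by
      rw [mem_Env.1 hk v hvZ, Function.update_of_ne hvb, Function.update_self]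
    have h2 : k b = c := by rw [mem_Env.1 hk b hbZ, Function.update_self]
    simp only [eval_append, eval_cons, eval_nil, usite, Tok.val, h1, h2, mul_one, mul_assoc]
  have hterm : ∀ a c k, ‖(wl * P.e a * star wl * y * (wm * P.e c * star wm)
      * eval k Z * (wr * P.e a * star wr)) Ω‖
      ≤ ‖(P1.e (π a) * y' * P.e c * X a k) Ω‖ := fun a c k => by
    have hW : P.e a * (y' * P.e c * X a k) ∈ M :=
      mul_mem (hA.mem_M (P.mem a)) (mul_mem (mul_mem hy'M (hA.mem_M (P.mem c))) (hXM a k))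
    have e : wl * P.e a * star wl * y * (wm * P.e c * star wm) * eval k Z
        * (wr * P.e a * star wr) = wl * (P.e a * (y' * P.e c * X a k)) * star wr := by
      simp only [hX, hZ', hy', mul_assoc]
    rw [e]
    refine (norm_conj_apply_le h hl hr hW).trans ?_
    rw [← hπ a, hA.comm (P1.mem _) (P.mem a), mul_assoc (P.e a), ← mul_assoc (P1.e (π a)),
      ← mul_assoc (P1.e (π a))]
    exact proj_norm_le (P.proj a) _
  set Y := fun I => star y' * P1.e I * y' with hY
  have hYM : ∀ I, Y I ∈ M := fun I => mul_mem (mul_mem (star_mem hy'M) (hA.mem_M (P1.mem I))) hy'M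
  have hYs : ∀ I, IsSelfAdjoint (Y I) := fun I => by
    simp [hY, IsSelfAdjoint, star_mul, (P1.proj I).isSelfAdjoint.star_eq, mul_assoc]
  have hsumc : ∀ a k, ∑ c, ‖(P1.e (π a) * y' * P.e c * X a k) Ω‖ ^ 2
      = (⟪P.pinch (Y (π a)) Ω, (X a k * star (X a k)) Ω⟫).re := fun a k =>
    sum_middle_eq h P (P1.mem _) (P1.proj _) hy'M (hXM a k)
  set G := fun I => ∑ a ∈ Finset.univ.filter (fun a => π a = I), ∑ k ∈ Env S base,
    X a k * star (X a k) with hG
  have hle : msum Ω ([usite P v wl, Tok.elt y, usite P b wm] ++ Z ++ [usite P v wr]) base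
      ≤ ∑ I, (⟪P.pinch (Y I) Ω, G I Ω⟫).re := by
    rw [hexp]
    calc _ ≤ ∑ a, ∑ c, ∑ k ∈ Env S base, ‖(P1.e (π a) * y' * P.e c * X a k) Ω‖ ^ 2 :=
          Finset.sum_le_sum (fun a _ => Finset.sum_le_sum (fun c _ => Finset.sum_le_sum
            (fun k _ => pow_le_pow_left₀ (norm_nonneg _) (hterm a c k) 2)))
      _ = ∑ a, ∑ k ∈ Env S base, (⟪P.pinch (Y (π a)) Ω, (X a k * star (X a k)) Ω⟫).re := by
          refine Finset.sum_congr rfl (fun a _ => ?_)
          rw [Finset.sum_comm]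
          exact Finset.sum_congr rfl (fun k _ => hsumc a k)
      _ = _ := by
          rw [← Finset.sum_fiberwise Finset.univ π]
          refine Finset.sum_congr rfl (fun I _ => ?_)
          simp only [hG, _root_.sum_apply, inner_sum, Complex.re_sum]
          refine Finset.sum_congr rfl (fun a ha => ?_)
          rw [(Finset.mem_filter.1 ha).2]
  -- sizes of the adjoint letters
  set C := size Z with hC
  have hC0 : 0 ≤ C := size_nonneg Z
  have hXstar : ∀ ξ, ∑ a, ∑ k ∈ Env S base, ‖star (X a k) ξ‖ ^ 2 ≤ C ^ 2 * ‖ξ‖ ^ 2 := by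
    intro ξ
    rw [Finset.sum_comm]
    have hb := word_bound (good_rev hZ) (O := S) (by rw [vars_rev]) base (wm ξ)
    rw [size_rev] at hb
    refine le_trans (Finset.sum_le_sum (fun k _ => ?_)) (hb.trans ?_)
    · simp only [hX, hZ', star_mul, star_star, (P.proj _).isSelfAdjoint.star_eq]
      refine le_trans (sum_proj_le P.proj P.orth ((star wr * (star (eval k Z) * wm)) ξ)) ?_
      rw [vars_rev, Finset.sdiff_self, Env_empty, Finset.sum_singleton, eval_rev k hZ]
      refine pow_le_pow_left₀ (norm_nonneg _) ?_ 2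
      refine ((star wr).le_opNorm _).trans (mul_le_of_le_one_left (norm_nonneg _) ?_)
      rw [norm_star]
      exact hr.norm_le
    · refine mul_le_mul_of_nonneg_left (pow_le_pow_left₀ (norm_nonneg _) ?_ 2) (sq_nonneg _)
      exact (wm.le_opNorm ξ).trans (mul_le_of_le_one_left (norm_nonneg _) hm.norm_le)
  set t := fun I => ∑ a ∈ Finset.univ.filter (fun a => π a = I), ∑ k ∈ Env S base,
    ‖star (X a k) Ω‖ ^ 2 with ht
  have hGle : ∀ I, ‖G I Ω‖ ≤ C * Real.sqrt (t I) := by
    intro I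
    have h1 := norm_sum_mul_star_le (Finset.univ.filter (fun a => π a = I) ×ˢ Env S base)
      (fun p => X p.1 p.2) hC0 Ω (fun v => by
        rw [Finset.sum_product]
        exact (Finset.sum_le_univ_sum_of_nonneg
          (fun a => Finset.sum_nonneg (fun k _ => sq_nonneg _))).trans (hXstar v))
    rw [Finset.sum_product, Finset.sum_product] at h1
    exact h1
  have htot : ∑ I, t I ≤ C ^ 2 * ‖Ω‖ ^ 2 := by
    simp only [ht]
    rw [Finset.sum_fiberwise]
    exact hXstar Ω
  calc _ ≤ ∑ I, (⟪P.pinch (Y I) Ω, G I Ω⟫).re := hle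
    _ ≤ ∑ I, ‖P.pinch (Y I) Ω‖ * (C * Real.sqrt (t I)) := Finset.sum_le_sum (fun I _ =>
        (Complex.re_le_norm _).trans ((norm_inner_le_norm _ _).trans
          (mul_le_mul_of_nonneg_left (hGle I) (norm_nonneg _))))
    _ ≤ C * (Real.sqrt (∑ I, ‖P.pinch (Y I) Ω‖ ^ 2) * Real.sqrt (∑ I, Real.sqrt (t I) ^ 2)) := by
        simp only [mul_left_comm _ C, ← Finset.mul_sum]
        exact mul_le_mul_of_nonneg_left (Real.sum_mul_le_sqrt_mul_sqrt _ _ _) hC0
    _ ≤ _ := by
        have e : ∑ I, Real.sqrt (t I) ^ 2 = ∑ I, t I := Finset.sum_congr rfl (fun I _ =>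
          Real.sq_sqrt (Finset.sum_nonneg (fun a _ => Finset.sum_nonneg (fun k _ => sq_nonneg _))))
        rw [e]
        have e2 := Real.sqrt_le_sqrt htot
        rw [Real.sqrt_mul (sq_nonneg _), Real.sqrt_sq hC0, Real.sqrt_sq (norm_nonneg _)] at e2
        refine (mul_le_mul_of_nonneg_left (mul_le_mul_of_nonneg_left e2 (Real.sqrt_nonneg _))
          hC0).trans (le_of_eq ?_)
        ring

end Vale.Agent.P078.Finite
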