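import Mathlib

/-!
# Sums over partially fixed valuations
-/

set_option linter.unusedSectionVars false

namespace Vale.Agent.P078.Finite

variable {V : Type*} [Fintype V] [DecidableEq V] {n : ℕ}

/-- Valuations agreeing with `base` outside `S`. -/
def Env (S : Finset V) (base : V → Fin n) : Finset (V → Fin n) :=
  Fintype.piFinset (fun v => if v ∈ S then Finset.univ else {base v})

lemma mem_Env {S : Finset V} {base g : V → Fin n} :
    g ∈ Env S base ↔ ∀ v, v ∉ S → g v = base v := by
  simp only [Env, Fintype.mem_piFinset]
  constructor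
  · intro hg v hv
    simpa [hv] using hg v
  · intro hg v
    by_cases hv : v ∈ S
    · simp [hv]
    · simpa [hv] using hg v hv

lemma Env_empty (base : V → Fin n) : Env (∅ : Finset V) base = {base} := by
  ext g
  simp [mem_Env, funext_iff]

lemma Env_univ (base : V → Fin n) : Env (Finset.univ : Finset V) base = Finset.univ := by
  ext g
  simp [mem_Env]

variable {E : Type*} [AddCommMonoid E]

lemma sum_Env_insert {S : Finset V} {v : V} (hv : v ∉ S) (base : V → Fin n)
    (f : (V → Fin n) → E) :
    ∑ g ∈ Env (insert v S) base, f g
      = ∑ a, ∑ g ∈ Env S (Function.update base v a), f g := by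
  rw [← Finset.sum_fiberwise (Env (insert v S) base) (fun g => g v)]
  refine Finset.sum_congr rfl (fun a _ => Finset.sum_congr ?_ (fun _ _ => rfl))
  ext g
  simp only [Finset.mem_filter, mem_Env, Finset.mem_insert, not_or]
  constructor
  · rintro ⟨hg, rfl⟩ w hw
    by_cases hwv : w = v
    · subst hwv; simp
    · rw [Function.update_of_ne hwv]; exact hg w ⟨hwv, hw⟩
  · intro hg
    refine ⟨fun w hw => ?_, by simpa using hg v hv⟩
    rw [hg w hw.2, Function.update_of_ne hw.1]

lemma sum_Env_insert' {S : Finset V} {v : V} (hv : v ∈ S) (base : V → Fin n)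
    (f : (V → Fin n) → E) :
    ∑ g ∈ Env S base, f g = ∑ a, ∑ g ∈ Env (S.erase v) (Function.update base v a), f g := by
  rw [← sum_Env_insert (Finset.notMem_erase v S), Finset.insert_erase hv]

lemma sum_Env_union {S T : Finset V} (hd : Disjoint S T) (base : V → Fin n)
    (f : (V → Fin n) → E) :
    ∑ g ∈ Env (S ∪ T) base, f g = ∑ g ∈ Env S base, ∑ k ∈ Env T g, f k := by
  induction S using Finset.induction generalizing base with
  | empty => simp [Env_empty]
  | insert v S hv ih =>
    rw [Finset.disjoint_insert_left] at hd
    rw [Finset.insert_union, sum_Env_insert (by simp [hv, hd.1]), sum_Env_insert hv]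
    exact Finset.sum_congr rfl (fun a _ => ih hd.2 _)

/-- A sum over `Env` only sees the base on the coordinates the summand depends on. -/
lemma sum_Env_congr {T D : Finset V} {f : (V → Fin n) → E}
    (hf : ∀ k k', (∀ v ∈ D, k v = k' v) → f k = f k') {g g' : V → Fin n}
    (hg : ∀ v ∈ D, v ∉ T → g v = g' v) :
    ∑ k ∈ Env T g, f k = ∑ k ∈ Env T g', f k := by
  induction T using Finset.induction generalizing g g' with
  | empty => simpa [Env_empty] using hf g g' (fun v hv => hg v hv (by simp))
  | insert v T hv ih =>
    rw [sum_Env_insert hv, sum_Env_insert hv]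
    refine Finset.sum_congr rfl (fun a _ => ih (fun w hw hwT => ?_))
    by_cases hwv : w = v
    · subst hwv; simp
    · rw [Function.update_of_ne hwv, Function.update_of_ne hwv]
      exact hg w hw (by simp [hwv, hwT])

end Vale.Agent.P078.Finite
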