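import Vale.Agent.P078.Mix.Moments

/-!
# The space of bounded vector families indexed by partition and colouring

The inner product is the limit along partitions of the average over colourings.
-/

set_option linter.unusedSectionVars false

namespace Vale.Agent.P078.Finite

open ComplexInnerProductSpace
open Filter Topology
open Vale.Agent.P078 Vale.Agent.P078.General

universe u

variable {H : Type u} [NormedAddCommGroup H] [InnerProductSpace ℂ H] [CompleteSpace H]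
variable {M : VonNeumannAlgebra H} {A : StarSubalgebra ℂ (H →L[ℂ] H)} {Ω : H}

/-- Indices: a partition and a colouring of it. -/
abbrev Idx (A : StarSubalgebra ℂ (H →L[ℂ] H)) (r : ℕ) : Type u :=
  Σ P : Part A, (Fin P.n → Fin r)

/-- Bounded families. -/
def bddFam (A : StarSubalgebra ℂ (H →L[ℂ] H)) (r : ℕ) : Submodule ℂ (Idx A r → H) where
  carrier := {Φ | ∃ C : ℝ, ∀ i, ‖Φ i‖ ≤ C}
  add_mem' := by
    rintro Φ Ψ ⟨C, hC⟩ ⟨D, hD⟩
    exact ⟨C + D, fun i => (norm_add_le _ _).trans (add_le_add (hC i) (hD i))⟩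
  zero_mem' := ⟨0, fun i => by simp⟩
  smul_mem' := by
    rintro c Φ ⟨C, hC⟩
    exact ⟨‖c‖ * C, fun i => by
      rw [Pi.smul_apply, norm_smul]; exact mul_le_mul_of_nonneg_left (hC i) (norm_nonneg _)⟩

/-- The space of bounded families. -/
def Fam (_hA : IsMASAIn M A) (r : ℕ) : Type u := ↥(bddFam A r)

variable {hA : IsMASAIn M A} {r : ℕ}

noncomputable instance : AddCommGroup (Fam hA r) := inferInstanceAs (AddCommGroup ↥(bddFam A r))

noncomputable instance : Module ℂ (Fam hA r) := inferInstanceAs (Module ℂ ↥(bddFam A r))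

/-- The values of a family. -/
def Fam.at' (Φ : Fam hA r) (P : Part A) (f : Fin P.n → Fin r) : H := Φ.1 ⟨P, f⟩

lemma Fam.exists_bound (Φ : Fam hA r) : ∃ C : ℝ, 0 ≤ C ∧ ∀ P f, ‖Φ.at' P f‖ ≤ C := by
  obtain ⟨C, hC⟩ := Φ.2
  exact ⟨max C 0, le_max_right _ _, fun P f => (hC ⟨P, f⟩).trans (le_max_left _ _)⟩

@[simp] lemma Fam.at'_add (Φ Ψ : Fam hA r) (P : Part A) (f : Fin P.n → Fin r) :
    (Φ + Ψ).at' P f = Φ.at' P f + Ψ.at' P f := rfl

@[simp] lemma Fam.at'_smul (z : ℂ) (Φ : Fam hA r) (P : Part A) (f : Fin P.n → Fin r) :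
    (z • Φ).at' P f = z • Φ.at' P f := rfl

@[simp] lemma Fam.at'_zero (P : Part A) (f : Fin P.n → Fin r) :
    (0 : Fam hA r).at' P f = 0 := rfl

lemma Fam.ext' {Φ Ψ : Fam hA r} (h : ∀ P f, Φ.at' P f = Ψ.at' P f) : Φ = Ψ :=
  Subtype.ext (funext fun i => h i.1 i.2)

/-- The average over colourings of the inner products. -/
noncomputable def Fam.avg (Φ Ψ : Fam hA r) (P : Part A) : ℂ :=
  ((Fintype.card (Fin P.n → Fin r) : ℂ))⁻¹ *
    ∑ f : Fin P.n → Fin r, ⟪Φ.at' P f, Ψ.at' P f⟫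

lemma Fam.norm_avg_le {Φ Ψ : Fam hA r} {P : Part A} {C D : ℝ} (hC0 : 0 ≤ C) (hD0 : 0 ≤ D)
    (hC : ∀ f, ‖Φ.at' P f‖ ≤ C) (hD : ∀ f, ‖Ψ.at' P f‖ ≤ D) : ‖Φ.avg Ψ P‖ ≤ C * D := by
  rw [Fam.avg, norm_mul, norm_inv, Complex.norm_natCast]
  have h1 : ‖∑ f : Fin P.n → Fin r, ⟪Φ.at' P f, Ψ.at' P f⟫‖
      ≤ (Fintype.card (Fin P.n → Fin r) : ℝ) * (C * D) := by
    refine (norm_sum_le _ _).trans ((Finset.sum_le_card_nsmul _ _ (C * D) (fun f _ => ?_)).trans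
      (le_of_eq (by rw [Finset.card_univ, nsmul_eq_mul])))
    exact (norm_inner_le_norm _ _).trans (mul_le_mul (hC f) (hD f) (norm_nonneg _) hC0)
  rcases Nat.eq_zero_or_pos (Fintype.card (Fin P.n → Fin r)) with h0 | h0
  · rw [h0, Nat.cast_zero, inv_zero, zero_mul]; positivity
  · rw [inv_mul_le_iff₀ (by exact_mod_cast h0)]; exact h1

lemma Fam.exists_lim (Φ Ψ : Fam hA r) :
    ∃ L : ℂ, Tendsto (Φ.avg Ψ) (uf hA : Filter (Part A)) (𝓝 L) := by
  obtain ⟨C, hC0, hC⟩ := Φ.exists_bound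
  obtain ⟨D, hD0, hD⟩ := Ψ.exists_bound
  obtain ⟨L, -, hL⟩ := (isCompact_closedBall (0 : ℂ) (C * D)).ultrafilter_le_nhds
    ((uf hA).map (Φ.avg Ψ)) (by
      rw [Ultrafilter.coe_map, le_principal_iff]
      exact Filter.mem_map.2 (Filter.univ_mem' (fun P => by
        simpa using Fam.norm_avg_le hC0 hD0 (hC P) (hD P))))
  exact ⟨L, hL⟩

/-- The limit inner product. -/
noncomputable def Fam.linner (Φ Ψ : Fam hA r) : ℂ := (Fam.exists_lim Φ Ψ).choose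

lemma Fam.tendsto_linner (Φ Ψ : Fam hA r) :
    Tendsto (Φ.avg Ψ) (uf hA : Filter (Part A)) (𝓝 (Φ.linner Ψ)) :=
  (Fam.exists_lim Φ Ψ).choose_spec

/-- The semi-inner product. -/
@[instance_reducible]
noncomputable def Fam.core (hA : IsMASAIn M A) (r : ℕ) :
    PreInnerProductSpace.Core ℂ (Fam hA r) where
  inner Φ Ψ := Φ.linner Ψ
  conj_inner_symm Φ Ψ := by
    refine tendsto_nhds_unique ((Complex.continuous_conj.tendsto _).comp (Ψ.tendsto_linner Φ))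
      ((Φ.tendsto_linner Ψ).congr (fun P => ?_))
    simp [Fam.avg]
  re_inner_nonneg Φ := by
    refine ge_of_tendsto' ((Complex.continuous_re.tendsto _).comp (Φ.tendsto_linner Φ))
      (fun P => ?_)
    simp only [Function.comp_apply, Fam.avg]
    rw [show ((Fintype.card (Fin P.n → Fin r) : ℂ))⁻¹
        = (((Fintype.card (Fin P.n → Fin r) : ℝ)⁻¹ : ℝ) : ℂ) by push_cast; rfl,
      Complex.re_ofReal_mul, Complex.re_sum]
    exact mul_nonneg (by positivity) (Finset.sum_nonneg (fun f _ => inner_self_nonneg (𝕜 := ℂ)))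
  add_left Φ Ψ Θ := by
    refine tendsto_nhds_unique ((Φ + Ψ).tendsto_linner Θ)
      (((Φ.tendsto_linner Θ).add (Ψ.tendsto_linner Θ)).congr (fun P => ?_))
    simp [Fam.avg, Finset.sum_add_distrib, mul_add]
  smul_left Φ Ψ z := by
    refine tendsto_nhds_unique ((z • Φ).tendsto_linner Ψ)
      (((Φ.tendsto_linner Ψ).const_mul ((starRingEnd ℂ) z)).congr (fun P => ?_))
    simp only [Fam.avg, Fam.at'_smul, inner_smul_left, ← Finset.mul_sum]
    ring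

noncomputable instance : SeminormedAddCommGroup (Fam hA r) :=
  @InnerProductSpace.Core.toSeminormedAddCommGroup ℂ _ _ _ _ (Fam.core hA r)

noncomputable instance : InnerProductSpace ℂ (Fam hA r) := InnerProductSpace.ofCore (Fam.core hA r)

lemma Fam.inner_eq (Φ Ψ : Fam hA r) : ⟪Φ, Ψ⟫ = Φ.linner Ψ := rfl

lemma Fam.tendsto_inner (Φ Ψ : Fam hA r) :
    Tendsto (Φ.avg Ψ) (uf hA : Filter (Part A)) (𝓝 ⟪Φ, Ψ⟫) := Φ.tendsto_linner Ψ

/-- The average of squared norms. -/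
lemma Fam.tendsto_norm_sq (Φ : Fam hA r) :
    Tendsto (fun P : Part A => ((Fintype.card (Fin P.n → Fin r) : ℝ))⁻¹ *
      ∑ f : Fin P.n → Fin r, ‖Φ.at' P f‖ ^ 2) (uf hA : Filter (Part A)) (𝓝 (‖Φ‖ ^ 2)) := by
  have h1 := (Complex.continuous_re.tendsto _).comp (Φ.tendsto_inner Φ)
  rw [show (⟪Φ, Φ⟫).re = ‖Φ‖ ^ 2 from (@norm_sq_eq_re_inner ℂ _ _ _ _ Φ).symm] at h1
  refine h1.congr (fun P => ?_)
  simp only [Function.comp_apply, Fam.avg]
  rw [show ((Fintype.card (Fin P.n → Fin r) : ℂ))⁻¹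
      = (((Fintype.card (Fin P.n → Fin r) : ℝ)⁻¹ : ℝ) : ℂ) by push_cast; rfl,
    Complex.re_ofReal_mul, Complex.re_sum]
  congr 1
  exact Finset.sum_congr rfl (fun f _ => (@norm_sq_eq_re_inner ℂ _ _ _ _ _).symm)

lemma Fam.norm_le_of_eventually {Φ : Fam hA r} {C : ℝ} (hC : 0 ≤ C)
    (hΦ : ∀ᶠ P in (uf hA : Filter (Part A)), ∀ f, ‖Φ.at' P f‖ ≤ C) : ‖Φ‖ ≤ C := by
  refine (sq_le_sq₀ (norm_nonneg _) hC).1 (le_of_tendsto Φ.tendsto_norm_sq ?_)
  filter_upwards [hΦ] with P hP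
  rcases Nat.eq_zero_or_pos (Fintype.card (Fin P.n → Fin r)) with h0 | h0
  · rw [h0, Nat.cast_zero, inv_zero, zero_mul]; positivity
  rw [inv_mul_le_iff₀ (by exact_mod_cast h0)]
  refine (Finset.sum_le_card_nsmul _ _ (C ^ 2) (fun f _ => ?_)).trans
    (le_of_eq (by rw [Finset.card_univ, nsmul_eq_mul]))
  exact pow_le_pow_left₀ (norm_nonneg _) (hP f) 2

variable (hA r) in
/-- The family `(P, f) ↦ X P f Ω`, zero if `X` is unbounded. -/
noncomputable def Fam.vec (Ω : H) (X : ∀ P : Part A, (Fin P.n → Fin r) → (H →L[ℂ] H)) :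
    Fam hA r :=
  open Classical in
  (⟨fun i => if (∃ C : ℝ, ∀ P f, ‖X P f‖ ≤ C) then X i.1 i.2 Ω else 0, by
    by_cases hX : ∃ C : ℝ, ∀ P f, ‖X P f‖ ≤ C
    · obtain ⟨C, hC⟩ := hX
      refine ⟨C * ‖Ω‖, fun i => ?_⟩
      simp only [if_pos (show ∃ C : ℝ, ∀ P f, ‖X P f‖ ≤ C from ⟨C, hC⟩)]
      exact ((X i.1 i.2).le_opNorm Ω).trans (mul_le_mul_of_nonneg_right (hC i.1 i.2) (norm_nonneg _))
    · exact ⟨0, fun i => by simp only [if_neg hX, norm_zero, le_refl]⟩⟩ : ↥(bddFam A r))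

lemma Fam.vec_at {X : ∀ P : Part A, (Fin P.n → Fin r) → (H →L[ℂ] H)}
    (hX : ∃ C : ℝ, ∀ P f, ‖X P f‖ ≤ C) (P : Part A) (f : Fin P.n → Fin r) :
    (Fam.vec hA r Ω X).at' P f = X P f Ω := by
  classical
  change (if (∃ C : ℝ, ∀ P f, ‖X P f‖ ≤ C) then X P f Ω else 0) = _
  rw [if_pos hX]

/-- Multiplication by a family of contractions. -/
noncomputable def Fam.mulOp (X : ∀ P : Part A, (Fin P.n → Fin r) → (H →L[ℂ] H))
    (hX : ∀ P f, ‖X P f‖ ≤ 1) : Fam hA r →L[ℂ] Fam hA r :=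
  LinearMap.mkContinuous
    { toFun := fun Φ => ⟨fun i => X i.1 i.2 (Φ.1 i), by
        obtain ⟨C, hC⟩ := Φ.2
        exact ⟨C, fun i => ((X i.1 i.2).le_opNorm _).trans
          ((mul_le_of_le_one_left (norm_nonneg _) (hX _ _)).trans (hC i))⟩⟩
      map_add' := fun Φ Ψ => Subtype.ext (funext fun i => map_add (X i.1 i.2) _ _)
      map_smul' := fun z Φ => Subtype.ext (funext fun i => map_smul (X i.1 i.2) z _) }
    1 (fun Φ => by
      rw [one_mul]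
      refine (sq_le_sq₀ (norm_nonneg _) (norm_nonneg _)).1
        (le_of_tendsto_of_tendsto' (Fam.tendsto_norm_sq _) Φ.tendsto_norm_sq (fun P => ?_))
      refine mul_le_mul_of_nonneg_left (Finset.sum_le_sum (fun f _ => ?_)) (by positivity)
      refine pow_le_pow_left₀ (norm_nonneg _) ?_ 2
      exact ((X P f).le_opNorm _).trans (mul_le_of_le_one_left (norm_nonneg _) (hX P f)))

lemma Fam.mulOp_at {X : ∀ P : Part A, (Fin P.n → Fin r) → (H →L[ℂ] H)}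
    (hX : ∀ P f, ‖X P f‖ ≤ 1) (Φ : Fam hA r) (P : Part A) (f : Fin P.n → Fin r) :
    (Fam.mulOp X hX Φ).at' P f = X P f (Φ.at' P f) := rfl

lemma Fam.norm_mulOp_le {X : ∀ P : Part A, (Fin P.n → Fin r) → (H →L[ℂ] H)}
    (hX : ∀ P f, ‖X P f‖ ≤ 1) (Φ : Fam hA r) : ‖Fam.mulOp X hX Φ‖ ≤ ‖Φ‖ := by
  refine (sq_le_sq₀ (norm_nonneg _) (norm_nonneg _)).1
    (le_of_tendsto_of_tendsto' (Fam.tendsto_norm_sq _) Φ.tendsto_norm_sq (fun P => ?_))
  refine mul_le_mul_of_nonneg_left (Finset.sum_le_sum (fun f _ => ?_)) (by positivity)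
  exact pow_le_pow_left₀ (norm_nonneg _)
    (((X P f).le_opNorm _).trans (mul_le_of_le_one_left (norm_nonneg _) (hX P f))) 2

end Vale.Agent.P078.Finite
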