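import Vale.Agent.P078.Mix.Spaces

/-!
# Invariance of the three subspaces and the norm bound for `q w q`
-/

set_option linter.unusedSectionVars false

namespace Vale.Agent.P078.Finite

open ComplexInnerProductSpace
open Filter Topology
open Vale.Agent.P078 Vale.Agent.P078.General
open scoped CStarAlgebra

universe u

variable {H : Type u} [NormedAddCommGroup H] [InnerProductSpace ℂ H] [CompleteSpace H]
variable {M : VonNeumannAlgebra H} {A : StarSubalgebra ℂ (H →L[ℂ] H)} {Ω : H}

section

variable (hA : IsMASAIn M A) (Ω : H) {r : ℕ} (c : Fin r)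

/-- Constants generated by normalisers. -/
noncomputable def S0 (r : ℕ) : Submodule ℂ (Fam hA r) :=
  Submodule.span ℂ {Φ | ∃ n, InN M A Ω n ∧ Φ = cvec hA Ω r n}

/-- Word vectors. -/
noncomputable def S1 : Submodule ℂ (Fam hA r) :=
  Submodule.span ℂ {Φ | ∃ Ms, WGood hA Ω Ms ∧ Φ = wvec hA Ω c 1 Ms}

/-- Orthogonal elements, possibly followed by a word. -/
noncomputable def S2 : Submodule ℂ (Fam hA r) :=
  Submodule.span ℂ {Φ | ∃ y ∈ M, OrthN M A Ω y ∧
    (Φ = cvec hA Ω r y ∨ ∃ Ms, WGood hA Ω Ms ∧ Φ = wvec hA Ω c y Ms)}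

/-- Multiplication by the centred colour piece. -/
noncomputable def Bop : Fam hA r →L[ℂ] Fam hA r :=
  Fam.mulOp (fun P f => bOp P f c) (fun P f => norm_bOp_le P f c)

/-- Multiplication by a fixed contraction. -/
noncomputable def Wop (r : ℕ) {w : H →L[ℂ] H} (hw : ‖w‖ ≤ 1) : Fam hA r →L[ℂ] Fam hA r :=
  Fam.mulOp (fun _ _ => w) (fun _ _ => hw)

variable {hA Ω c}

lemma Bop_at (Φ : Fam hA r) (P : Part A) (f : Fin P.n → Fin r) :
    (Bop hA c Φ).at' P f = bOp P f c (Φ.at' P f) := rfl

lemma Wop_at {w : H →L[ℂ] H} (hw : ‖w‖ ≤ 1) (Φ : Fam hA r) (P : Part A) (f : Fin P.n → Fin r) :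
    (Wop hA r hw Φ).at' P f = w (Φ.at' P f) := rfl

lemma Bop_symm (Φ Ψ : Fam hA r) : ⟪Bop hA c Φ, Ψ⟫ = ⟪Φ, Bop hA c Ψ⟫ := by
  refine tendsto_nhds_unique (Fam.tendsto_inner _ Ψ) ((Fam.tendsto_inner Φ _).congr (fun P => ?_))
  simp only [Fam.avg, Bop_at, sa_inner (bOp_sa P _ c)]

lemma Bop_sq (Φ Ψ : Fam hA r) : ⟪Bop hA c Φ, Bop hA c Ψ⟫
    = ((1 - 2 / r : ℝ) : ℂ) * ⟪Φ, Bop hA c Ψ⟫
      + (((1 / r) * (1 - 1 / r) : ℝ) : ℂ) * ⟪Φ, Ψ⟫ := by
  refine tendsto_nhds_unique (Fam.tendsto_inner (Bop hA c Φ) (Bop hA c Ψ))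
    ((((Fam.tendsto_inner Φ (Bop hA c Ψ)).const_mul _).add
      ((Fam.tendsto_inner Φ Ψ).const_mul _)).congr (fun P => ?_))
  simp only [Fam.avg, Bop_at]
  rw [mul_left_comm, mul_left_comm _ (_⁻¹), ← mul_add, Finset.mul_sum, Finset.mul_sum,
    ← Finset.sum_add_distrib]
  congr 1
  refine Finset.sum_congr rfl (fun f _ => ?_)
  rw [sa_inner (bOp_sa P f c),
    show bOp P f c (bOp P f c (Ψ.at' P f)) = (bOp P f c * bOp P f c) (Ψ.at' P f) from rfl,
    bOp_mul_self, add_apply, smul_apply, smul_apply, inner_add_right, inner_smul_right,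
    inner_smul_right, one_apply_eq_self]

/-- The singleton letter. -/
lemma good_one (hA : IsMASAIn M A) {z : H →L[ℂ] H} (hz : z ∈ M) :
    MPos.Good hA (((1 : H →L[ℂ] H), [(1 : H →L[ℂ] H)]), z) :=
  ⟨one_mem A, by simp, fun u hu => by
    rw [List.mem_singleton.1 hu]
    exact isNormaliser_proj hA (IsStarProjection.one _) (one_mem A), hz,
    Filter.Eventually.of_forall (fun P => List.pairwise_singleton _ _)⟩

lemma wgood_one (hA : IsMASAIn M A) {z : H →L[ℂ] H} (hz : z ∈ M) :
    WGood hA Ω [(((1 : H →L[ℂ] H), [(1 : H →L[ℂ] H)]), z)] :=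
  ⟨by simp, fun x hx => by rw [List.mem_singleton.1 hx]; exact good_one hA hz, by simp⟩

lemma Bop_cvec {z : H →L[ℂ] H} (hz : z ∈ M) :
    Bop hA c (cvec hA Ω r z) ∈ S1 hA Ω c := by
  refine Submodule.subset_span ⟨_, wgood_one hA hz, Fam.ext' (fun P f => ?_)⟩
  rw [Bop_at, cvec_at, wvec_at _ (wgood_one (Ω := Ω) hA hz).2.1]
  simp [wordOp, siteProd]

lemma Bop_wvec {y : H →L[ℂ] H} (hy : y ∈ M) (hyN : OrthN M A Ω y) {Ms : List (MPos H)}
    (hMs : WGood hA Ω Ms) : Bop hA c (wvec hA Ω c y Ms) ∈ S1 hA Ω c := by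
  have hW : WGood hA Ω ((((1 : H →L[ℂ] H), [(1 : H →L[ℂ] H)]), y) :: Ms) := by
    refine ⟨by simp, ?_, ?_⟩
    · intro x hx
      rcases List.mem_cons.1 hx with rfl | hx
      exacts [good_one hA hy, hMs.2.1 x hx]
    · rw [List.dropLast_cons_of_ne_nil hMs.1]
      intro x hx
      rcases List.mem_cons.1 hx with rfl | hx
      exacts [hyN, hMs.2.2 x hx]
  refine Submodule.subset_span ⟨_, hW, Fam.ext' (fun P f => ?_)⟩
  rw [Bop_at, wvec_at _ hMs.2.1, wvec_at _ hW.2.1]
  simp [wordOp, siteProd, mul_assoc]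

end

variable (h : FinSetting M A Ω)
include h

lemma wvec_mem_S2 {r : ℕ} {c : Fin r} {y : H →L[ℂ] H} (hy : y ∈ M) (hyN : OrthN M A Ω y)
    {Ms : List (MPos H)} (hMs : WGood h.masa Ω Ms) :
    wvec h.masa Ω c y Ms ∈ S2 h.masa Ω c :=
  Submodule.subset_span ⟨y, hy, hyN, Or.inr ⟨Ms, hMs, rfl⟩⟩

lemma cvec_mem_S02 {r : ℕ} {c : Fin r} {z : H →L[ℂ] H} (hz : z ∈ M) :
    cvec h.masa Ω r z ∈ S0 h.masa Ω r ⊔ S2 h.masa Ω c := by
  obtain ⟨n, hn, hrest⟩ := exists_decomp h hz
  rw [show z = n + (z - n) by abel, cvec_add]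
  exact Submodule.add_mem_sup (Submodule.subset_span ⟨n, hn, rfl⟩)
    (Submodule.subset_span ⟨z - n, sub_mem hz hn.1, hrest, Or.inl rfl⟩)

/-- A letter without translates: its words are constants or orthogonal elements before words. -/
lemma empty_letter_mem {r : ℕ} {c : Fin r} {a y : H →L[ℂ] H} (haA : a ∈ A) (hy : y ∈ M)
    {rest : List (MPos H)} (hrest : ∀ x ∈ rest, MPos.Good h.masa x)
    (hN : ∀ x ∈ rest.dropLast, OrthN M A Ω x.2) (hyN : rest ≠ [] → OrthN M A Ω y) :
    Fam.vec h.masa r Ω (fun P f => wordOp (bOp P f c) (((a, []), y) :: rest))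
      ∈ S0 h.masa Ω r ⊔ S2 h.masa Ω c := by
  have hay : a * y ∈ M := mul_mem (h.masa.mem_M haA) hy
  have e : (fun (P : Part A) (f : Fin P.n → Fin r) =>
      wordOp (bOp P f c) (((a, []), y) :: rest))
      = fun P f => a * y * wordOp (bOp P f c) rest := by
    funext P f; simp [wordOp_cons, siteProd]
  rw [e]
  by_cases hr : rest = []
  · subst hr
    simp only [wordOp_nil, mul_one]
    exact cvec_mem_S02 h hay
  · exact Submodule.mem_sup_right (wvec_mem_S2 h hay
      (orthN_mul_left h (inN_of_mem h haA) (hyN hr)) ⟨hr, hrest, hN⟩)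

/-- `b` applied to a word. -/
lemma Bop_word_mem {r : ℕ} {c : Fin r} {Ms : List (MPos H)} (hMs : WGood h.masa Ω Ms) :
    Bop h.masa c (wvec h.masa Ω c 1 Ms) ∈
      (S1 h.masa Ω c).topologicalClosure ⊔ (S0 h.masa Ω r ⊔ S2 h.masa Ω c).topologicalClosure := by
  have hA := h.masa
  obtain ⟨⟨⟨a0, T0⟩, y⟩, rest, rfl⟩ := List.exists_cons_of_ne_nil hMs.1
  obtain ⟨-, hgood, hN⟩ := hMs
  obtain ⟨ha0, hT0ne, hT0, hy, hsep0⟩ := hgood _ (List.mem_cons_self ..)
  simp only at ha0 hT0ne hT0 hy hsep0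
  have hrest : ∀ x ∈ rest, MPos.Good hA x := fun x hx => hgood x (List.mem_cons_of_mem _ hx)
  have hNr : ∀ x ∈ rest.dropLast, OrthN M A Ω x.2 := fun x hx => hN x (by
    rw [List.dropLast_cons_of_ne_nil (fun e => by simp [e] at hx)]
    exact List.mem_cons_of_mem _ hx)
  have hyN : rest ≠ [] → OrthN M A Ω y := fun hr => hN ((a0, T0), y) (by
    rw [List.dropLast_cons_of_ne_nil hr]; exact List.mem_cons_self ..)
  have hwg : ∀ {a : H →L[ℂ] H} {T : List (H →L[ℂ] H)}, a ∈ A → T ≠ [] →
      (∀ u ∈ T, IsNormaliser M A u) → (∀ᶠ P in (uf hA : Filter (Part A)), Sep P a T) →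
      WGood hA Ω (((a, T), y) :: rest) := by
    intro a T ha hne hT hs
    refine ⟨by simp, fun x hx => ?_, fun x hx => ?_⟩
    · rcases List.mem_cons.1 hx with rfl | hx
      exacts [⟨ha, hne, hT, hy, hs⟩, hrest x hx]
    · by_cases hr : rest = []
      · subst hr; simp at hx
      · rw [List.dropLast_cons_of_ne_nil hr] at hx
        rcases List.mem_cons.1 hx with rfl | hx
        exacts [hyN hr, hNr x hx]
  set K := (S1 hA Ω c).topologicalClosure ⊔ (S0 hA Ω r ⊔ S2 hA Ω c).topologicalClosure with hK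
  have hK1 : ∀ Φ ∈ S1 hA Ω c, Φ ∈ K := fun Φ hΦ =>
    Submodule.mem_sup_left (Submodule.le_topologicalClosure _ hΦ)
  suffices ∀ (todo done : List (H →L[ℂ] H)) (a : H →L[ℂ] H), a ∈ A → done ++ todo ≠ [] →
      (∀ u ∈ done ++ todo, IsNormaliser M A u) →
      (∀ᶠ P in (uf hA : Filter (Part A)), Sep P a (done ++ todo)) →
      (∀ᶠ P in (uf hA : Filter (Part A)), ∀ u ∈ done, ∀ i,
        a * ((1 * P.e i * star (1 : H →L[ℂ] H)) * (u * P.e i * star u)) = 0) →
      Bop hA c (wvec hA Ω c 1 (((a, done ++ todo), y) :: rest)) ∈ K from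
    this T0 [] a0 ha0 hT0ne hT0 hsep0 (Filter.Eventually.of_forall (fun P u hu => by simp at hu))
  intro todo
  induction todo with
  | nil =>
    intro done a ha hne hT hs h1
    rw [List.append_nil] at hne hT hs ⊢
    have h1n : IsNormaliser M A (1 : H →L[ℂ] H) :=
      isNormaliser_proj hA (IsStarProjection.one _) (one_mem A)
    have hW := hwg ha hne hT hs
    have hW' : WGood hA Ω (((a, 1 :: done), y) :: rest) := by
      refine hwg ha (by simp) (fun u hu => ?_) ?_
      · rcases List.mem_cons.1 hu with rfl | hu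
        exacts [h1n, hT u hu]
      · filter_upwards [hs, h1] with P hP hP1
        exact List.pairwise_cons.2 ⟨hP1, hP⟩
    refine hK1 _ (Submodule.subset_span ⟨_, hW', Fam.ext' (fun P f => ?_)⟩)
    rw [Bop_at, wvec_at _ hW.2.1, wvec_at _ hW'.2.1]
    simp only [one_mul, wordOp_cons, siteProd_cons, star_one, mul_one]
    rw [← mul_assoc a (bOp P f c), hA.comm ha (bOp_mem P f c)]
    simp [mul_assoc]
  | cons u todo ih =>
    intro done a ha hne hT hs h1
    have hu : IsNormaliser M A u := hT u (by simp)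
    obtain ⟨f, hfA, hf, hcol, hev⟩ := exists_collapse h hu
    have hdone : ∀ v ∈ done, IsNormaliser M A v := fun v hv => hT v (by simp [hv])
    have hT' : ∀ v ∈ done ++ todo, IsNormaliser M A v := fun v hv => hT v (by
      simp only [List.mem_append, List.mem_cons] at hv ⊢; tauto)
    have hsep_mul : ∀ {x : H →L[ℂ] H}, x ∈ A →
        ∀ᶠ P in (uf hA : Filter (Part A)), Sep P (a * x) (done ++ u :: todo) := fun hx => by
      filter_upwards [hs] with P hP
      exact hP.imp (fun {p q} e i => by rw [hA.comm ha hx, mul_assoc, e i, mul_zero])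
    have hsub : List.Sublist (done ++ todo) (done ++ u :: todo) :=
      (List.sublist_cons_self u todo).append_left done
    have h1f : (1 - f) ∈ A := sub_mem (one_mem A) hfA
    have hWfull : ∀ {x : H →L[ℂ] H}, x ∈ A →
        WGood hA Ω (((a * x, done ++ u :: todo), y) :: rest) := fun hx =>
      hwg (mul_mem ha hx) (by simp) hT (hsep_mul hx)
    have hW := hwg ha hne hT hs
    -- the separated piece
    have hpiece : Bop hA c (wvec hA Ω c 1 (((a * (1 - f), done ++ u :: todo), y) :: rest)) ∈ K := by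
      have := ih (done ++ [u]) (a * (1 - f)) (mul_mem ha h1f) (by simp)
        (by simpa using hT) (by simpa using hsep_mul h1f) ?_
      · simpa using this
      filter_upwards [h1, hev] with P hP hPu v hv i
      simp only [List.mem_append, List.mem_singleton] at hv
      rcases hv with hv | rfl
      · rw [hA.comm ha h1f, mul_assoc, hP v hv i, mul_zero]
      · simp only [one_mul, star_one, mul_one]
        rw [mul_assoc, hA.comm h1f (mul_mem (P.mem i) (hu.conj_mem (P.mem i))), hPu i, mul_zero]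
    -- the collapsed piece
    have hcollapse : Bop hA c (wvec hA Ω c 1 (((a * f, done ++ u :: todo), y) :: rest)) ∈ K := by
      have hafA := mul_mem ha hfA
      have e : Bop hA c (wvec hA Ω c 1 (((a * f, done ++ u :: todo), y) :: rest))
          = ((1 - 2 / r : ℝ) : ℂ) • wvec hA Ω c 1 (((a * f, done ++ u :: todo), y) :: rest)
            + (((1 / r) * (1 - 1 / r) : ℝ) : ℂ) • Fam.vec hA r Ω
              (fun P g => wordOp (bOp P g c) (((a * f, done ++ todo), y) :: rest)) := by
        refine Fam.ext' (fun P g => ?_)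
        have hbd : ∃ C : ℝ, ∀ (P : Part A) (g : Fin P.n → Fin r),
            ‖wordOp (bOp P g c) (((a * f, done ++ todo), y) :: rest)‖ ≤ C := by
          obtain ⟨C, hC0, hC⟩ := exists_wordOp_bound hrest c
          refine ⟨‖a * f‖ * ‖y‖ * C, fun P g => ?_⟩
          rw [wordOp_cons]
          refine (norm_mul_le _ _).trans (mul_le_mul ?_ (hC P g) (norm_nonneg _) (by positivity))
          refine (norm_mul_le _ _).trans (mul_le_mul_of_nonneg_right ?_ (norm_nonneg _))
          exact (norm_mul_le _ _).trans (mul_le_of_le_one_right (norm_nonneg _)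
            (norm_siteProd_le (norm_bOp_le P g c) hT'))
        rw [Bop_at, Fam.at'_add, Fam.at'_smul, Fam.at'_smul, Fam.vec_at hbd,
          wvec_at _ (hWfull hfA).2.1]
        set b := bOp P g c with hb
        have hbA : b ∈ A := bOp_mem P g c
        simp only [one_mul, wordOp_cons, siteProd_middle hA hbA hu hdone]
        set R := y * wordOp b rest
        set S := siteProd b (done ++ todo)
        have key : b * (a * f * (u * b * star u * S)) = ((1 - 2 / r : ℝ) : ℂ) •
            (a * f * (u * b * star u * S)) + (((1 / r) * (1 - 1 / r) : ℝ) : ℂ) • (a * f * S) := by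
          have e1 : a * f * (u * b * star u * S) = b * (a * f * S) := by
            rw [← mul_assoc (a * f), mul_assoc a f, hA.comm hfA (hu.conj_mem hbA), hcol b hbA,
              ← mul_assoc a b, hA.comm ha hbA]
            simp only [mul_assoc]
          rw [e1, ← mul_assoc b b, bOp_mul_self, add_mul, smul_mul_assoc, smul_mul_assoc, one_mul]
        have e2 := congrArg (fun z : H →L[ℂ] H => (z * R) Ω) key
        simp only [add_mul, smul_mul_assoc, add_apply, smul_apply] at e2
        simpa only [mul_apply_eq_comp, mul_assoc, R] using e2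
      rw [e]
      refine add_mem (Submodule.smul_mem _ _ (hK1 _ (Submodule.subset_span ⟨_, hWfull hfA, rfl⟩)))
        (Submodule.smul_mem _ _ ?_)
      by_cases hempty : done ++ todo = []
      · rw [hempty]
        exact Submodule.mem_sup_right (Submodule.le_topologicalClosure _
          (empty_letter_mem h hafA hy hrest hNr hyN))
      · have hW2 : WGood hA Ω (((a * f, done ++ todo), y) :: rest) := by
          refine hwg hafA hempty hT' ?_
          filter_upwards [hsep_mul hfA] with P hP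
          exact List.Pairwise.sublist hsub hP
        refine hK1 _ (Submodule.subset_span ⟨_, hW2, ?_⟩)
        simp [wvec, one_mul]
    have esplit : wvec hA Ω c 1 (((a, done ++ u :: todo), y) :: rest)
        = wvec hA Ω c 1 (((a * f, done ++ u :: todo), y) :: rest)
          + wvec hA Ω c 1 (((a * (1 - f), done ++ u :: todo), y) :: rest) := by
      refine Fam.ext' (fun P g => ?_)
      rw [Fam.at'_add, wvec_at _ hW.2.1, wvec_at _ (hWfull hfA).2.1, wvec_at _ (hWfull h1f).2.1,
        ← add_apply, ← mul_add]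
      simp only [wordOp_cons, ← add_mul, ← mul_add, add_sub_cancel, mul_one]
    rw [esplit, map_add]
    exact add_mem hcollapse hpiece

/-- A normaliser times a word is a word. -/
lemma normaliser_word_mem {r : ℕ} {c : Fin r} {v : H →L[ℂ] H} (hv : IsNormaliser M A v)
    {Ms : List (MPos H)} (hMs : WGood h.masa Ω Ms) :
    wvec h.masa Ω c v Ms ∈ S1 h.masa Ω c := by
  have hA := h.masa
  obtain ⟨x, rest, rfl⟩ := List.exists_cons_of_ne_nil hMs.1
  obtain ⟨-, hgood, hN⟩ := hMs
  have hx := hgood x (List.mem_cons_self ..)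
  have hvx : MPos.Good hA (translate v x) := by
    refine ⟨hv.conj_mem hx.1, by simpa [translate] using hx.2.1, ?_, mul_mem hv.mem hx.2.2.2.1, ?_⟩
    · intro u hu
      simp only [translate, List.mem_map] at hu
      obtain ⟨u', hu', rfl⟩ := hu
      exact IsNormaliser.mul hA hv (hx.2.2.1 u' hu')
    · filter_upwards [hx.2.2.2.2] with P hP
      simp only [translate, Sep, List.pairwise_map]
      refine List.Pairwise.imp_of_mem (fun {p q} hp hq hs i => ?_) hP
      have hpA := (hx.2.2.1 p hp).conj_mem (P.mem i)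
      have hqA := (hx.2.2.1 q hq).conj_mem (P.mem i)
      have e1 : ∀ w : H →L[ℂ] H,
          v * w * P.e i * star (v * w) = v * (w * P.e i * star w) * star v := fun w => by
        rw [star_mul]; simp only [mul_assoc]
      rw [e1, e1, hv.conj_mul hA hpA, hv.conj_mul hA hx.1, hs i, mul_zero, zero_mul]
  have hW : WGood hA Ω (translate v x :: rest) := by
    refine ⟨by simp, fun z hz => ?_, fun z hz => ?_⟩
    · rcases List.mem_cons.1 hz with rfl | hz
      exacts [hvx, hgood z (List.mem_cons_of_mem _ hz)]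
    · by_cases hr : rest = []
      · subst hr; simp at hz
      · rw [List.dropLast_cons_of_ne_nil hr] at hz
        rcases List.mem_cons.1 hz with rfl | hz
        · exact orthN_mul_left h ⟨hv.1, apply_mem_vecN (Submodule.subset_span hv)⟩
            (hN x (by rw [List.dropLast_cons_of_ne_nil hr]; exact List.mem_cons_self ..))
        · exact hN z (by rw [List.dropLast_cons_of_ne_nil hr]; exact List.mem_cons_of_mem _ hz)
  refine Submodule.subset_span ⟨_, hW, Fam.ext' (fun P f => ?_)⟩
  rw [wvec_at _ hgood, wvec_at _ hW.2.1, one_mul, wordOp_cons, wordOp_cons, ← mul_assoc v,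
    conj_mul_word hA hv (bOp_mem P f c) hx.1 hx.2.2.1]

/-- An element generated by normalisers times a word is a limit of words. -/
lemma inN_word_mem {r : ℕ} {c : Fin r} {n : H →L[ℂ] H} (hn : InN M A Ω n)
    {Ms : List (MPos H)} (hMs : WGood h.masa Ω Ms) :
    wvec h.masa Ω c n Ms ∈ (S1 h.masa Ω c).topologicalClosure := by
  have hspan : ∀ s ∈ spanN M A, wvec h.masa Ω c s Ms ∈ S1 h.masa Ω c := by
    intro s hs
    induction hs using Submodule.span_induction with
    | mem v hv => exact normaliser_word_mem h hv hMs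
    | zero =>
      rw [show wvec h.masa Ω c (0 : H →L[ℂ] H) Ms = 0 from
        Fam.ext' (fun P f => by simp [wvec_at _ hMs.2.1])]
      exact zero_mem _
    | add a b _ _ ha hb => rw [wvec_add _ _ hMs.2.1]; exact add_mem ha hb
    | smul k a _ ha => rw [wvec_smul _ _ hMs.2.1]; exact Submodule.smul_mem _ _ ha
  obtain ⟨C, hC0, hC⟩ := exists_wordOp_bound hMs.2.1 c
  refine Metric.mem_closure_iff.2 (fun η hη => ?_)
  obtain ⟨s, hs, hd⟩ := hn.exists_approx (show 0 < η / (C + 1) by positivity)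
  refine ⟨_, hspan s hs, ?_⟩
  rw [dist_eq_norm]
  have hle : ‖wvec h.masa Ω c n Ms - wvec h.masa Ω c s Ms‖ ≤ C * ‖(n - s) Ω‖ := by
    have e : wvec h.masa Ω c n Ms - wvec h.masa Ω c s Ms = wvec h.masa Ω c (n - s) Ms := by
      rw [sub_eq_iff_eq_add, ← wvec_add _ _ hMs.2.1, sub_add_cancel]
    rw [e]
    refine Fam.norm_le_of_eventually (by positivity) (Filter.Eventually.of_forall (fun P f => ?_))
    rw [wvec_at _ hMs.2.1]
    refine (norm_mul_right_le h (sub_mem hn.1 (spanN_mem_M hs))
      (wordOp_mem_M (bOp_mem P f c) hMs.2.1)).trans ?_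
    exact mul_le_mul_of_nonneg_right (hC P f) (norm_nonneg _)
  refine lt_of_le_of_lt (hle.trans (mul_le_mul_of_nonneg_right (by linarith : C ≤ C + 1)
    (norm_nonneg _))) ?_
  calc (C + 1) * ‖(n - s) Ω‖ < (C + 1) * (η / (C + 1)) := mul_lt_mul_of_pos_left hd (by positivity)
    _ = η := by field_simp

/-- `q w q` contracts by `O(1/√r)` on the closed span. -/
theorem qwq_bound {r : ℕ} (c : Fin r) {w : H →L[ℂ] H} (hw : w ∈ M) (hw1 : ‖w‖ ≤ 1)
    (hN : OrthN M A Ω w) :
    ∀ v ∈ (S1 h.masa Ω c ⊔ (S0 h.masa Ω r ⊔ S2 h.masa Ω c)).topologicalClosure,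
      ((1 / r : ℝ) • Wop h.masa r hw1 ((1 / r : ℝ) • v + Bop h.masa c v)
        + Bop h.masa c (Wop h.masa r hw1 ((1 / r : ℝ) • v + Bop h.masa c v)))
          ∈ (S1 h.masa Ω c ⊔ (S0 h.masa Ω r ⊔ S2 h.masa Ω c)).topologicalClosure ∧
      ‖(1 / r : ℝ) • Wop h.masa r hw1 ((1 / r : ℝ) • v + Bop h.masa c v)
        + Bop h.masa c (Wop h.masa r hw1 ((1 / r : ℝ) • v + Bop h.masa c v))‖
        ≤ ((1 / r : ℝ) ^ 2 + 2 * (1 / r) + 2 * Real.sqrt ((1 / r) * (1 - 1 / r))) * ‖v‖ := by
  have hA := h.masa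
  have hr1 : (1 : ℝ) ≤ r := by exact_mod_cast c.pos
  have hvar : (0 : ℝ) ≤ (1 / r) * (1 - 1 / r) := by
    have : (1 : ℝ) / r ≤ 1 := (div_le_one (by linarith)).2 hr1
    exact mul_nonneg (by positivity) (by linarith)
  refine norm_sandwich_le (α := 1 - 2 / r) Bop_symm (Fam.norm_mulOp_le _) (Fam.norm_mulOp_le _)
    (Real.sqrt_nonneg _) (by positivity) (fun x z => by rw [Real.sq_sqrt hvar]; exact Bop_sq x z)
    (D0 := S0 h.masa Ω r) (D1 := S1 h.masa Ω c) (D2 := S2 h.masa Ω c)
    ?_ ?_ ?_ ?_ ?_ ?_ ?_ ?_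
  · intro x hx z hz
    induction hx using Submodule.span_induction with
    | mem v hv =>
      obtain ⟨n, hn, rfl⟩ := hv
      induction hz using Submodule.span_induction with
      | mem u hu =>
        obtain ⟨Ms, hMs, rfl⟩ := hu
        exact inner_cvec_wvec h hn.1 hMs
      | zero => exact inner_zero_right _
      | add a b _ _ ha hb => rw [inner_add_right, ha, hb, add_zero]
      | smul k a _ ha => rw [inner_smul_right, ha, mul_zero]
    | zero => exact inner_zero_left _
    | add a b _ _ ha hb => rw [inner_add_left, ha, hb, add_zero]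
    | smul k a _ ha => rw [inner_smul_left, ha, mul_zero]
  · intro x hx z hz
    induction hx using Submodule.span_induction with
    | mem v hv =>
      obtain ⟨y, hy, hyN, hv⟩ := hv
      induction hz using Submodule.span_induction with
      | mem u hu =>
        obtain ⟨Ms, hMs, rfl⟩ := hu
        rcases hv with rfl | ⟨Ns, hNs, rfl⟩
        exacts [inner_cvec_wvec h hy hMs, inner_wvec_wvec h hy hyN hNs hMs]
      | zero => exact inner_zero_right _
      | add a b _ _ ha hb => rw [inner_add_right, ha, hb, add_zero]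
      | smul k a _ ha => rw [inner_smul_right, ha, mul_zero]
    | zero => exact inner_zero_left _
    | add a b _ _ ha hb => rw [inner_add_left, ha, hb, add_zero]
    | smul k a _ ha => rw [inner_smul_left, ha, mul_zero]
  · intro x hx
    exact Submodule.le_topologicalClosure _
      ((Submodule.span_le (p := (S1 hA Ω c).comap (Bop hA c).toLinearMap)).2
        (by rintro _ ⟨n, hn, rfl⟩; exact Bop_cvec hn.1) hx)
  · intro x hx
    exact Submodule.le_topologicalClosure _
      ((Submodule.span_le (p := (S1 hA Ω c).comap (Bop hA c).toLinearMap)).2 (by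
        rintro _ ⟨y, hy, hyN, rfl | ⟨Ms, hMs, rfl⟩⟩
        exacts [Bop_cvec hy, Bop_wvec hy hyN hMs]) hx)
  · intro x hx
    exact (Submodule.span_le (p := ((S1 hA Ω c).topologicalClosure ⊔
      (S0 hA Ω r ⊔ S2 hA Ω c).topologicalClosure).comap (Bop hA c).toLinearMap)).2
        (by rintro _ ⟨Ms, hMs, rfl⟩; exact Bop_word_mem h hMs) hx
  · intro x hx
    exact Submodule.le_topologicalClosure _
      ((Submodule.span_le (p := (S2 hA Ω c).comap (Wop hA r hw1).toLinearMap)).2 (by
        rintro _ ⟨n, hn, rfl⟩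
        have e : Wop hA r hw1 (cvec hA Ω r n) = cvec hA Ω r (w * n) :=
          Fam.ext' (fun P f => by rw [Wop_at, cvec_at, cvec_at]; rfl)
        change Wop hA r hw1 (cvec hA Ω r n) ∈ S2 hA Ω c
        rw [e]
        exact Submodule.subset_span ⟨w * n, mul_mem hw hn.1, orthN_mul_right h hn hw hN,
          Or.inl rfl⟩) hx)
  · intro x hx
    exact Submodule.le_topologicalClosure _
      ((Submodule.span_le (p := (S2 hA Ω c).comap (Wop hA r hw1).toLinearMap)).2 (by
        rintro _ ⟨Ms, hMs, rfl⟩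
        have e : Wop hA r hw1 (wvec hA Ω c 1 Ms) = wvec hA Ω c w Ms :=
          Fam.ext' (fun P f => by
            rw [Wop_at, wvec_at _ hMs.2.1, wvec_at _ hMs.2.1, one_mul]; rfl)
        change Wop hA r hw1 (wvec hA Ω c 1 Ms) ∈ S2 hA Ω c
        rw [e]
        exact wvec_mem_S2 h hw hN hMs) hx)
  · intro x hx
    exact (Submodule.span_le (p := ((S1 hA Ω c ⊔ (S0 hA Ω r ⊔ S2 hA Ω c)).topologicalClosure).comap
      (Wop hA r hw1).toLinearMap)).2 (by
        rintro _ ⟨y, hy, hyN, rfl | ⟨Ms, hMs, rfl⟩⟩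
        · have e : Wop hA r hw1 (cvec hA Ω r y) = cvec hA Ω r (w * y) :=
            Fam.ext' (fun P f => by rw [Wop_at, cvec_at, cvec_at]; rfl)
          change Wop hA r hw1 (cvec hA Ω r y) ∈
            (S1 hA Ω c ⊔ (S0 hA Ω r ⊔ S2 hA Ω c)).topologicalClosure
          rw [e]
          exact Submodule.le_topologicalClosure _
            (Submodule.mem_sup_right (cvec_mem_S02 h (mul_mem hw hy)))
        · have e : Wop hA r hw1 (wvec hA Ω c y Ms) = wvec hA Ω c (w * y) Ms :=
            Fam.ext' (fun P f => by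
              rw [Wop_at, wvec_at _ hMs.2.1, wvec_at _ hMs.2.1, mul_assoc w y]; rfl)
          obtain ⟨n, hn, hrest⟩ := exists_decomp h (mul_mem hw hy)
          change Wop hA r hw1 (wvec hA Ω c y Ms) ∈
            (S1 hA Ω c ⊔ (S0 hA Ω r ⊔ S2 hA Ω c)).topologicalClosure
          rw [e, show w * y = n + (w * y - n) by abel, wvec_add _ _ hMs.2.1]
          exact add_mem (Submodule.topologicalClosure_mono le_sup_left (inN_word_mem h hn hMs))
            (Submodule.le_topologicalClosure _ (Submodule.mem_sup_right (Submodule.mem_sup_right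
              (wvec_mem_S2 h (sub_mem (mul_mem hw hy) hn.1) hrest hMs))))) hx

end Vale.Agent.P078.Finite
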