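import Vale.Agent.P078.Mix.Moments

/-!
# Algebra of translates of the centred colour piece
-/

set_option linter.unusedSectionVars false

namespace Vale.Agent.P078.Finite

open ComplexInnerProductSpace
open Filter Topology
open Vale.Agent.P078 Vale.Agent.P078.General
open scoped CStarAlgebra

universe u

variable {H : Type u} [NormedAddCommGroup H] [InnerProductSpace ℂ H] [CompleteSpace H]
variable {M : VonNeumannAlgebra H} {A : StarSubalgebra ℂ (H →L[ℂ] H)} {Ω : H}

lemma norm_sum_smul_proj_le (P : Part A) (z : Fin P.n → ℂ) {C : ℝ} (hC : 0 ≤ C)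
    (hz : ∀ i, ‖z i‖ ≤ C) : ‖∑ i, z i • P.e i‖ ≤ C := by
  refine ContinuousLinearMap.opNorm_le_bound _ hC (fun v => ?_)
  refine (sq_le_sq₀ (norm_nonneg _) (by positivity)).1 ?_
  rw [_root_.sum_apply]
  calc ‖∑ i, (z i • P.e i) v‖ ^ 2 = ‖∑ i, P.e i (z i • v)‖ ^ 2 := by simp [map_smul]
    _ = ∑ i, ‖P.e i (z i • v)‖ ^ 2 :=
        norm_sq_sum_left Finset.univ P.e P.proj P.orth (fun i => z i • v)
    _ ≤ ∑ i, C ^ 2 * ‖P.e i v‖ ^ 2 := Finset.sum_le_sum (fun i _ => by
        rw [map_smul, norm_smul, mul_pow]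
        exact mul_le_mul_of_nonneg_right (pow_le_pow_left₀ (norm_nonneg _) (hz i) 2) (sq_nonneg _))
    _ = (C * ‖v‖) ^ 2 := by rw [← Finset.mul_sum, P.norm_sq_sum, mul_pow]

lemma norm_bOp_le (P : Part A) {r : ℕ} (f : Fin P.n → Fin r) (c : Fin r) :
    ‖bOp P f c‖ ≤ 1 :=
  norm_sum_smul_proj_le P _ zero_le_one (fun i => by
    rw [Complex.norm_real, Real.norm_eq_abs]; exact abs_xi_le _ _)

lemma bOp_sa (P : Part A) {r : ℕ} (f : Fin P.n → Fin r) (c : Fin r) :
    IsSelfAdjoint (bOp P f c) := by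
  change star (bOp P f c) = _
  simp only [bOp, star_sum, star_smul, (P.proj _).isSelfAdjoint.star_eq]
  exact Finset.sum_congr rfl (fun i _ => by simp)

lemma bOp_mul_self (P : Part A) {r : ℕ} (f : Fin P.n → Fin r) (c : Fin r) :
    bOp P f c * bOp P f c = ((1 - 2 / r : ℝ) : ℂ) • bOp P f c
      + (((1 / r) * (1 - 1 / r) : ℝ) : ℂ) • (1 : H →L[ℂ] H) := by
  conv_rhs => rw [← P.total]
  simp only [bOp, Finset.smul_sum, Finset.sum_mul_sum, ← Finset.sum_add_distrib]
  refine Finset.sum_congr rfl (fun i _ => ?_)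
  rw [Finset.sum_eq_single i (fun j _ hj => by
      rw [smul_mul_smul_comm, P.orth i j hj.symm, smul_zero]) (by simp),
    smul_mul_smul_comm, (P.proj i).isIdempotentElem.eq, smul_smul, ← add_smul]
  congr 1
  simp only [xi]
  split_ifs <;> push_cast <;> ring

lemma piece_eq_bOp (P : Part A) {r : ℕ} (f : Fin P.n → Fin r) (c : Fin r) :
    P.piece f c = ((1 / r : ℝ) : ℂ) • (1 : H →L[ℂ] H) + bOp P f c := by
  conv_rhs => rw [← P.total]
  simp only [bOp, Part.piece, Finset.smul_sum, ← Finset.sum_add_distrib, ← add_smul,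
    Finset.sum_filter]
  refine Finset.sum_congr rfl (fun i _ => ?_)
  simp only [xi]
  split_ifs <;> push_cast <;> simp

lemma siteProd_cons (b u : H →L[ℂ] H) (T : List (H →L[ℂ] H)) :
    siteProd b (u :: T) = u * b * star u * siteProd b T := rfl

lemma siteProd_append (b : H →L[ℂ] H) (T T' : List (H →L[ℂ] H)) :
    siteProd b (T ++ T') = siteProd b T * siteProd b T' := by simp [siteProd]

lemma siteProd_middle (hA : IsMASAIn M A) {b u : H →L[ℂ] H} (hb : b ∈ A)
    (hu : IsNormaliser M A u) {T T' : List (H →L[ℂ] H)} (hT : ∀ v ∈ T, IsNormaliser M A v) :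
    siteProd b (T ++ u :: T') = u * b * star u * siteProd b (T ++ T') := by
  rw [siteProd_append, siteProd_cons, siteProd_append, ← mul_assoc,
    hA.comm (siteProd_mem hb hT) (hu.conj_mem hb), mul_assoc]

lemma siteProd_sa (hA : IsMASAIn M A) {b : H →L[ℂ] H} (hb : b ∈ A) (hbs : IsSelfAdjoint b) :
    ∀ {T : List (H →L[ℂ] H)}, (∀ u ∈ T, IsNormaliser M A u) →
      star (siteProd b T) = siteProd b T
  | [], _ => by simp [siteProd]
  | u :: T, hT => by
    have hu := hT u (List.mem_cons_self ..)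
    have hT' : ∀ v ∈ T, IsNormaliser M A v := fun v hv => hT v (List.mem_cons_of_mem _ hv)
    rw [siteProd_cons, star_mul, siteProd_sa hA hb hbs hT',
      hA.comm (siteProd_mem hb hT') (star_mem (hu.conj_mem hb))]
    congr 1
    simp [star_mul, hbs.star_eq, mul_assoc]

lemma norm_siteProd_le {b : H →L[ℂ] H} (hb : ‖b‖ ≤ 1) :
    ∀ {T : List (H →L[ℂ] H)}, (∀ u ∈ T, IsNormaliser M A u) → ‖siteProd b T‖ ≤ 1
  | [], _ => by
    simp only [siteProd, List.map_nil, List.prod_nil]
    exact (IsStarProjection.one (H →L[ℂ] H)).norm_le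
  | u :: T, hT => by
    have hu := (hT u (List.mem_cons_self ..)).norm_le
    rw [siteProd_cons]
    refine (norm_mul_le _ _).trans ?_
    refine mul_le_one₀ ?_ (norm_nonneg _)
      (norm_siteProd_le hb (fun v hv => hT v (List.mem_cons_of_mem _ hv)))
    refine (norm_mul_le _ _).trans (mul_le_one₀ ((norm_mul_le _ _).trans
      (mul_le_one₀ hu (norm_nonneg _) hb)) (norm_nonneg _) ?_)
    rwa [norm_star]

lemma wordOp_cons (b : H →L[ℂ] H) (x : MPos H) (Ms : List (MPos H)) :
    wordOp b (x :: Ms) = x.1.1 * siteProd b x.1.2 * x.2 * wordOp b Ms := rfl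

lemma wordOp_append (b : H →L[ℂ] H) (Ms Ms' : List (MPos H)) :
    wordOp b (Ms ++ Ms') = wordOp b Ms * wordOp b Ms' := by simp [wordOp]

lemma wordOp_nil (b : H →L[ℂ] H) : wordOp b ([] : List (MPos H)) = 1 := rfl

/-- The letters of `star (word * F) * z`. -/
noncomputable def revWord : List (MPos H) → ((H →L[ℂ] H) × List (H →L[ℂ] H)) → (H →L[ℂ] H) →
    List (MPos H)
  | [], F, z => [((star F.1, F.2), z)]
  | x :: Ms, F, z => revWord Ms F (star x.2) ++ [((star x.1.1, x.1.2), z)]

/-- `v x` for a normaliser `v`: the translated letter. -/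
noncomputable def translate (v : H →L[ℂ] H) (x : MPos H) : MPos H :=
  ((v * x.1.1 * star v, x.1.2.map (fun u => v * u)), v * x.2)

lemma conj_siteProd (hA : IsMASAIn M A) {v b : H →L[ℂ] H} (hv : IsNormaliser M A v) (hb : b ∈ A) :
    ∀ {T : List (H →L[ℂ] H)}, (∀ u ∈ T, IsNormaliser M A u) → ∀ {a : H →L[ℂ] H}, a ∈ A →
      v * (a * siteProd b T) * star v
        = v * a * star v * siteProd b (T.map (fun u => v * u))
  | [], _, a, _ => by simp [siteProd]
  | u :: T, hT, a, ha => by
    have hu := hT u (List.mem_cons_self ..)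
    have hT' : ∀ w ∈ T, IsNormaliser M A w := fun w hw => hT w (List.mem_cons_of_mem _ hw)
    rw [siteProd_cons, List.map_cons, siteProd_cons, ← hv.conj_mul hA ha,
      conj_siteProd hA hv hb hT' (hu.conj_mem hb)]
    simp only [star_mul, mul_assoc]

lemma conj_mul_word (hA : IsMASAIn M A) {v b : H →L[ℂ] H} (hv : IsNormaliser M A v) (hb : b ∈ A)
    {x : MPos H} (hx : x.1.1 ∈ A) (hT : ∀ u ∈ x.1.2, IsNormaliser M A u) :
    v * (x.1.1 * siteProd b x.1.2 * x.2)
      = (translate v x).1.1 * siteProd b (translate v x).1.2 * (translate v x).2 := by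
  have hF : x.1.1 * siteProd b x.1.2 ∈ A := mul_mem hx (siteProd_mem hb hT)
  simp only [translate]
  rw [← conj_siteProd hA hv hb hT hx]
  calc v * (x.1.1 * siteProd b x.1.2 * x.2)
      = v * (star v * v) * (x.1.1 * siteProd b x.1.2) * x.2 := by
        rw [hv.mul_src]; simp only [mul_assoc]
    _ = _ := by
        rw [mul_assoc v (star v * v), ← hA.comm hF hv.src_mem]
        simp only [mul_assoc]

variable (h : FinSetting M A Ω)
include h

/-- For a normaliser `u` a projection of `A` separates the atoms where the translation by `u`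
acts trivially from those which it moves away. -/
lemma exists_collapse {u : H →L[ℂ] H} (hu : IsNormaliser M A u) :
    ∃ f ∈ A, IsStarProjection f ∧ (∀ a ∈ A, u * a * star u * f = a * f) ∧
      ∀ᶠ P in (uf h.masa : Filter (Part A)),
        ∀ i, P.e i * (u * P.e i * star u) * (1 - f) = 0 := by
  have hA := h.masa
  obtain ⟨f, p, ⟨hfA, hf⟩, hp, hfp, -, hsum, hufA, hpp⟩ := exists_split h hu
  have hfs : f * (star u * u) = f := by
    rw [← hsum, mul_add, hf.isIdempotentElem.eq, Finset.mul_sum]
    simp [hfp]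
  have huf : u * f * star u = f := by
    calc u * f * star u = (u * f) * star (u * f) := by
          rw [star_mul, hf.isSelfAdjoint.star_eq]
          simp only [← mul_assoc]
          rw [mul_assoc u f f, hf.isIdempotentElem.eq]
      _ = star (u * f) * (u * f) := hA.comm hufA (star_mem hufA)
      _ = f * (star u * u) * f := by
          rw [star_mul, hf.isSelfAdjoint.star_eq]; simp only [mul_assoc]
      _ = f := by rw [hfs, hf.isIdempotentElem.eq]
  refine ⟨f, hfA, hf, ?_, ?_⟩
  · intro a ha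
    calc u * a * star u * f = u * a * star u * (u * f * star u) := by rw [huf]
      _ = (u * f) * a * star u := by
          rw [hu.conj_mul hA ha, hA.comm ha hfA]; simp only [mul_assoc]
      _ = a * (u * f * star u) := by rw [hA.comm hufA ha]; simp only [mul_assoc]
      _ = a * f := by rw [huf]
  have hev : ∀ᶠ P in (uf hA : Filter (Part A)), ∀ j : Fin 3,
      twoPart (hp j).1 (hp j).2 ≤ P :=
    eventually_all.2 (fun j => eventually_finer hA _)
  filter_upwards [hev] with P hP i
  have h1f : 1 - f = (1 - u * star u) + ∑ j, u * p j * star u := by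
    have : u * star u = f + ∑ j, u * p j * star u := by
      conv_rhs => rw [← huf, ← Finset.sum_mul, ← Finset.mul_sum, ← add_mul, ← mul_add, hsum,
        hu.mul_src]
    rw [this]; abel
  rw [h1f, mul_add, Finset.mul_sum]
  have he : P.e i ∈ A := P.mem i
  have hue := hu.conj_mem he
  have z1 : u * P.e i * star u * (1 - u * star u) = 0 := by
    rw [mul_sub, mul_one, mul_assoc (u * P.e i), ← mul_assoc (star u), hu.src_mul_star, sub_self]
  rw [mul_assoc (P.e i) _ (1 - u * star u), z1, mul_zero, zero_add]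
  refine Finset.sum_eq_zero (fun j _ => ?_)
  obtain ⟨k, hk⟩ := hP j i
  have hpA := (hp j).1
  rw [mul_assoc, hu.conj_mul hA he]
  fin_cases k
  · have hk' : p j * P.e i = P.e i := by simpa [twoPart] using hk
    conv_lhs => arg 1; rw [← hk']
    rw [← hu.conj_mul hA he, hA.comm hue (hu.conj_mem hpA), hA.comm hpA he, mul_assoc (P.e i),
      ← mul_assoc (p j), hpp j, zero_mul, mul_zero]
  · have hk' : (1 - p j) * P.e i = P.e i := by simpa [twoPart] using hk
    rw [sub_mul, one_mul, sub_eq_self] at hk'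
    rw [hA.comm he hpA, hk', mul_zero, zero_mul, mul_zero]

end Vale.Agent.P078.Finite
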