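import Mathlib

/-!
# A norm bound from three orthogonal subspaces
-/

namespace Vale.Agent.P078.Finite

open ComplexInnerProductSpace

variable {E : Type*} [SeminormedAddCommGroup E] [InnerProductSpace ℂ E]

lemma inner_closure_zero {S T : Submodule ℂ E} (h : ∀ x ∈ S, ∀ y ∈ T, ⟪x, y⟫ = 0) :
    ∀ x ∈ S.topologicalClosure, ∀ y ∈ T.topologicalClosure, ⟪x, y⟫ = 0 := by
  intro x hx y hy
  have h1 : ∀ y ∈ T, ⟪x, y⟫ = 0 := by
    intro y hy
    have hcl : IsClosed {x : E | ⟪x, y⟫ = 0} :=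
      isClosed_eq (continuous_id.inner continuous_const) continuous_const
    exact closure_minimal (fun x hx => h x hx y hy) hcl hx
  have hcl : IsClosed {y : E | ⟪x, y⟫ = 0} :=
    isClosed_eq (continuous_const.inner continuous_id) continuous_const
  exact closure_minimal h1 hcl hy

lemma map_closure_le {S T : Submodule ℂ E} (L : E →L[ℂ] E) (h : ∀ x ∈ S, L x ∈ T.topologicalClosure) :
    ∀ x ∈ S.topologicalClosure, L x ∈ T.topologicalClosure := fun _ hx =>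
  closure_minimal (t := L ⁻¹' (T.topologicalClosure : Set E)) h
    (T.isClosed_topologicalClosure.preimage L.continuous) hx

/-- **The norm trick.** With `B` centred, `B²` a combination of `B` and `σ²`, and `B`, `W`
moving three orthogonal subspaces into each other, `(ρ + B) W (ρ + B)` has small norm. -/
theorem norm_sandwich_le {B W : E →L[ℂ] E} (hBs : ∀ x y, ⟪B x, y⟫ = ⟪x, B y⟫)
    (hBn : ∀ x, ‖B x‖ ≤ ‖x‖) (hWn : ∀ x, ‖W x‖ ≤ ‖x‖) {α σ ρ : ℝ} (hσ : 0 ≤ σ) (hρ : 0 ≤ ρ)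
    (hB2 : ∀ x y, ⟪B x, B y⟫ = (α : ℂ) * ⟪x, B y⟫ + ((σ ^ 2 : ℝ) : ℂ) * ⟪x, y⟫)
    {D0 D1 D2 : Submodule ℂ E} (h01 : ∀ x ∈ D0, ∀ y ∈ D1, ⟪x, y⟫ = 0)
    (h21 : ∀ x ∈ D2, ∀ y ∈ D1, ⟪x, y⟫ = 0)
    (hb0 : ∀ x ∈ D0, B x ∈ D1.topologicalClosure) (hb2 : ∀ x ∈ D2, B x ∈ D1.topologicalClosure)
    (hb1 : ∀ x ∈ D1, B x ∈ D1.topologicalClosure ⊔ (D0 ⊔ D2).topologicalClosure)
    (hw0 : ∀ x ∈ D0, W x ∈ D2.topologicalClosure) (hw1 : ∀ x ∈ D1, W x ∈ D2.topologicalClosure)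
    (hw2 : ∀ x ∈ D2, W x ∈ (D1 ⊔ (D0 ⊔ D2)).topologicalClosure) :
    ∀ v ∈ (D1 ⊔ (D0 ⊔ D2)).topologicalClosure,
      (ρ • (W (ρ • v + B v)) + B (W (ρ • v + B v))) ∈ (D1 ⊔ (D0 ⊔ D2)).topologicalClosure ∧
      ‖ρ • (W (ρ • v + B v)) + B (W (ρ • v + B v))‖ ≤ (ρ ^ 2 + 2 * ρ + 2 * σ) * ‖v‖ := by
  set K1 := D1.topologicalClosure with hK1
  set K02 := (D0 ⊔ D2).topologicalClosure with hK02
  set K := (D1 ⊔ (D0 ⊔ D2)).topologicalClosure with hK
  have h1_02 : ∀ x ∈ D1, ∀ y ∈ D0 ⊔ D2, ⟪x, y⟫ = 0 := by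
    intro x hx y hy
    obtain ⟨a, ha, b, hb, rfl⟩ := Submodule.mem_sup.1 hy
    rw [inner_add_right, ← inner_conj_symm x a, h01 a ha x hx, ← inner_conj_symm x b,
      h21 b hb x hx]
    simp
  have horth : ∀ x ∈ K1, ∀ y ∈ K02, ⟪x, y⟫ = 0 := inner_closure_zero h1_02
  have hb02 : ∀ x ∈ D0 ⊔ D2, B x ∈ K1 := by
    intro x hx
    obtain ⟨a, ha, b, hb, rfl⟩ := Submodule.mem_sup.1 hx
    rw [map_add]
    exact add_mem (hb0 a ha) (hb2 b hb)
  have hbK02 : ∀ x ∈ K02, B x ∈ K1 := map_closure_le B hb02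
  have hσnorm : ∀ x ∈ K02, ‖B x‖ ≤ σ * ‖x‖ := by
    intro x hx
    refine (sq_le_sq₀ (norm_nonneg _) (by positivity)).1 (le_of_eq ?_)
    have e : ⟪x, B x⟫ = 0 := by
      rw [← inner_conj_symm, horth _ (hbK02 x hx) x hx, map_zero]
    rw [mul_pow, @norm_sq_eq_re_inner ℂ _ _ _ _ (B x), hB2, e, mul_zero, zero_add,
      @norm_sq_eq_re_inner ℂ _ _ _ _ x]
    simp only [RCLike.re_to_complex, Complex.re_ofReal_mul]
  have hle1 : K1 ≤ K := Submodule.topologicalClosure_mono le_sup_left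
  have hle02 : K02 ≤ K := Submodule.topologicalClosure_mono le_sup_right
  have hle2 : D2.topologicalClosure ≤ K02 := Submodule.topologicalClosure_mono le_sup_right
  have hwK1 : ∀ x ∈ K1, W x ∈ D2.topologicalClosure := map_closure_le W hw1
  have hbK : ∀ x ∈ K, B x ∈ K := map_closure_le B (fun x hx => by
    obtain ⟨a, ha, b, hb, rfl⟩ := Submodule.mem_sup.1 hx
    rw [map_add]
    exact add_mem (sup_le hle1 hle02 (hb1 a ha)) (hle1 (hb02 b hb)))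
  have hwK : ∀ x ∈ K, W x ∈ K := map_closure_le W (fun x hx => by
    obtain ⟨a, ha, y, hy, rfl⟩ := Submodule.mem_sup.1 hx
    obtain ⟨b, hb, c, hc, rfl⟩ := Submodule.mem_sup.1 hy
    rw [map_add, map_add]
    exact add_mem (hle02 (hle2 (hw1 a ha))) (add_mem (hle02 (hle2 (hw0 b hb))) (hw2 c hc)))
  have hpy : ∀ x ∈ K1, ∀ y ∈ K02, ‖x + y‖ ^ 2 = ‖x‖ ^ 2 + ‖y‖ ^ 2 := by
    intro x hx y hy
    rw [norm_add_sq (𝕜 := ℂ), horth x hx y hy]
    simp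
  have hspan : ∀ v ∈ D1 ⊔ (D0 ⊔ D2), ‖B (W (B v))‖ ≤ 2 * σ * ‖v‖ := by
    intro v hv
    obtain ⟨v1, hv1, v02, hv02, rfl⟩ := Submodule.mem_sup.1 hv
    obtain ⟨u, hu, u', hu', huu⟩ := Submodule.mem_sup.1 (hb1 v1 hv1)
    set u1 := u + B v02 with hu1
    have hu1K : u1 ∈ K1 := add_mem hu (hb02 v02 hv02)
    have hsum : B (v1 + v02) = u1 + u' := by rw [map_add, ← huu, hu1]; abel
    have hv1le : ‖v1‖ ≤ ‖v1 + v02‖ := by
      refine (sq_le_sq₀ (norm_nonneg _) (norm_nonneg _)).1 ?_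
      rw [hpy v1 (Submodule.le_topologicalClosure _ hv1) v02
        (Submodule.le_topologicalClosure _ hv02)]
      linarith [sq_nonneg ‖v02‖]
    have hu'le : ‖u'‖ ≤ σ * ‖v1‖ := by
      have e : ⟪u', u'⟫ = ⟪B u', v1⟫ := by
        rw [hBs, ← huu, inner_add_right, ← inner_conj_symm u' u, horth u hu u' hu', map_zero,
          zero_add]
      have h1 : ‖u'‖ ^ 2 ≤ σ * ‖u'‖ * ‖v1‖ := by
        rw [@norm_sq_eq_re_inner ℂ, e]
        refine (Complex.re_le_norm _).trans ((norm_inner_le_norm _ _).trans ?_)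
        exact mul_le_mul_of_nonneg_right (hσnorm u' hu') (norm_nonneg _)
      rcases eq_or_lt_of_le (norm_nonneg u') with h0 | h0
      · rw [← h0]; positivity
      · nlinarith
    have hu1le : ‖u1‖ ≤ ‖v1 + v02‖ := by
      refine le_trans ?_ (hBn (v1 + v02))
      refine (sq_le_sq₀ (norm_nonneg _) (norm_nonneg _)).1 ?_
      rw [hsum, hpy u1 hu1K u' hu']
      linarith [sq_nonneg ‖u'‖]
    rw [hsum, map_add, map_add]
    refine (norm_add_le _ _).trans ?_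
    have a1 : ‖B (W u1)‖ ≤ σ * ‖v1 + v02‖ :=
      (hσnorm _ (hle2 (hwK1 u1 hu1K))).trans
        (mul_le_mul_of_nonneg_left ((hWn u1).trans hu1le) hσ)
    have a2 : ‖B (W u')‖ ≤ σ * ‖v1 + v02‖ :=
      ((hBn _).trans ((hWn _).trans hu'le)).trans (mul_le_mul_of_nonneg_left hv1le hσ)
    linarith
  have hclosure : ∀ v ∈ K, ‖B (W (B v))‖ ≤ 2 * σ * ‖v‖ := fun v hv =>
    closure_minimal (t := {v : E | ‖B (W (B v))‖ ≤ 2 * σ * ‖v‖}) hspan
      (isClosed_le (B.continuous.comp (W.continuous.comp B.continuous)).norm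
        (continuous_const.mul continuous_norm)) hv
  intro v hv
  refine ⟨add_mem (Submodule.smul_of_tower_mem _ _ (hwK _ (add_mem (Submodule.smul_of_tower_mem _ _ hv)
    (hbK v hv)))) (hbK _ (hwK _ (add_mem (Submodule.smul_of_tower_mem _ _ hv) (hbK v hv)))), ?_⟩
  have e : ρ • (W (ρ • v + B v)) + B (W (ρ • v + B v))
      = ρ • ρ • W v + (ρ • W (B v) + ρ • B (W v)) + B (W (B v)) := by
    simp only [map_add, ContinuousLinearMap.map_smul_of_tower, smul_add]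
    abel
  rw [e]
  have n1 : ∀ x : E, ‖ρ • x‖ = ρ * ‖x‖ := fun x => by
    rw [show ρ • x = (ρ : ℂ) • x from (Complex.coe_smul ρ x).symm, norm_smul, Complex.norm_real,
      Real.norm_of_nonneg hρ]
  have b1 := norm_add_le (ρ • ρ • W v + (ρ • W (B v) + ρ • B (W v))) (B (W (B v)))
  have b2 := norm_add_le (ρ • ρ • W v) (ρ • W (B v) + ρ • B (W v))
  have b3 := norm_add_le (ρ • W (B v)) (ρ • B (W v))
  simp only [n1] at b1 b2 b3
  have c1 : ‖W v‖ ≤ ‖v‖ := hWn v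
  have c2 : ‖W (B v)‖ ≤ ‖v‖ := (hWn _).trans (hBn v)
  have c3 : ‖B (W v)‖ ≤ ‖v‖ := (hBn _).trans (hWn v)
  nlinarith [hclosure v hv, mul_le_mul_of_nonneg_left c1 (mul_nonneg hρ hρ),
    mul_le_mul_of_nonneg_left c2 hρ, mul_le_mul_of_nonneg_left c3 hρ]

end Vale.Agent.P078.Finite
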