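import Vale.Agent.P078.Finite.Split

/-!
# Positive elements of a MASA and families of orthogonal projections
-/

set_option linter.unusedSectionVars false

namespace Vale.Agent.P078.Finite

open ComplexInnerProductSpace
open Filter Topology
open Vale.Agent.P078 Vale.Agent.P078.General
open scoped CStarAlgebra

universe u

variable {H : Type u} [NormedAddCommGroup H] [InnerProductSpace ℂ H] [CompleteSpace H]
variable {M : VonNeumannAlgebra H} {A : StarSubalgebra ℂ (H →L[ℂ] H)} {Ω : H}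

/-- Self-adjoint with nonnegative quadratic form. -/
def Pos (T : H →L[ℂ] H) : Prop := IsSelfAdjoint T ∧ ∀ v, 0 ≤ (⟪v, T v⟫).re

lemma Pos.zero : Pos (0 : H →L[ℂ] H) := ⟨IsSelfAdjoint.zero _, fun v => by simp⟩

lemma Pos.add {S T : H →L[ℂ] H} (hS : Pos S) (hT : Pos T) : Pos (S + T) :=
  ⟨hS.1.add hT.1, fun v => by
    rw [add_apply, inner_add_right, Complex.add_re]; exact add_nonneg (hS.2 v) (hT.2 v)⟩

lemma Pos.star_mul_self (s : H →L[ℂ] H) : Pos (star s * s) :=
  ⟨IsSelfAdjoint.star_mul_self s, fun v => by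
    change 0 ≤ (⟪v, star s (s v)⟫).re
    rw [ContinuousLinearMap.star_eq_adjoint, ContinuousLinearMap.adjoint_inner_right,
      ← RCLike.re_to_complex, ← norm_sq_eq_re_inner (𝕜 := ℂ)]
    positivity⟩

lemma Pos.of_sq {s : H →L[ℂ] H} (hs : IsSelfAdjoint s) : Pos (s * s) := by
  simpa [hs.star_eq] using Pos.star_mul_self s

lemma Pos.spectrum_nonneg {T : H →L[ℂ] H} (hT : Pos T) : ∀ t ∈ spectrum ℝ T, 0 ≤ t := by
  have hpos : T.IsPositive := by
    refine ⟨hT.1.isSymmetric, fun v => ?_⟩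
    rw [ContinuousLinearMap.reApplyInnerSelf_apply, inner_re_symm]
    exact hT.2 v
  exact fun t ht => spectrum_nonneg_of_nonneg
    ((ContinuousLinearMap.nonneg_iff_isPositive T).2 hpos) ht

lemma pos_cfc {T : H →L[ℂ] H} (hT : IsSelfAdjoint T) (f : ℝ → ℝ) (hf : Continuous f)
    (h0 : ∀ t, 0 ≤ f t) : Pos (cfc f T) := by
  have e : cfc f T = cfc (fun t => Real.sqrt (f t)) T * cfc (fun t => Real.sqrt (f t)) T := by
    rw [← cfc_mul (fun t => Real.sqrt (f t)) _ T]
    exact cfc_congr (fun t _ => (Real.mul_self_sqrt (h0 t)).symm)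
  rw [e]
  exact Pos.of_sq (cfc_predicate _ T)

lemma cfc_mem_A (hA : IsMASAIn M A) {b : H →L[ℂ] H} (hb : b ∈ A) (f : ℝ → ℝ) : cfc f b ∈ A :=
  hA.mem_of_commute (fun _ ha => ((Commute.cfc_real (hA.comm hb ha) f).eq).symm)
    (fun _ hm => ((Commute.cfc_real (commute_of_mem_centralizer (hA.mem_M hb) hm).symm f).eq).symm)

lemma cfc_mem_M {b : H →L[ℂ] H} (hb : b ∈ M) (f : ℝ → ℝ) : cfc f b ∈ M :=
  mem_vna_of_commute
    (fun _ hm => ((Commute.cfc_real (commute_of_mem_centralizer hb hm).symm f).eq).symm)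

lemma Pos.exists_sqrt {T : H →L[ℂ] H} (hT : Pos T) :
    ∃ s : H →L[ℂ] H, IsSelfAdjoint s ∧ s * s = T ∧ s = cfc Real.sqrt T := by
  refine ⟨_, cfc_predicate _ T, ?_, rfl⟩
  rw [← cfc_mul Real.sqrt Real.sqrt T]
  conv_rhs => rw [← cfc_id ℝ T hT.1]
  exact cfc_congr (fun t ht => Real.mul_self_sqrt (hT.spectrum_nonneg t ht))

/-- Positive and negative part, separated by a projection of `A`. -/
lemma exists_pos_split (hA : IsMASAIn M A) {b : H →L[ℂ] H} (hbA : b ∈ A) (hb : IsSelfAdjoint b) :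
    ∃ p bp bm : H →L[ℂ] H, p ∈ A ∧ IsStarProjection p ∧ bp ∈ A ∧ bm ∈ A ∧ Pos bp ∧ Pos bm ∧
      b = bp - bm ∧ p * bp = bp ∧ p * bm = 0 ∧ bp = cfc (fun t : ℝ => max t 0) b := by
  set bp := cfc (fun t : ℝ => max t 0) b with hbp
  set bm := cfc (fun t : ℝ => max (-t) 0) b with hbm
  have hbpA : bp ∈ A := cfc_mem_A hA hbA _
  have hbmA : bm ∈ A := cfc_mem_A hA hbA _
  have hsplit : b = bp - bm := by
    rw [hbp, hbm, ← cfc_sub (fun t : ℝ => max t 0) (fun t : ℝ => max (-t) 0) b]
    conv_lhs => rw [← cfc_id ℝ b hb]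
    refine cfc_congr (fun t _ => ?_)
    rcases le_total t 0 with h | h <;> simp [h]
  have hmp : bm * bp = 0 := by
    rw [hbp, hbm, ← cfc_mul (fun t : ℝ => max (-t) 0) _ b]
    refine (cfc_congr (fun t _ => ?_)).trans (cfc_const_zero ℝ b)
    rcases le_total t 0 with h | h <;> simp [h]
  let K : Submodule ℂ H := bp.range.topologicalClosure
  have : CompleteSpace K := Submodule.topologicalClosure.completeSpace _
  have hinv : ∀ y, y * bp = bp * y → ∀ k ∈ K, y k ∈ K := by
    intro y hy k hk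
    have hmaps : Set.MapsTo y (bp.range : Set H) (bp.range : Set H) := by
      rintro _ ⟨u, rfl⟩
      exact ⟨y u, (DFunLike.congr_fun hy u).symm⟩
    exact (hmaps.closure y.continuous) hk
  have heA : K.starProjection ∈ A := hA.proj_mem K (fun a ha => hinv a (hA.comm ha hbpA))
    (fun m hm => hinv m (commute_of_mem_centralizer (hA.mem_M hbpA) hm))
  have hfix : K.starProjection * bp = bp := ContinuousLinearMap.ext (fun v =>
    Submodule.starProjection_eq_self_iff.2 (bp.range.le_topologicalClosure ⟨v, rfl⟩))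
  have hkill : bm * K.starProjection = 0 := by
    refine ContinuousLinearMap.ext (fun v => ?_)
    have hsub : (bp.range : Set H) ⊆ {k : H | bm k = 0} := by
      rintro _ ⟨u, rfl⟩
      exact DFunLike.congr_fun hmp u
    exact (isClosed_eq bm.continuous continuous_const).closure_subset_iff.2 hsub
      (K.starProjection_apply_mem v)
  refine ⟨K.starProjection, bp, bm, heA, isStarProjection_starProjection, hbpA, hbmA,
    pos_cfc hb _ (continuous_id.max continuous_const) (fun t => le_max_right _ _),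
    pos_cfc hb _ (continuous_neg.max continuous_const) (fun t => le_max_right _ _),
    hsplit, hfix, (hA.comm heA hbmA).trans hkill, rfl⟩

/-- A pointwise maximum of finitely many positive elements of `A`, as a labelling. -/
lemma exists_argmax (hA : IsMASAIn M A) : ∀ {k : ℕ} (f : Fin k → (H →L[ℂ] H)),
    (∀ i, f i ∈ A ∧ Pos (f i)) → ∃ x : Fin k → (H →L[ℂ] H),
      (∀ i, x i ∈ A ∧ IsStarProjection (x i)) ∧ (∀ i j, i ≠ j → x i * x j = 0) ∧
      Pos (∑ i, x i * f i) ∧ ∀ i, Pos (∑ j, x j * f j - f i) := by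
  intro k
  induction k with
  | zero =>
    intro f _
    exact ⟨0, fun i => i.elim0, fun i => i.elim0, by simpa using Pos.zero, fun i => i.elim0⟩
  | succ k ih =>
    intro f hf
    obtain ⟨x, hx, hxo, hm, hmax⟩ := ih (fun i => f i.castSucc) (fun i => hf _)
    set m := ∑ i, x i * f i.castSucc with hmdef
    have hmA : m ∈ A := sum_mem (fun i _ => mul_mem (hx i).1 (hf _).1)
    have hbA : f (Fin.last k) - m ∈ A := sub_mem (hf _).1 hmA
    obtain ⟨p, bp, bm, hpA, hp, hbpA, hbmA, hbp, hbm, hsplit, hfix, hkill, -⟩ :=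
      exists_pos_split hA hbA ((hf _).2.1.sub hm.1)
    have h1p : 1 - p ∈ A := sub_mem (one_mem A) hpA
    refine ⟨Fin.snoc (fun i => (1 - p) * x i) p, ?_, ?_, ?_⟩
    · intro i
      induction i using Fin.lastCases with
      | last => simpa using ⟨hpA, hp⟩
      | cast i =>
        simpa using ⟨mul_mem h1p (hx i).1, hA.mul_proj hp.one_sub (hx i).2 h1p (hx i).1⟩
    · intro i j hij
      have hp0 : p * (1 - p) = 0 := by
        rw [mul_sub, mul_one, hp.isIdempotentElem.eq, sub_self]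
      induction i using Fin.lastCases with
      | last =>
        induction j using Fin.lastCases with
        | last => exact absurd rfl hij
        | cast j => simp [← mul_assoc, hp0]
      | cast i =>
        induction j using Fin.lastCases with
        | last =>
          simp only [Fin.snoc_castSucc, Fin.snoc_last]
          rw [hA.comm h1p (hx i).1, mul_assoc, hA.comm h1p hpA, hp0, mul_zero]
        | cast j =>
          have hij' : i ≠ j := fun e => hij (by rw [e])
          simp only [Fin.snoc_castSucc]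
          rw [mul_assoc, ← mul_assoc (x i), hA.comm (hx i).1 h1p, mul_assoc, hxo i j hij',
            mul_zero, mul_zero]
    · have hsum : ∑ i, Fin.snoc (α := fun _ => H →L[ℂ] H) (fun i => (1 - p) * x i) p i * f i
          = m + bp := by
        rw [Fin.sum_univ_castSucc]
        simp only [Fin.snoc_castSucc, Fin.snoc_last, mul_assoc, ← Finset.mul_sum, ← hmdef]
        have e : p * (f (Fin.last k) - m) = bp := by
          rw [hsplit, mul_sub, hfix, hkill, sub_zero]
        rw [← e, mul_sub, sub_mul, one_mul]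
        abel
      rw [hsum]
      refine ⟨hm.add hbp, fun i => ?_⟩
      induction i using Fin.lastCases with
      | last =>
        have e : m + bp - f (Fin.last k) = bm := by
          rw [sub_eq_sub_iff_add_eq_add] at hsplit
          rw [sub_eq_iff_eq_add, add_comm bm, hsplit, add_comm]
        rw [e]
        exact hbm
      | cast i =>
        rw [add_sub_right_comm]
        exact (hmax i).add hbp

/-- A sum of orthogonal projections is a projection. -/
lemma sum_isStarProjection {ι : Type*} (s : Finset ι) (p : ι → (H →L[ℂ] H))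
    (hp : ∀ i, IsStarProjection (p i)) (ho : ∀ i j, i ≠ j → p i * p j = 0) :
    IsStarProjection (∑ i ∈ s, p i) := by
  classical
  refine ⟨?_, ?_⟩
  · change (∑ i ∈ s, p i) * (∑ i ∈ s, p i) = _
    rw [Finset.sum_mul_sum]
    refine Finset.sum_congr rfl (fun i hi => ?_)
    rw [Finset.sum_eq_single_of_mem i hi (fun j _ hj => ho i j (Ne.symm hj))]
    exact (hp i).isIdempotentElem
  · change star (∑ i ∈ s, p i) = _
    rw [star_sum]
    exact Finset.sum_congr rfl (fun i _ => (hp i).isSelfAdjoint.star_eq)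

/-- Pythagoras for finitely many pairwise orthogonal vectors. -/
lemma norm_sq_sum_orth {ι : Type*} (s : Finset ι) (v : ι → H)
    (hv : ∀ i ∈ s, ∀ j ∈ s, i ≠ j → ⟪v i, v j⟫ = 0) :
    ‖∑ i ∈ s, v i‖ ^ 2 = ∑ i ∈ s, ‖v i‖ ^ 2 := by
  classical
  rw [@norm_sq_eq_re_inner ℂ, sum_inner, map_sum]
  refine Finset.sum_congr rfl (fun i hi => ?_)
  rw [inner_sum, Finset.sum_eq_single_of_mem i hi (fun j hj hne => hv i hi j hj (Ne.symm hne)),
    ← @norm_sq_eq_re_inner ℂ]

lemma norm_sq_sum_left {ι : Type*} (s : Finset ι) (e : ι → (H →L[ℂ] H))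
    (he : ∀ i, IsStarProjection (e i)) (ho : ∀ i j, i ≠ j → e i * e j = 0) (v : ι → H) :
    ‖∑ i ∈ s, e i (v i)‖ ^ 2 = ∑ i ∈ s, ‖e i (v i)‖ ^ 2 :=
  norm_sq_sum_orth s _ (fun i _ j _ hij => by
    rw [sa_inner (he i).isSelfAdjoint]
    change ⟪v i, (e i * e j) (v j)⟫ = 0
    simp [ho i j hij])

variable (h : FinSetting M A Ω)
include h

/-- Trace of a product of positive elements of `A`. -/
lemma tau_mul_nonneg {a b : H →L[ℂ] H} (haA : a ∈ A) (ha : Pos a) (hbA : b ∈ A) (hb : Pos b) :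
    0 ≤ (⟪Ω, (a * b) Ω⟫).re := by
  obtain ⟨s, hs, hss, hsd⟩ := hb.exists_sqrt
  have hsA : s ∈ A := hsd ▸ cfc_mem_A h.masa hbA _
  rw [← hss, ← mul_assoc, h.masa.comm haA hsA, mul_assoc]
  change 0 ≤ (⟪Ω, s (a (s Ω))⟫).re
  rw [← sa_inner hs]
  exact ha.2 _

lemma tau_plim (X : H →L[ℂ] H) (hX : X ∈ M) : ⟪Ω, plim h.masa X Ω⟫ = ⟪Ω, X Ω⟫ := by
  have h1 : ∀ P : Part A, ⟪P.pinch X Ω, Ω⟫ = ⟪X Ω, Ω⟫ := fun P => by
    simpa [pinch_of_mem h.masa (one_mem A)] using inner_pinch_apply h P X (one_mem M) hX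
  have h2 : ⟪plim h.masa X Ω, Ω⟫ = ⟪X Ω, Ω⟫ :=
    tendsto_nhds_unique (tendsto_plim h.masa X Ω Ω)
      (tendsto_const_nhds.congr (fun P => (h1 P).symm))
  rw [← inner_conj_symm, h2, inner_conj_symm]

lemma pos_plim {X : H →L[ℂ] H} (hX : Pos X) : Pos (plim h.masa X) := by
  refine ⟨plim_isSelfAdjoint h.masa hX.1, fun v => ?_⟩
  rw [← RCLike.re_to_complex, inner_re_symm, RCLike.re_to_complex]
  refine ge_of_tendsto' ((Complex.continuous_re.tendsto _).comp (tendsto_plim h.masa X v v))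
    (fun P => ?_)
  simp only [Function.comp_apply, Part.pinch, _root_.sum_apply, sum_inner, Complex.re_sum]
  refine Finset.sum_nonneg (fun i _ => ?_)
  change 0 ≤ (⟪P.e i (X (P.e i v)), v⟫).re
  rw [sa_inner (P.proj i).isSelfAdjoint, ← RCLike.re_to_complex, inner_re_symm,
    RCLike.re_to_complex]
  exact hX.2 _

/-- Orthogonality from the right in the trace inner product. -/
lemma norm_sq_sum_right {ι : Type*} (s : Finset ι) (x : ι → (H →L[ℂ] H))
    (hxM : ∀ i, x i ∈ M) (hx : ∀ i, IsStarProjection (x i))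
    (ho : ∀ i j, i ≠ j → x i * x j = 0) {z : H →L[ℂ] H} (hz : z ∈ M) :
    ‖(z * ∑ i ∈ s, x i) Ω‖ ^ 2 = ∑ i ∈ s, ‖(z * x i) Ω‖ ^ 2 := by
  rw [Finset.mul_sum, _root_.sum_apply]
  refine norm_sq_sum_orth s _ (fun i _ j _ hij => ?_)
  rw [inner_eq h, star_mul, (hx i).isSelfAdjoint.star_eq, mul_assoc,
    h.tracial _ (hxM i) _ (mul_mem (star_mem hz) (mul_mem hz (hxM j))), mul_assoc, mul_assoc,
    ho j i hij.symm, mul_zero, mul_zero]
  simp

end Vale.Agent.P078.Finite
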