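import Vale.Agent.P078.Mix.Blocks

/-!
# The atomic mass of a bimodule vector

`score y b x Q` is the best `∑ ‖b e_J y x_J Ω‖²` over labellings of `Q` below `x`, `val` its
infimum over partitions. A near-optimal labelling of a fine partition splits `val` additively.
-/

namespace Vale.Agent.P078.Finite

open ComplexInnerProductSpace
open Filter Topology
open Vale.Agent.P078 Vale.Agent.P078.General

universe u

variable {H : Type u} [NormedAddCommGroup H] [InnerProductSpace ℂ H] [CompleteSpace H]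
variable {M : VonNeumannAlgebra H} {A : StarSubalgebra ℂ (H →L[ℂ] H)} {Ω : H}

/-- Labellings of the cells of `Q` by orthogonal projections of `A` below `x`. -/
def Lab (Q : Part A) (x : H →L[ℂ] H) : Set (Fin Q.n → (H →L[ℂ] H)) :=
  {l | (∀ j, l j ∈ A ∧ IsStarProjection (l j) ∧ x * l j = l j) ∧ ∀ i j, i ≠ j → l i * l j = 0}

/-- The value of a labelling. -/
noncomputable def labVal (Ω : H) (y b : H →L[ℂ] H) (Q : Part A) (l : Fin Q.n → (H →L[ℂ] H)) : ℝ :=
  ∑ j, ‖(b * Q.e j * y * l j) Ω‖ ^ 2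

/-- The best value of a labelling of `Q`. -/
noncomputable def score (Ω : H) (y b x : H →L[ℂ] H) (Q : Part A) : ℝ :=
  sSup (labVal Ω y b Q '' Lab Q x)

/-- The limit of the best values. -/
noncomputable def val (A : StarSubalgebra ℂ (H →L[ℂ] H)) (Ω : H) (y b x : H →L[ℂ] H) : ℝ :=
  ⨅ Q : Part A, score Ω y b x Q

lemma zero_mem_Lab (Q : Part A) (x : H →L[ℂ] H) : (fun _ => 0) ∈ Lab Q x :=
  ⟨fun _ => ⟨zero_mem A, IsStarProjection.zero _, mul_zero _⟩, fun _ _ _ => zero_mul _⟩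

variable (h : FinSetting M A Ω)
include h

variable {y b x : H →L[ℂ] H}

lemma labVal_le_bound (_hy : y ∈ M) (hbA : b ∈ A) (hb : IsStarProjection b) {Q : Part A}
    {l : Fin Q.n → (H →L[ℂ] H)} (hl : l ∈ Lab Q x) :
    labVal Ω y b Q l ≤ ‖y‖ ^ 2 * ‖Ω‖ ^ 2 := by
  have hp := fun j => h.masa.mul_proj hb (Q.proj j) hbA (Q.mem j)
  calc labVal Ω y b Q l ≤ ∑ j, ‖y‖ ^ 2 * ‖(l j) Ω‖ ^ 2 := by
        refine Finset.sum_le_sum (fun j _ => ?_)
        rw [← mul_pow]
        exact pow_le_pow_left₀ (norm_nonneg _)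
          ((proj_norm_le (hp j) _).trans (y.le_opNorm _)) 2
    _ = ‖y‖ ^ 2 * ‖(∑ j, l j) Ω‖ ^ 2 := by
        rw [← Finset.mul_sum, _root_.sum_apply,
          norm_sq_sum_left Finset.univ l (fun j => (hl.1 j).2.1) hl.2 (fun _ => Ω)]
    _ ≤ _ := mul_le_mul_of_nonneg_left (pow_le_pow_left₀ (norm_nonneg _)
          (proj_norm_le (sum_isStarProjection _ _ (fun j => (hl.1 j).2.1) hl.2) _) 2) (sq_nonneg _)

lemma labVal_le_score (hy : y ∈ M) (hbA : b ∈ A) (hb : IsStarProjection b) {Q : Part A}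
    {l : Fin Q.n → (H →L[ℂ] H)} (hl : l ∈ Lab Q x) : labVal Ω y b Q l ≤ score Ω y b x Q :=
  le_csSup ⟨_, by rintro _ ⟨l', hl', rfl⟩; exact labVal_le_bound h hy hbA hb hl'⟩
    (Set.mem_image_of_mem _ hl)

omit h in
lemma score_le_of {Q : Part A} {C : ℝ} (hC : ∀ l ∈ Lab Q x, labVal Ω y b Q l ≤ C) :
    score Ω y b x Q ≤ C :=
  csSup_le (Set.Nonempty.image _ ⟨_, zero_mem_Lab Q x⟩)
    (by rintro _ ⟨l, hl, rfl⟩; exact hC l hl)

lemma score_nonneg (hy : y ∈ M) (hbA : b ∈ A) (hb : IsStarProjection b) (Q : Part A) :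
    0 ≤ score Ω y b x Q :=
  le_trans (by simp [labVal]) (labVal_le_score h hy hbA hb (zero_mem_Lab Q x))

lemma val_le_score (hy : y ∈ M) (hbA : b ∈ A) (hb : IsStarProjection b) (Q : Part A) :
    val A Ω y b x ≤ score Ω y b x Q :=
  ciInf_le ⟨0, by rintro _ ⟨P, rfl⟩; exact score_nonneg h hy hbA hb P⟩ Q

lemma score_antitone (hy : y ∈ M) (hbA : b ∈ A) (hb : IsStarProjection b) {Q Q' : Part A}
    (hQ : Q ≤ Q') : score Ω y b x Q' ≤ score Ω y b x Q := by
  classical
  refine score_le_of (fun l hl => ?_)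
  choose π hπ using hQ
  set L : Fin Q.n → (H →L[ℂ] H) := fun j => ∑ k ∈ Finset.univ.filter (fun k => π k = j), l k
  have hL : L ∈ Lab Q x := by
    refine ⟨fun j => ⟨sum_mem (fun k _ => (hl.1 k).1),
      sum_isStarProjection _ l (fun k => (hl.1 k).2.1) hl.2, ?_⟩, fun i j hij => ?_⟩
    · rw [Finset.mul_sum]
      exact Finset.sum_congr rfl (fun k _ => (hl.1 k).2.2)
    · rw [Finset.sum_mul_sum]
      refine Finset.sum_eq_zero (fun k hk => Finset.sum_eq_zero (fun k' hk' => hl.2 k k' ?_))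
      simp only [Finset.mem_filter] at hk hk'
      rintro rfl
      exact hij (hk.2.symm.trans hk'.2)
  refine le_trans ?_ (labVal_le_score h hy hbA hb hL)
  unfold labVal
  rw [← Finset.sum_fiberwise Finset.univ π]
  refine Finset.sum_le_sum (fun j _ => ?_)
  rw [norm_sq_sum_right h _ l (fun k => h.masa.mem_M (hl.1 k).1) (fun k => (hl.1 k).2.1) hl.2
    (mul_mem (mul_mem (h.masa.mem_M hbA) (h.masa.mem_M (Q.mem j))) hy)]
  refine Finset.sum_le_sum (fun k hk => ?_)
  simp only [Finset.mem_filter] at hk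
  refine pow_le_pow_left₀ (norm_nonneg _) ?_ 2
  have e : b * Q'.e k = Q'.e k * (b * Q.e j) := by
    rw [h.masa.comm (Q'.mem k) (mul_mem hbA (Q.mem j)), mul_assoc, ← hk.2, hπ k]
  rw [e, mul_assoc (Q'.e k), mul_assoc (Q'.e k)]
  exact proj_norm_le (Q'.proj k) _

lemma score_add_le (hy : y ∈ M) (hbA : b ∈ A) (hb : IsStarProjection b) {x' : H →L[ℂ] H}
    (hxA : x ∈ A) (hx : IsStarProjection x) (hx'A : x' ∈ A) (hx' : IsStarProjection x')
    (hle : x * x' = x') (Q : Part A) :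
    score Ω y b x Q ≤ score Ω y b x' Q + score Ω y b (x - x') Q := by
  have hd : IsStarProjection (x - x') :=
    hx'.sub_of_mul_eq_left hx ((h.masa.comm hx'A hxA).trans hle)
  have hdA := sub_mem hxA hx'A
  refine score_le_of (fun l hl => ?_)
  have key : ∀ z, z ∈ A → IsStarProjection z → (fun j => z * l j) ∈ Lab Q z := fun z hzA hz =>
    ⟨fun j => ⟨mul_mem hzA (hl.1 j).1, h.masa.mul_proj hz (hl.1 j).2.1 hzA (hl.1 j).1,
      by rw [← mul_assoc, hz.isIdempotentElem.eq]⟩,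
     fun i j hij => by
      rw [mul_assoc, ← mul_assoc (l i), h.masa.comm (hl.1 i).1 hzA, mul_assoc z (l i),
        hl.2 i j hij, mul_zero, mul_zero]⟩
  refine le_trans (le_of_eq ?_) (add_le_add (labVal_le_score h hy hbA hb (key x' hx'A hx'))
    (labVal_le_score h hy hbA hb (key (x - x') hdA hd)))
  unfold labVal
  rw [← Finset.sum_add_distrib]
  refine Finset.sum_congr rfl (fun j _ => ?_)
  have hz : b * Q.e j * y ∈ M :=
    mul_mem (mul_mem (h.masa.mem_M hbA) (h.masa.mem_M (Q.mem j))) hy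
  have horth : x' * (x - x') = 0 := by
    rw [mul_sub, h.masa.comm hx'A hxA, hle, hx'.isIdempotentElem.eq, sub_self]
  have hsum := norm_sq_sum_right h (Finset.univ : Finset (Fin 2))
    ![x' * l j, (x - x') * l j]
    (fun i => by fin_cases i <;>
      exact h.masa.mem_M (mul_mem (by assumption) (hl.1 j).1))
    (fun i => by fin_cases i <;>
      exact h.masa.mul_proj (by assumption) (hl.1 j).2.1 (by assumption) (hl.1 j).1)
    (fun i k hik => by
      fin_cases i <;> fin_cases k <;> first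
        | exact absurd rfl hik
        | (simp only [Matrix.cons_val_zero, Matrix.cons_val_one, Fin.zero_eta, Fin.mk_one]
           rw [mul_assoc, ← mul_assoc (l j), h.masa.comm (hl.1 j).1 (by assumption),
             mul_assoc _ (l j), ← mul_assoc]
           first
             | rw [horth, zero_mul]
             | rw [h.masa.comm hdA hx'A, horth, zero_mul]))
    hz
  simp only [Fin.sum_univ_two, Matrix.cons_val_zero, Matrix.cons_val_one] at hsum
  rw [← hsum, ← add_mul, add_sub_cancel, (hl.1 j).2.2]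

lemma add_score_le (hy : y ∈ M) (hbA : b ∈ A) (hb : IsStarProjection b) {x' : H →L[ℂ] H}
    (hxA : x ∈ A) (hx : IsStarProjection x) (hx'A : x' ∈ A) (hx' : IsStarProjection x')
    (hle : x * x' = x') (Q : Part A) :
    score Ω y b x' Q + score Ω y b (x - x') Q ≤ score Ω y b x Q := by
  have hd : IsStarProjection (x - x') :=
    hx'.sub_of_mul_eq_left hx ((h.masa.comm hx'A hxA).trans hle)
  rw [← le_sub_iff_add_le']
  refine score_le_of (fun l' hl' => ?_)
  rw [le_sub_comm]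
  refine score_le_of (fun l hl => ?_)
  rw [le_sub_iff_add_le']
  have hdA := sub_mem hxA hx'A
  have hxd : x' * (x - x') = 0 := by
    rw [mul_sub, h.masa.comm hx'A hxA, hle, hx'.isIdempotentElem.eq, sub_self]
  have hcross : ∀ i k, l i * l' k = 0 := fun i k => by
    rw [← (hl.1 i).2.2, ← (hl'.1 k).2.2, h.masa.comm hx'A (hl.1 i).1, mul_assoc,
      ← mul_assoc x', hxd, zero_mul, mul_zero]
  have hlab : (fun j => l j + l' j) ∈ Lab Q x := by
    refine ⟨fun j => ⟨add_mem (hl.1 j).1 (hl'.1 j).1, (hl.1 j).2.1.add (hl'.1 j).2.1 (hcross j j),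
      ?_⟩, fun i j hij => ?_⟩
    · change x * (l j + l' j) = l j + l' j
      rw [mul_add, ← (hl.1 j).2.2, ← (hl'.1 j).2.2, ← mul_assoc, hle, ← mul_assoc, mul_sub,
        hx.isIdempotentElem.eq, hle]
    · rw [add_mul, mul_add, mul_add, hl.2 i j hij, hl'.2 i j hij, hcross i j,
        h.masa.comm (hl'.1 i).1 (hl.1 j).1, hcross j i]
      simp
  refine le_trans (le_of_eq ?_) (labVal_le_score h hy hbA hb hlab)
  unfold labVal
  rw [← Finset.sum_add_distrib]
  refine Finset.sum_congr rfl (fun j _ => ?_)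
  have hz : b * Q.e j * y ∈ M :=
    mul_mem (mul_mem (h.masa.mem_M hbA) (h.masa.mem_M (Q.mem j))) hy
  have hsum := norm_sq_sum_right h (Finset.univ : Finset (Fin 2)) ![l j, l' j]
    (fun i => by fin_cases i; exacts [h.masa.mem_M (hl.1 j).1, h.masa.mem_M (hl'.1 j).1])
    (fun i => by fin_cases i; exacts [(hl.1 j).2.1, (hl'.1 j).2.1])
    (fun i k hik => by
      fin_cases i <;> fin_cases k <;> first
        | exact absurd rfl hik
        | exact hcross j j
        | exact (h.masa.comm (hl'.1 j).1 (hl.1 j).1).trans (hcross j j))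
    hz
  simp only [Fin.sum_univ_two, Matrix.cons_val_zero, Matrix.cons_val_one] at hsum
  rw [add_comm]
  exact hsum.symm

/-- The two-cell partition `(1, 0)` gives the trivial bound. -/
lemma val_le_norm (hy : y ∈ M) (hbA : b ∈ A) (hb : IsStarProjection b) (hxM : x ∈ M) :
    val A Ω y b x ≤ ‖(b * y * x) Ω‖ ^ 2 := by
  refine (val_le_score h hy hbA hb (twoPart (one_mem A) (IsStarProjection.one _))).trans ?_
  refine score_le_of (fun l hl => ?_)
  obtain ⟨l0, hl0, hl0e⟩ : ∃ l0, l0 = l (0 : Fin 2) ∧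
      labVal Ω y b (twoPart (one_mem A) (IsStarProjection.one _)) l = ‖(b * y * l0) Ω‖ ^ 2 := by
    refine ⟨_, rfl, ?_⟩
    change ∑ j : Fin 2, ‖(b * ![(1 : H →L[ℂ] H), 1 - 1] j * y * l j) Ω‖ ^ 2 = _
    simp [Fin.sum_univ_two]
  rw [hl0e]
  refine pow_le_pow_left₀ (norm_nonneg _) ?_ 2
  obtain ⟨hA0, hp0, hx0⟩ := hl.1 (0 : Fin 2)
  subst hl0
  conv_lhs => rw [← hx0, ← mul_assoc]
  exact (norm_mul_right_le h (mul_mem (mul_mem (h.masa.mem_M hbA) hy) hxM) (h.masa.mem_M hA0)).trans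
    (mul_le_of_le_one_left (norm_nonneg _) hp0.norm_le)

/-- A near-optimal labelling of a fine partition splits the value. -/
lemma exists_val_split (hy : y ∈ M) (hbA : b ∈ A) (hb : IsStarProjection b) (hxA : x ∈ A)
    (hx : IsStarProjection x) {e : H →L[ℂ] H} (heA : e ∈ A) (he : IsStarProjection e) {ε : ℝ}
    (hε : 0 < ε) : ∃ x', x' ∈ A ∧ IsStarProjection x' ∧ x * x' = x' ∧
      val A Ω y b x - ε ≤ val A Ω y (b * e) x' + val A Ω y (b * (1 - e)) (x - x') := by
  classical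
  have h1eA := sub_mem (one_mem A) heA
  have hbeA := mul_mem hbA heA
  have hbfA := mul_mem hbA h1eA
  have hbe := h.masa.mul_proj hb he hbA heA
  have hbf := h.masa.mul_proj hb he.one_sub hbA h1eA
  have hnear : ∀ b', ∃ Q, score Ω y b' x Q < val A Ω y b' x + ε / 3 := fun b' =>
    exists_lt_of_ciInf_lt (by linarith : val A Ω y b' x < val A Ω y b' x + ε / 3)
  obtain ⟨Q1, hQ1⟩ := hnear (b * e)
  obtain ⟨Q2, hQ2⟩ := hnear (b * (1 - e))
  obtain ⟨R, hR1, hR2⟩ := h.masa.exists_join Q1 Q2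
  obtain ⟨Q, hQR, hQe⟩ := h.masa.exists_join R (twoPart heA he)
  obtain ⟨_, ⟨l, hl, rfl⟩, hlv⟩ := exists_lt_of_lt_csSup
    (Set.Nonempty.image (labVal Ω y b Q) ⟨_, zero_mem_Lab Q x⟩)
    (show score Ω y b x Q - ε / 3 < score Ω y b x Q by linarith)
  set S := Finset.univ.filter (fun j => e * Q.e j = Q.e j) with hS
  set x' := ∑ j ∈ S, l j with hx'def
  have hx'A : x' ∈ A := sum_mem (fun j _ => (hl.1 j).1)
  have hx' : IsStarProjection x' := sum_isStarProjection _ l (fun j => (hl.1 j).2.1) hl.2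
  have hle : x * x' = x' := by
    rw [hx'def, Finset.mul_sum]; exact Finset.sum_congr rfl (fun j _ => (hl.1 j).2.2)
  refine ⟨x', hx'A, hx', hle, ?_⟩
  have hcell : ∀ j, j ∉ S → e * Q.e j = 0 := by
    intro j hj
    obtain ⟨i, hi⟩ := hQe j
    fin_cases i
    · exact absurd (Finset.mem_filter.2 ⟨Finset.mem_univ j, by simpa [twoPart] using hi⟩) hj
    · have : (1 - e) * Q.e j = Q.e j := by simpa [twoPart] using hi
      rwa [sub_mul, one_mul, sub_eq_self] at this
  let lp : Fin Q.n → (H →L[ℂ] H) := fun j => if j ∈ S then l j else 0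
  let lm : Fin Q.n → (H →L[ℂ] H) := fun j => if j ∈ S then 0 else l j
  have hx'l : ∀ j, x' * l j = if j ∈ S then l j else 0 := fun j => by
    rw [hx'def, Finset.sum_mul]
    split_ifs with hj
    · rw [Finset.sum_eq_single_of_mem j hj (fun k _ hk => hl.2 k j hk)]
      exact (hl.1 j).2.1.isIdempotentElem
    · exact Finset.sum_eq_zero (fun k hk => hl.2 k j (fun e => hj (e ▸ hk)))
  have hlp : lp ∈ Lab Q x' := by
    refine ⟨fun j => ?_, fun i j hij => ?_⟩
    · by_cases hj : j ∈ S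
      · simp [lp, hj, hl.1 j, hx'l j]
      · simp [lp, hj]
    · by_cases hi : i ∈ S <;> by_cases hj : j ∈ S <;> simp [lp, hi, hj, hl.2 i j hij]
  have hlm : lm ∈ Lab Q (x - x') := by
    refine ⟨fun j => ?_, fun i j hij => ?_⟩
    · by_cases hj : j ∈ S
      · simp [lm, hj]
      · simp [lm, hj, hl.1 j, sub_mul, hx'l j]
    · by_cases hi : i ∈ S <;> by_cases hj : j ∈ S <;> simp [lm, hi, hj, hl.2 i j hij]
  have hsum : labVal Ω y b Q l = labVal Ω y (b * e) Q lp + labVal Ω y (b * (1 - e)) Q lm := by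
    unfold labVal
    rw [← Finset.sum_add_distrib]
    refine Finset.sum_congr rfl (fun j _ => ?_)
    by_cases hj : j ∈ S
    · have e1 : e * Q.e j = Q.e j := (Finset.mem_filter.1 hj).2
      simp [lp, lm, hj, mul_assoc b e, e1]
    · simp [lp, lm, hj, mul_assoc b (1 - e), sub_mul, hcell j hj]
  have key : ∀ (b' x₁ : H →L[ℂ] H) (Q0 : Part A) (l₁ : Fin Q.n → (H →L[ℂ] H)),
      b' ∈ A → IsStarProjection b' → x₁ ∈ A → IsStarProjection x₁ → x * x₁ = x₁ →
      Q0 ≤ Q → score Ω y b' x Q0 < val A Ω y b' x + ε / 3 → l₁ ∈ Lab Q x₁ →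
      labVal Ω y b' Q l₁ - ε / 3 ≤ val A Ω y b' x₁ := by
    intro b' x₁ Q0 l₁ hb'A hb' hx₁A hx₁ hx₁le hQ0 hopt hl₁
    refine le_ciInf (fun Q' => ?_)
    obtain ⟨Q'', hQ', hQQ⟩ := h.masa.exists_join Q' Q
    have a1 := score_add_le h hy hb'A hb' hxA hx hx₁A hx₁ hx₁le Q''
    have a2 := add_score_le h hy hb'A hb' hxA hx hx₁A hx₁ hx₁le Q
    have a3 := score_antitone h hy hb'A hb' (x := x - x₁) hQQ
    have a4 := val_le_score h hy hb'A hb' (x := x) Q''
    have a5 := score_antitone h hy hb'A hb' (x := x) hQ0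
    have a6 := score_antitone h hy hb'A hb' (x := x₁) hQ'
    have a7 := labVal_le_score h hy hb'A hb' hl₁
    linarith
  have hd : IsStarProjection (x - x') :=
    hx'.sub_of_mul_eq_left hx ((h.masa.comm hx'A hxA).trans hle)
  have k1 := key (b * e) x' Q1 lp hbeA hbe hx'A hx' hle (hR1.trans hQR) hQ1 hlp
  have k2 := key (b * (1 - e)) (x - x') Q2 lm hbfA hbf (sub_mem hxA hx'A) hd
    (by rw [mul_sub, hx.isIdempotentElem.eq, hle]) (hR2.trans hQR) hQ2 hlm
  have k3 := val_le_score h hy hbA hb (x := x) Q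
  linarith

end Vale.Agent.P078.Finite
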