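import Vale.Agent.P078.Mix.Env
import Vale.Agent.P078.Mix.Order

/-!
# Words in projection families

A word is a product of fixed elements and of sites, a site being a family of orthogonal
projections of `A` indexed by the value of a variable.
-/

set_option linter.unusedSectionVars false

namespace Vale.Agent.P078.Finite

open ComplexInnerProductSpace
open Filter Topology
open Vale.Agent.P078 Vale.Agent.P078.General

universe u

variable {H : Type u} [NormedAddCommGroup H] [InnerProductSpace ℂ H] [CompleteSpace H]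
variable {M : VonNeumannAlgebra H} {A : StarSubalgebra ℂ (H →L[ℂ] H)} {Ω : H}

/-- A letter of a word. -/
inductive Tok (H : Type u) [NormedAddCommGroup H] [InnerProductSpace ℂ H] (V : Type) (n : ℕ) where
  | site (v : V) (p : Fin n → (H →L[ℂ] H))
  | elt (x : H →L[ℂ] H)

variable {V : Type} {n : ℕ}

/-- The value of a letter. -/
def Tok.val (g : V → Fin n) : Tok H V n → (H →L[ℂ] H)
  | .site v p => p (g v)
  | .elt x => x

/-- The value of a word. -/
noncomputable def eval (g : V → Fin n) (L : List (Tok H V n)) : H →L[ℂ] H :=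
  (L.map (Tok.val g)).prod

/-- The bound of a word. -/
noncomputable def size : List (Tok H V n) → ℝ
  | [] => 1
  | .site _ _ :: L => size L
  | .elt x :: L => ‖x‖ * size L

/-- The variables of a word. -/
def vars [DecidableEq V] : List (Tok H V n) → Finset V
  | [] => ∅
  | .site v _ :: L => insert v (vars L)
  | .elt _ :: L => vars L

/-- Admissible letters. -/
def Tok.Good (M : VonNeumannAlgebra H) (A : StarSubalgebra ℂ (H →L[ℂ] H)) : Tok H V n → Prop
  | .site _ p => (∀ a, p a ∈ A ∧ IsStarProjection (p a)) ∧ ∀ a b, a ≠ b → p a * p b = 0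
  | .elt x => x ∈ M

/-- The adjoint word. -/
noncomputable def Tok.adj : Tok H V n → Tok H V n
  | .site v p => .site v p
  | .elt x => .elt (star x)

/-- The adjoint word. -/
noncomputable def rev (L : List (Tok H V n)) : List (Tok H V n) := (L.map Tok.adj).reverse

lemma size_nonneg : ∀ L : List (Tok H V n), 0 ≤ size L
  | [] => zero_le_one
  | .site _ _ :: L => size_nonneg L
  | .elt _ :: L => mul_nonneg (norm_nonneg _) (size_nonneg L)

lemma size_append : ∀ L L' : List (Tok H V n), size (L ++ L') = size L * size L'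
  | [], L' => by simp [size]
  | .site _ _ :: L, L' => by simp [size, size_append L L']
  | .elt _ :: L, L' => by simp [size, size_append L L', mul_assoc]

lemma size_rev : ∀ L : List (Tok H V n), size (rev L) = size L
  | [] => rfl
  | .site _ _ :: L => by
    have := size_rev L
    simp only [rev, List.map_cons, List.reverse_cons, Tok.adj] at this ⊢
    simp [size_append, this, size]
  | .elt x :: L => by
    have := size_rev L
    simp only [rev, List.map_cons, List.reverse_cons, Tok.adj] at this ⊢
    simp [size_append, this, size, mul_comm]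

@[simp] lemma eval_nil (g : V → Fin n) : eval g ([] : List (Tok H V n)) = 1 := rfl

lemma eval_cons (g : V → Fin n) (t : Tok H V n) (L : List (Tok H V n)) :
    eval g (t :: L) = t.val g * eval g L := by simp [eval]

lemma eval_append (g : V → Fin n) (L L' : List (Tok H V n)) :
    eval g (L ++ L') = eval g L * eval g L' := by simp [eval]

variable [DecidableEq V]

lemma vars_append : ∀ L L' : List (Tok H V n), vars (L ++ L') = vars L ∪ vars L'
  | [], L' => by simp [vars]
  | .site _ _ :: L, L' => by simp [vars, vars_append L L', Finset.insert_union]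
  | .elt _ :: L, L' => by simp [vars, vars_append L L']

lemma vars_rev : ∀ L : List (Tok H V n), vars (rev L) = vars L
  | [] => rfl
  | .site v p :: L => by
    have := vars_rev L
    simp only [rev, List.map_cons, List.reverse_cons, Tok.adj] at this ⊢
    simp [vars_append, this, vars]
  | .elt x :: L => by
    have := vars_rev L
    simp only [rev, List.map_cons, List.reverse_cons, Tok.adj] at this ⊢
    simp [vars_append, this, vars]

lemma eval_congr : ∀ {L : List (Tok H V n)} {g g' : V → Fin n},
    (∀ v ∈ vars L, g v = g' v) → eval g L = eval g' L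
  | [], _, _, _ => rfl
  | .site v p :: L, g, g', hg => by
    rw [eval_cons, eval_cons, eval_congr (fun w hw => hg w (by simp [vars, hw]))]
    simp [Tok.val, hg v (by simp [vars])]
  | .elt x :: L, g, g', hg => by
    rw [eval_cons, eval_cons, eval_congr (L := L) (fun w hw => hg w (by simpa [vars] using hw))]
    rfl

lemma eval_mem (hA : IsMASAIn M A) (g : V → Fin n) :
    ∀ {L : List (Tok H V n)}, (∀ t ∈ L, t.Good M A) → eval g L ∈ M
  | [], _ => one_mem M
  | .site v p :: L, hL => by
    rw [eval_cons]
    exact mul_mem (hA.mem_M ((hL _ (List.mem_cons_self ..)).1 (g v)).1)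
      (eval_mem hA g (fun t ht => hL t (List.mem_cons_of_mem _ ht)))
  | .elt x :: L, hL => by
    rw [eval_cons]
    exact mul_mem (show x ∈ M from hL _ (List.mem_cons_self ..))
      (eval_mem hA g (fun t ht => hL t (List.mem_cons_of_mem _ ht)))

lemma eval_rev (g : V → Fin n) : ∀ {L : List (Tok H V n)}, (∀ t ∈ L, t.Good M A) →
    eval g (rev L) = star (eval g L)
  | [], _ => by simp [rev]
  | .site v p :: L, hL => by
    have ih := eval_rev g (fun t ht => hL t (List.mem_cons_of_mem _ ht))
    simp only [rev, List.map_cons, List.reverse_cons, Tok.adj] at ih ⊢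
    rw [eval_append, ih]
    simp only [eval_cons, eval_nil, mul_one, star_mul, Tok.val]
    congr 1
    exact ((hL _ (List.mem_cons_self ..)).1 (g v)).2.isSelfAdjoint.star_eq.symm
  | .elt x :: L, hL => by
    have ih := eval_rev g (fun t ht => hL t (List.mem_cons_of_mem _ ht))
    simp only [rev, List.map_cons, List.reverse_cons, Tok.adj] at ih ⊢
    rw [eval_append, ih]
    simp only [eval_cons, eval_nil, mul_one, star_mul, Tok.val]

lemma good_rev {L : List (Tok H V n)} (hL : ∀ t ∈ L, t.Good M A) :
    ∀ t ∈ rev L, t.Good M A := by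
  intro t ht
  simp only [rev, List.mem_reverse, List.mem_map] at ht
  obtain ⟨s, hs, rfl⟩ := ht
  cases s with
  | site v p => exact hL _ hs
  | elt x => exact star_mem (show x ∈ M from hL _ hs)

/-- Letters in an abelian prefix may be permuted. -/
lemma eval_perm (hA : IsMASAIn M A) (g : V → Fin n) {L L' : List (V × (Fin n → (H →L[ℂ] H)))}
    (hp : L.Perm L') (hL : ∀ s ∈ L, ∀ a, s.2 a ∈ A) :
    eval g (L.map (fun s => Tok.site s.1 s.2)) = eval g (L'.map (fun s => Tok.site s.1 s.2)) := by
  induction hp with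
  | nil => rfl
  | cons x _ ih =>
    simp only [List.map_cons, eval_cons]
    rw [ih (fun s hs => hL s (List.mem_cons_of_mem _ hs))]
  | swap x y l =>
    simp only [List.map_cons, eval_cons, Tok.val, ← mul_assoc]
    rw [hA.comm (hL y (by simp) _) (hL x (by simp) _)]
  | trans h1 _ ih1 ih2 =>
    rw [ih1 hL, ih2 (fun s hs => hL s (h1.mem_iff.2 hs))]

variable [Fintype V]

omit [CompleteSpace H] in
/-- Dropping an orthogonal family of projections. -/
lemma sum_proj_le {p : Fin n → (H →L[ℂ] H)} [CompleteSpace H] (hp : ∀ a, IsStarProjection (p a))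
    (ho : ∀ a b, a ≠ b → p a * p b = 0) (z : H) : ∑ a, ‖p a z‖ ^ 2 ≤ ‖z‖ ^ 2 := by
  rw [← norm_sq_sum_left Finset.univ p hp ho (fun _ => z), ← _root_.sum_apply]
  exact pow_le_pow_left₀ (norm_nonneg _) (proj_norm_le (sum_isStarProjection _ p hp ho) z) 2

/-- A projection site in front of a family that does not see its variable. -/
lemma site_step {p : Fin n → (H →L[ℂ] H)} (hp : ∀ a, IsStarProjection (p a))
    (ho : ∀ a b, a ≠ b → p a * p b = 0) {S : Finset V} {v : V} {F : (V → Fin n) → H}
    (hF : v ∈ S ∨ ∀ g a, F (Function.update g v a) = F g) (base : V → Fin n) :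
    ∑ g ∈ Env (insert v S) base, ‖p (g v) (F g)‖ ^ 2 ≤ ∑ g ∈ Env S base, ‖F g‖ ^ 2 := by
  by_cases hv : v ∈ S
  · rw [Finset.insert_eq_of_mem hv]
    exact Finset.sum_le_sum (fun g _ =>
      pow_le_pow_left₀ (norm_nonneg _) (proj_norm_le (hp _) _) 2)
  have hF' := hF.resolve_left hv
  rw [Finset.insert_eq, Finset.union_comm, sum_Env_union (Finset.disjoint_singleton_right.2 hv)]
  refine Finset.sum_le_sum (fun g _ => ?_)
  rw [← insert_empty_eq, sum_Env_insert (Finset.notMem_empty v)]
  simp only [Env_empty, Finset.sum_singleton, Function.update_self, hF']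
  exact sum_proj_le hp ho _

/-- The mixed bound: outer variables squared, inner variables summed first. -/
theorem word_bound : ∀ {L : List (Tok H V n)}, (∀ t ∈ L, t.Good M A) → ∀ {O : Finset V},
    O ⊆ vars L → ∀ (base : V → Fin n) (ξ : H),
      ∑ g ∈ Env O base, ‖∑ k ∈ Env (vars L \ O) g, eval k L ξ‖ ^ 2 ≤ size L ^ 2 * ‖ξ‖ ^ 2
  | [], _, O, hO, base, ξ => by
    rw [Finset.subset_empty.1 hO]
    simp [Env_empty, vars, size]
  | .elt x :: L, hL, O, hO, base, ξ => by
    have ih := word_bound (fun t ht => hL t (List.mem_cons_of_mem _ ht)) hO base ξ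
    calc ∑ g ∈ Env O base, ‖∑ k ∈ Env (vars (Tok.elt x :: L) \ O) g, eval k (Tok.elt x :: L) ξ‖ ^ 2
        = ∑ g ∈ Env O base, ‖x (∑ k ∈ Env (vars L \ O) g, eval k L ξ)‖ ^ 2 := by
          simp [vars, eval_cons, Tok.val, map_sum]
      _ ≤ ∑ g ∈ Env O base, ‖x‖ ^ 2 * ‖∑ k ∈ Env (vars L \ O) g, eval k L ξ‖ ^ 2 :=
          Finset.sum_le_sum (fun g _ => by
            rw [← mul_pow]; exact pow_le_pow_left₀ (norm_nonneg _) (x.le_opNorm _) 2)
      _ ≤ ‖x‖ ^ 2 * (size L ^ 2 * ‖ξ‖ ^ 2) := by
          rw [← Finset.mul_sum]; exact mul_le_mul_of_nonneg_left ih (sq_nonneg _)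
      _ = _ := by simp [size]; ring
  | .site v p :: L, hL, O, hO, base, ξ => by
    have hL' : ∀ t ∈ L, t.Good M A := fun t ht => hL t (List.mem_cons_of_mem _ ht)
    obtain ⟨hp, ho⟩ := hL _ (List.mem_cons_self ..)
    have hp' := fun a => (hp a).2
    have outer : ∀ O', v ∈ O' → O' ⊆ insert v (vars L) →
        ∑ g ∈ Env O' base, ‖p (g v) (∑ k ∈ Env (insert v (vars L) \ O') g, eval k L ξ)‖ ^ 2
          ≤ size L ^ 2 * ‖ξ‖ ^ 2 := by
      intro O' hvO hO'
      by_cases hv : v ∈ vars L
      · rw [Finset.insert_eq_of_mem hv] at hO' ⊢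
        exact (Finset.sum_le_sum (fun g _ => pow_le_pow_left₀ (norm_nonneg _)
          (proj_norm_le (hp' _) _) 2)).trans (word_bound hL' hO' base ξ)
      · have hsd : insert v (vars L) \ O' = vars L \ O'.erase v := by
          ext w
          by_cases hwv : w = v
          · subst hwv; simp [hvO, hv]
          · simp [hwv]
        rw [hsd]
        have hst := site_step hp' ho (S := O'.erase v) (v := v)
          (F := fun g => ∑ k ∈ Env (vars L \ O'.erase v) g, eval k L ξ) (Or.inr (fun g a => by
            refine sum_Env_congr (D := vars L) (fun k k' hk => by rw [eval_congr hk]) ?_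
            intro w hw _
            rw [Function.update_of_ne (fun e => hv (by rw [← e]; exact hw))])) base
        rw [Finset.insert_erase hvO] at hst
        exact hst.trans (word_bound hL' (fun w hw => Finset.mem_of_mem_insert_of_ne
          (hO' (Finset.mem_of_mem_erase hw)) (Finset.ne_of_mem_erase hw)) base ξ)
    change ∑ g ∈ Env O base, ‖∑ k ∈ Env (insert v (vars L) \ O) g,
      eval k (Tok.site v p :: L) ξ‖ ^ 2 ≤ size L ^ 2 * ‖ξ‖ ^ 2
    by_cases hvO : v ∈ O
    · refine le_trans (le_of_eq ?_) (outer O hvO hO)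
      refine Finset.sum_congr rfl (fun g _ => ?_)
      congr 2
      rw [map_sum]
      refine Finset.sum_congr rfl (fun k hk => ?_)
      rw [eval_cons]
      simp [Tok.val, mem_Env.1 hk v (by simp [hvO])]
    · refine le_trans (le_of_eq ?_)
        (outer (insert v O) (Finset.mem_insert_self v O)
          (Finset.insert_subset (Finset.mem_insert_self ..) hO))
      rw [show insert v O = O ∪ {v} by rw [Finset.insert_eq, Finset.union_comm],
        sum_Env_union (Finset.disjoint_singleton_right.2 hvO)]
      refine Finset.sum_congr rfl (fun g _ => ?_)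
      have hsd : insert v (vars L) \ (O ∪ {v}) = (insert v (vars L) \ O).erase v := by
        ext w; simp; tauto
      rw [← insert_empty_eq, sum_Env_insert (Finset.notMem_empty v)]
      simp only [Env_empty, Finset.sum_singleton, Function.update_self]
      rw [sum_Env_insert' (v := v) (by simp [hvO])]
      rw [← norm_sq_sum_left Finset.univ p hp' ho]
      congr 2
      refine Finset.sum_congr rfl (fun a _ => ?_)
      rw [map_sum]
      refine Finset.sum_congr (by rw [insert_empty_eq, hsd]) (fun k hk => ?_)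
      rw [eval_cons]
      have : k v = a := by
        have := mem_Env.1 hk v (by simp)
        simpa using this
      simp [Tok.val, this]

/-- Variables occurring in an abelian prefix are orthogonal. -/
lemma sum_orth_left (hA : IsMASAIn M A) {L₀ L₁ : List (Tok H V n)}
    (hL : ∀ t ∈ L₀, t.Good M A) (hsite : ∀ t ∈ L₀, ∀ x, t ≠ Tok.elt x) {I : Finset V}
    (hI : I ⊆ vars L₀) (g : V → Fin n) (ξ : H) :
    ‖∑ k ∈ Env I g, eval k (L₀ ++ L₁) ξ‖ ^ 2
      = ∑ k ∈ Env I g, ‖eval k (L₀ ++ L₁) ξ‖ ^ 2 := by
  refine norm_sq_sum_orth _ _ (fun k hk k' hk' hne => ?_)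
  obtain ⟨v, hv⟩ := Function.ne_iff.1 hne
  have hvI : v ∈ I := by
    by_contra hc
    exact hv ((mem_Env.1 hk v hc).trans (mem_Env.1 hk' v hc).symm)
  have key : ∀ L : List (Tok H V n), (∀ t ∈ L, t.Good M A) → (∀ t ∈ L, ∀ x, t ≠ Tok.elt x) →
      (eval k L ∈ A ∧ eval k' L ∈ A ∧ IsStarProjection (eval k L)) ∧
        (v ∈ vars L → eval k L * eval k' L = 0) := by
    intro L
    induction L with
    | nil => exact fun _ _ => ⟨⟨one_mem A, one_mem A, IsStarProjection.one _⟩, by simp [vars]⟩
    | cons t L ih =>
      intro hg hs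
      obtain ⟨⟨i1, i2, i3⟩, i4⟩ := ih (fun t ht => hg t (List.mem_cons_of_mem _ ht))
        (fun t ht => hs t (List.mem_cons_of_mem _ ht))
      cases t with
      | elt x => exact absurd rfl (hs _ (List.mem_cons_self ..) x)
      | site w p =>
        obtain ⟨hp, ho⟩ := hg _ (List.mem_cons_self ..)
        simp only [eval_cons, Tok.val]
        refine ⟨⟨mul_mem (hp _).1 i1, mul_mem (hp _).1 i2,
          hA.mul_proj (hp _).2 i3 (hp _).1 i1⟩, fun hvL => ?_⟩
        rw [mul_assoc, ← mul_assoc (eval k L), hA.comm i1 (hp (k' w)).1, mul_assoc (p (k' w)),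
          ← mul_assoc (p (k w))]
        simp only [vars, Finset.mem_insert] at hvL
        rcases hvL with rfl | hvL
        · rw [ho _ _ hv, zero_mul]
        · rw [i4 hvL, mul_zero]
  obtain ⟨⟨h1, -, h3⟩, h4⟩ := key L₀ hL hsite
  rw [eval_append, eval_append]
  change ⟪eval k L₀ (eval k L₁ ξ), eval k' L₀ (eval k' L₁ ξ)⟫ = 0
  rw [sa_inner h3.isSelfAdjoint]
  change ⟪eval k L₁ ξ, (eval k L₀ * eval k' L₀) (eval k' L₁ ξ)⟫ = 0
  simp [h4 (hI hvI)]

/-- All variables squared. -/
noncomputable def msum (Ω : H) (L : List (Tok H V n)) (base : V → Fin n) : ℝ :=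
  ∑ g ∈ Env (vars L) base, ‖eval g L Ω‖ ^ 2

lemma msum_site_le {v : V} {p : Fin n → (H →L[ℂ] H)} {L : List (Tok H V n)}
    (hg : (Tok.site v p).Good M A) (base : V → Fin n) :
    msum Ω (Tok.site v p :: L) base ≤ msum Ω L base := by
  simp only [msum, vars, eval_cons, Tok.val, mul_apply_eq_comp]
  refine site_step (fun a => (hg.1 a).2) hg.2 (F := fun g => eval g L Ω) ?_ base
  by_cases hv : v ∈ vars L
  · exact Or.inl hv
  · exact Or.inr (fun g a => by
      rw [eval_congr (g' := g) (fun w hw => Function.update_of_ne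
        (fun e => hv (by rw [← e]; exact hw)) _ _)])

lemma msum_rev (h : FinSetting M A Ω) {L : List (Tok H V n)} (hL : ∀ t ∈ L, t.Good M A)
    (base : V → Fin n) : msum Ω (rev L) base = msum Ω L base := by
  simp only [msum, vars_rev]
  exact Finset.sum_congr rfl (fun g _ => by
    rw [eval_rev g hL, norm_star_apply h (eval_mem h.masa g hL)])

lemma msum_sites_left {Ls L : List (Tok H V n)} (hg : ∀ t ∈ Ls, t.Good M A)
    (hs : ∀ t ∈ Ls, ∀ x, t ≠ Tok.elt x) (base : V → Fin n) :
    msum Ω (Ls ++ L) base ≤ msum Ω L base := by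
  induction Ls with
  | nil => exact le_rfl
  | cons t Ls ih =>
    cases t with
    | elt x => exact absurd rfl (hs _ (List.mem_cons_self ..) x)
    | site v p =>
      exact (msum_site_le (hg _ (List.mem_cons_self ..)) base).trans
        (ih (fun t ht => hg t (List.mem_cons_of_mem _ ht))
          (fun t ht => hs t (List.mem_cons_of_mem _ ht)))

lemma msum_sites_right (h : FinSetting M A Ω) {Ls L : List (Tok H V n)}
    (hg : ∀ t ∈ Ls, t.Good M A) (hL : ∀ t ∈ L, t.Good M A)
    (hs : ∀ t ∈ Ls, ∀ x, t ≠ Tok.elt x) (base : V → Fin n) :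
    msum Ω (L ++ Ls) base ≤ msum Ω L base := by
  have hgood : ∀ t ∈ L ++ Ls, t.Good M A := fun t ht =>
    (List.mem_append.1 ht).elim (hL t) (hg t)
  have e : rev (L ++ Ls) = rev Ls ++ rev L := by simp [rev]
  rw [← msum_rev h hgood, e, ← msum_rev h hL]
  refine msum_sites_left (good_rev hg) (fun t ht x hx => ?_) base
  simp only [rev, List.mem_reverse, List.mem_map] at ht
  obtain ⟨s, hsm, rfl⟩ := ht
  cases s with
  | site v p => cases hx
  | elt y => exact hs _ hsm y rfl

end Vale.Agent.P078.Finite
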